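import Vale.Agent.P254.Perm.Defs
import Vale.Agent.P254.Unc.BM

/-! P254, permutation invariant bodies: sections, Brunn-Minkowski. -/

open MeasureTheory Set
open scoped Pointwise

namespace Vale.Agent.P254.Perm

theorem sec_smul {m : ℕ} {c : ℝ} (hc : 0 ≤ c) (A : Set (Fin m → ℝ)) :
    (volume (c • A)).toReal = c ^ m * (volume A).toReal := by
  rw [Measure.addHaar_smul, ENNReal.toReal_mul, Module.finrank_fin_fun,
    abs_of_nonneg (pow_nonneg hc m), ENNReal.toReal_ofReal (pow_nonneg hc m)]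

theorem sec_shift {m : ℕ} (hm : m ≠ 0) {B C : Set (Fin m → ℝ)} (hC : IsCompact C) {b c : ℝ}
    (hc : 0 ≤ c) (hBv : (volume B).toReal = b ^ m) (hCv : (volume C).toReal = c ^ m)
    (x : Fin m → ℝ) (h : ∀ y ∈ B, x + y ∈ C) : b ≤ c := by
  by_contra hlt
  push Not at hlt
  have h1 : volume B ≤ volume C := by
    have h2 : B ⊆ (fun y => x + y) ⁻¹' C := fun y hy => h y hy
    calc volume B ≤ volume ((fun y => x + y) ⁻¹' C) := measure_mono h2
      _ = volume C := measure_preimage_add _ _ _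
  have h3 := ENNReal.toReal_mono hC.measure_ne_top h1
  rw [hBv, hCv] at h3
  exact absurd (pow_lt_pow_left₀ hlt hc hm) (not_lt.2 h3)

/-- additive Brunn-Minkowski inequality for nonempty compact sets. -/
theorem sec_bm {m : ℕ} (hm : m ≠ 0) {A B C : Set (Fin m → ℝ)} (hA : IsCompact A)
    (hB : IsCompact B) (hC : IsCompact C) (hAn : A.Nonempty) (hBn : B.Nonempty) {a b c : ℝ}
    (ha : 0 ≤ a) (hb : 0 ≤ b) (hc : 0 ≤ c) (hAv : (volume A).toReal = a ^ m)
    (hBv : (volume B).toReal = b ^ m) (hCv : (volume C).toReal = c ^ m)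
    (h : ∀ x ∈ A, ∀ y ∈ B, x + y ∈ C) : a + b ≤ c := by
  rcases ha.eq_or_lt with rfl | ha'
  · obtain ⟨x, hx⟩ := hAn
    rw [zero_add]
    exact sec_shift hm hC hc hBv hCv x fun y hy => h x hx y hy
  rcases hb.eq_or_lt with rfl | hb'
  · obtain ⟨y, hy⟩ := hBn
    rw [add_zero]
    exact sec_shift hm hC hc hAv hCv y fun x hx => by rw [add_comm]; exact h x hx y hy
  exact Unc.bm_add (Nat.pos_of_ne_zero hm) hA.measurableSet hB.measurableSet hC.measurableSet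
    ha' hb' hc hAv hBv hCv hC.measure_ne_top h

/-- [S1] sections, Brunn-Minkowski -/
theorem sec (m : ℕ) (hm : 1 ≤ m) {L : Set (ℝ × (Fin m → ℝ))} (hc : Convex ℝ L) (hL : IsCompact L)
    (hne : L.Nonempty) : ∃ (a b : ℝ) (g : ℝ → ℝ), a ≤ b ∧ ConcaveOn ℝ (Icc a b) g ∧
      (∀ s ∈ Icc a b, 0 ≤ g s) ∧ (∀ s ∈ Icc a b, g s ^ m = (volume {y | (s, y) ∈ L}).toReal) ∧
      ∀ s ∉ Icc a b, {y | (s, y) ∈ L} = ∅ := by
  have hm0 : m ≠ 0 := by omega
  have hPc : IsCompact (Prod.fst '' L) := hL.image continuous_fst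
  have hPv : Convex ℝ (Prod.fst '' L) := hc.linear_image (LinearMap.fst ℝ ℝ (Fin m → ℝ))
  have hPn : (Prod.fst '' L).Nonempty := hne.image _
  have hP : Prod.fst '' L = Icc (sInf (Prod.fst '' L)) (sSup (Prod.fst '' L)) :=
    eq_Icc_of_connected_compact ⟨hPn, hPv.isPreconnected⟩ hPc
  have hS : ∀ s, IsCompact {y | (s, y) ∈ L} := by
    intro s
    refine (hL.image continuous_snd).of_isClosed_subset
      (hL.isClosed.preimage (Continuous.prodMk_right s)) ?_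
    intro y hy
    exact ⟨(s, y), hy, rfl⟩
  have hSn : ∀ s ∈ Icc (sInf (Prod.fst '' L)) (sSup (Prod.fst '' L)),
      {y | (s, y) ∈ L}.Nonempty := by
    intro s hs
    rw [← hP] at hs
    obtain ⟨⟨s', y⟩, hy, rfl⟩ := hs
    exact ⟨y, hy⟩
  have hg : ∀ s, ((volume {y | (s, y) ∈ L}).toReal ^ ((m : ℝ)⁻¹)) ^ m =
      (volume {y | (s, y) ∈ L}).toReal :=
    fun s => Real.rpow_inv_natCast_pow ENNReal.toReal_nonneg hm0
  have hg0 : ∀ s, 0 ≤ (volume {y | (s, y) ∈ L}).toReal ^ ((m : ℝ)⁻¹) :=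
    fun s => Real.rpow_nonneg ENNReal.toReal_nonneg _
  refine ⟨sInf (Prod.fst '' L), sSup (Prod.fst '' L),
    fun s => (volume {y | (s, y) ∈ L}).toReal ^ ((m : ℝ)⁻¹), ?_, ⟨convex_Icc _ _, ?_⟩,
    fun s _ => hg0 s, fun s _ => hg s, ?_⟩
  · rw [← nonempty_Icc, ← hP]
    exact hPn
  · intro x hx y hy α β hα hβ hαβ
    simp only [smul_eq_mul]
    refine sec_bm hm0 ((hS x).smul α) ((hS y).smul β) (hS (α * x + β * y))
      ((hSn x hx).smul_set) ((hSn y hy).smul_set) (mul_nonneg hα (hg0 x)) (mul_nonneg hβ (hg0 y))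
      (hg0 _) ?_ ?_ (hg _).symm ?_
    · rw [sec_smul hα, mul_pow, hg]
    · rw [sec_smul hβ, mul_pow, hg]
    · rintro _ ⟨u, hu, rfl⟩ _ ⟨v, hv, rfl⟩
      have h1 := hc hu hv hα hβ hαβ
      exact h1
  · intro s hs
    by_contra hne'
    apply hs
    rw [← hP]
    obtain ⟨y, hy⟩ := Set.nonempty_iff_ne_empty.2 hne'
    exact ⟨(s, y), hy, rfl⟩

end Vale.Agent.P254.Perm
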