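import Vale.Agent.P254.Perm.Defs

/-!
P254, permutation invariant bodies: integration over the slices of a body in `ℝ × ℝ^m`.
-/

open MeasureTheory Set

namespace Vale.Agent.P254.Perm

lemma gam_nonneg (n : ℕ) : 0 ≤ gam n := by
  unfold gam
  positivity

section

variable {m : ℕ} {L : Set (ℝ × (Fin m → ℝ))}

lemma measurableSet_slice (hL : IsCompact L) (s : ℝ) : MeasurableSet {y | (s, y) ∈ L} :=
  measurable_prodMk_left hL.measurableSet

lemma isCompact_slice (hL : IsCompact L) (s : ℝ) : IsCompact {y | (s, y) ∈ L} := by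
  have h1 : IsClosed {y | (s, y) ∈ L} := hL.isClosed.preimage (Continuous.prodMk_right s)
  refine (hL.image continuous_snd).of_isClosed_subset h1 ?_
  intro y hy
  exact ⟨(s, y), hy, rfl⟩

lemma convex_slice (hc : Convex ℝ L) (s : ℝ) : Convex ℝ {y | (s, y) ∈ L} := by
  intro y hy z hz a b ha hb hab
  have h := hc hy hz ha hb hab
  have e : a • (s, y) + b • (s, z) = (s, a • y + b • z) := by
    rw [Prod.smul_mk, Prod.smul_mk, Prod.mk_add_mk, ← add_smul, hab, one_smul]
  rw [e] at h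
  exact h

/-- Fubini. -/
lemma int_slice (hL : IsCompact L) {f : ℝ × (Fin m → ℝ) → ℝ} (hf : Continuous f) :
    ∫ p in L, f p = ∫ s, ∫ y in {y | (s, y) ∈ L}, f (s, y) := by
  have hint : Integrable (L.indicator f) volume :=
    (hf.continuousOn.integrableOn_compact hL).integrable_indicator hL.measurableSet
  rw [← integral_indicator hL.measurableSet]
  have hint' : Integrable (L.indicator f) ((volume : Measure ℝ).prod volume) := hint
  change ∫ p, L.indicator f p ∂((volume : Measure ℝ).prod volume) = _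
  rw [integral_prod _ hint']
  refine integral_congr_ae (Filter.Eventually.of_forall fun s => ?_)
  simp only
  rw [← integral_indicator (measurableSet_slice hL s)]
  rfl

/-- Fubini, over the interval of the nonempty slices. -/
lemma int_slice' (hL : IsCompact L) {a b : ℝ} (hab : a ≤ b)
    (hout : ∀ s ∉ Icc a b, {y | (s, y) ∈ L} = ∅) {f : ℝ × (Fin m → ℝ) → ℝ} (hf : Continuous f) :
    ∫ p in L, f p = ∫ s in a..b, ∫ y in {y | (s, y) ∈ L}, f (s, y) := by
  rw [int_slice hL hf, intervalIntegral.integral_of_le hab, ← integral_Icc_eq_integral_Ioc]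
  refine (setIntegral_eq_integral_of_forall_compl_eq_zero fun s hs => ?_).symm
  rw [hout s hs, Measure.restrict_empty, integral_zero_measure]

lemma vol_slice' (hL : IsCompact L) {a b : ℝ} (hab : a ≤ b)
    (hout : ∀ s ∉ Icc a b, {y | (s, y) ∈ L} = ∅) :
    (volume L).toReal = ∫ s in a..b, (volume {y | (s, y) ∈ L}).toReal := by
  have h := int_slice' hL hab hout (f := fun _ => (1 : ℝ)) continuous_const
  simpa [Measure.real] using h

/-- The function of the volumes of the slices is bounded and measurable. -/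
lemma slice_vol (hL : IsCompact L) : ∃ C : ℝ, ∀ s,
    (volume {y | (s, y) ∈ L}).toReal ≤ C := by
  refine ⟨(volume (Prod.snd '' L)).toReal, fun s => ?_⟩
  refine ENNReal.toReal_mono (hL.image continuous_snd).measure_lt_top.ne (measure_mono ?_)
  intro y hy
  exact ⟨(s, y), hy, rfl⟩

lemma measurable_slice_vol (hL : IsCompact L) :
    Measurable fun s => (volume {y | (s, y) ∈ L}).toReal :=
  (measurable_measure_prodMk_left hL.measurableSet).ennreal_toReal

theorem slices_core (hm : 1 ≤ m) (hL : IsCompact L) (i : Fin m) {a b : ℝ} {g : ℝ → ℝ}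
    (hab : a ≤ b) (hg0 : ∀ s ∈ Icc a b, 0 ≤ g s)
    (hg : ∀ s ∈ Icc a b, g s ^ m = (volume {y | (s, y) ∈ L}).toReal)
    (hout : ∀ s ∉ Icc a b, {y | (s, y) ∈ L} = ∅)
    (hmean : ∀ s, ∫ y in {y | (s, y) ∈ L}, y i = 0)
    (hB : ∀ s, (∫ y in {y | (s, y) ∈ L}, y i ^ 2) ^ m ≤
      gam m * (volume {y | (s, y) ∈ L}).toReal ^ (m + 2))
    (hone : ((∫ t in a..b, g t ^ m) * (∫ t in a..b, t ^ 2 * g t ^ m) -
        (∫ t in a..b, t * g t ^ m) ^ 2) * (∫ t in a..b, g t ^ (m + 2)) ^ m ≤
      kap m * (∫ t in a..b, g t ^ m) ^ (m + 4)) :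
    (∫ p in L, p.2 i) = 0 ∧ (∫ p in L, p.1 * p.2 i) = 0 ∧
      (∫ p in L, p.2 i ^ 2) ^ m *
        ((volume L).toReal * (∫ p in L, p.1 ^ 2) - (∫ p in L, p.1) ^ 2) ≤
        gam m * kap m * (volume L).toReal ^ (m + 4) := by
  have hm0 : m ≠ 0 := by omega
  have hmR : (0 : ℝ) < m := by exact_mod_cast Nat.pos_of_ne_zero hm0
  refine ⟨?_, ?_, ?_⟩
  · rw [int_slice hL (f := fun p => p.2 i) (by fun_prop)]
    simp_rw [hmean]
    simp
  · rw [int_slice hL (f := fun p => p.1 * p.2 i) (by fun_prop)]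
    simp_rw [integral_const_mul, hmean]
    simp
  -- the basic integrals
  have eM : (volume L).toReal = ∫ t in a..b, g t ^ m := by
    rw [vol_slice' hL hab hout]
    refine intervalIntegral.integral_congr fun s hs => ?_
    rw [uIcc_of_le hab] at hs
    exact (hg s hs).symm
  have e2 : ∫ p in L, p.1 ^ 2 = ∫ t in a..b, t ^ 2 * g t ^ m := by
    rw [int_slice' hL hab hout (f := fun p => p.1 ^ 2) (by fun_prop)]
    refine intervalIntegral.integral_congr fun s hs => ?_
    rw [uIcc_of_le hab] at hs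
    simp only [integral_const, smul_eq_mul]
    rw [hg s hs, Measure.real, Measure.restrict_apply_univ, mul_comm]
  have e1 : ∫ p in L, p.1 = ∫ t in a..b, t * g t ^ m := by
    rw [int_slice' hL hab hout (f := fun p => p.1) (by fun_prop)]
    refine intervalIntegral.integral_congr fun s hs => ?_
    rw [uIcc_of_le hab] at hs
    simp only [integral_const, smul_eq_mul]
    rw [hg s hs, Measure.real, Measure.restrict_apply_univ, mul_comm]
  set V : ℝ → ℝ := fun s => (volume {y | (s, y) ∈ L}).toReal with hV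
  obtain ⟨C, hC⟩ := slice_vol hL
  have hV0 : ∀ s, 0 ≤ V s := fun s => ENNReal.toReal_nonneg
  have hVm : Measurable V := measurable_slice_vol hL
  -- `g` on `[a, b]`
  have hgV : ∀ s ∈ Icc a b, g s = V s ^ ((1 : ℝ) / m) := by
    intro s hs
    show g s = (volume {y | (s, y) ∈ L}).toReal ^ ((1 : ℝ) / m)
    rw [← hg s hs, ← Real.rpow_natCast, ← Real.rpow_mul (hg0 s hs), mul_one_div_cancel hmR.ne',
      Real.rpow_one]
  set G : ℝ → ℝ := fun s => V s ^ ((1 : ℝ) / m) with hG
  have hG0 : ∀ s, 0 ≤ G s := fun s => Real.rpow_nonneg (hV0 s) _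
  have hGm : Measurable G := hVm.pow_const _
  have hGC : ∀ s, G s ≤ C ^ ((1 : ℝ) / m) := fun s =>
    Real.rpow_le_rpow (hV0 s) (hC s) (by positivity)
  have hGint : ∀ k : ℕ, IntegrableOn (fun s => G s ^ k) (Ioc a b) := by
    intro k
    refine Measure.integrableOn_of_bounded (M := (C ^ ((1 : ℝ) / m)) ^ k) (by simp)
      (hGm.pow_const k).aestronglyMeasurable (Filter.Eventually.of_forall fun s => ?_)
    rw [Real.norm_eq_abs, abs_of_nonneg (pow_nonneg (hG0 s) k)]
    exact pow_le_pow_left₀ (hG0 s) (hGC s) k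
  have eP : ∫ t in a..b, g t ^ (m + 2) = ∫ t in Ioc a b, G t ^ (m + 2) := by
    rw [intervalIntegral.integral_of_le hab]
    refine setIntegral_congr_fun measurableSet_Ioc fun s hs => ?_
    show g s ^ (m + 2) = (V s ^ ((1 : ℝ) / m)) ^ (m + 2)
    rw [hgV s ⟨hs.1.le, hs.2⟩]
  have hP0 : 0 ≤ ∫ t in a..b, g t ^ (m + 2) := by
    rw [eP]
    exact integral_nonneg fun s => pow_nonneg (hG0 s) _
  -- the second moment
  have hW : ∫ p in L, p.2 i ^ 2 ≤
      gam m ^ ((1 : ℝ) / m) * ∫ t in a..b, g t ^ (m + 2) := by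
    rw [int_slice' hL hab hout (f := fun p => p.2 i ^ 2) (by fun_prop), eP,
      intervalIntegral.integral_of_le hab, ← integral_const_mul]
    refine integral_mono_of_nonneg (Filter.Eventually.of_forall fun s =>
      integral_nonneg fun y => sq_nonneg _) ((hGint (m + 2)).const_mul _)
      (Filter.Eventually.of_forall fun s => ?_)
    simp only
    have h0 : 0 ≤ ∫ y in {y | (s, y) ∈ L}, y i ^ 2 := integral_nonneg fun y => sq_nonneg _
    refine le_of_pow_le_pow_left₀ hm0
      (mul_nonneg (Real.rpow_nonneg (gam_nonneg m) _) (pow_nonneg (hG0 s) _)) ?_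
    refine (hB s).trans (le_of_eq ?_)
    have hGp : G s ^ m = V s := by
      show (V s ^ ((1 : ℝ) / m)) ^ m = V s
      rw [← Real.rpow_natCast, ← Real.rpow_mul (hV0 s), one_div_mul_cancel hmR.ne', Real.rpow_one]
    have hgp : (gam m ^ ((1 : ℝ) / m)) ^ m = gam m := by
      rw [← Real.rpow_natCast, ← Real.rpow_mul (gam_nonneg m), one_div_mul_cancel hmR.ne',
        Real.rpow_one]
    rw [mul_pow, hgp, ← pow_mul, mul_comm (m + 2) m, pow_mul, hGp]
  have hW0 : 0 ≤ ∫ p in L, p.2 i ^ 2 := integral_nonneg fun p => sq_nonneg _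
  have hWm : (∫ p in L, p.2 i ^ 2) ^ m ≤ gam m * (∫ t in a..b, g t ^ (m + 2)) ^ m := by
    refine (pow_le_pow_left₀ hW0 hW m).trans (le_of_eq ?_)
    rw [mul_pow, ← Real.rpow_natCast (gam m ^ ((1 : ℝ) / m)), ← Real.rpow_mul (gam_nonneg m),
      one_div_mul_cancel hmR.ne', Real.rpow_one]
  -- Cauchy-Schwarz
  have hCS : 0 ≤ (volume L).toReal * (∫ p in L, p.1 ^ 2) - (∫ p in L, p.1) ^ 2 := by
    rcases (ENNReal.toReal_nonneg (a := volume L)).eq_or_lt with h0 | h0
    · have hv : volume L = 0 := by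
        rcases (ENNReal.toReal_eq_zero_iff _).1 h0.symm with h | h
        · exact h
        · exact absurd h hL.measure_lt_top.ne
      rw [Measure.restrict_eq_zero.2 hv]
      simp
    · have i1 : IntegrableOn (fun p : ℝ × (Fin m → ℝ) => p.1) L :=
        (by fun_prop : Continuous fun p : ℝ × (Fin m → ℝ) => p.1).continuousOn.integrableOn_compact hL
      have i2 : IntegrableOn (fun p : ℝ × (Fin m → ℝ) => p.1 ^ 2) L :=
        (by fun_prop : Continuous fun p : ℝ × (Fin m → ℝ) =>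
          p.1 ^ 2).continuousOn.integrableOn_compact hL
      set M := (volume L).toReal
      set S := ∫ p in L, p.1
      have h1 : 0 ≤ ∫ p in L, (M * p.1 - S) ^ 2 := integral_nonneg fun p => sq_nonneg _
      have h2 : ∫ p in L, (M * p.1 - S) ^ 2 = M ^ 2 * (∫ p in L, p.1 ^ 2) - 2 * M * S * S +
          S ^ 2 * M := by
        have e : ∀ p : ℝ × (Fin m → ℝ), (M * p.1 - S) ^ 2 =
            (M ^ 2 * p.1 ^ 2 - 2 * M * S * p.1) + S ^ 2 := fun p => by ring
        simp_rw [e]
        rw [integral_add, integral_sub, integral_const_mul, integral_const_mul, integral_const,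
          smul_eq_mul, Measure.real, Measure.restrict_apply_univ]
        · ring
        · exact i2.const_mul _
        · exact i1.const_mul _
        · exact (i2.const_mul _).sub (i1.const_mul _)
        · exact integrableOn_const hL.measure_lt_top.ne
      have h3 : 0 ≤ M * (M * (∫ p in L, p.1 ^ 2) - S ^ 2) := by
        rw [h2] at h1
        nlinarith
      exact nonneg_of_mul_nonneg_right h3 h0
  calc (∫ p in L, p.2 i ^ 2) ^ m *
        ((volume L).toReal * (∫ p in L, p.1 ^ 2) - (∫ p in L, p.1) ^ 2) ≤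
        (gam m * (∫ t in a..b, g t ^ (m + 2)) ^ m) *
        ((volume L).toReal * (∫ p in L, p.1 ^ 2) - (∫ p in L, p.1) ^ 2) :=
        mul_le_mul_of_nonneg_right hWm hCS
    _ = gam m * (((volume L).toReal * (∫ p in L, p.1 ^ 2) - (∫ p in L, p.1) ^ 2) *
        (∫ t in a..b, g t ^ (m + 2)) ^ m) := by ring
    _ ≤ gam m * (kap m * (volume L).toReal ^ (m + 4)) := by
        refine mul_le_mul_of_nonneg_left ?_ (gam_nonneg m)
        rw [eM, e1, e2]
        exact hone
    _ = gam m * kap m * (volume L).toReal ^ (m + 4) := by ring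

theorem slices_of (hm : 1 ≤ m)
    (hsec : ∀ {L : Set (ℝ × (Fin m → ℝ))}, Convex ℝ L → IsCompact L → L.Nonempty →
      ∃ (a b : ℝ) (g : ℝ → ℝ), a ≤ b ∧ ConcaveOn ℝ (Icc a b) g ∧
      (∀ s ∈ Icc a b, 0 ≤ g s) ∧ (∀ s ∈ Icc a b, g s ^ m = (volume {y | (s, y) ∈ L}).toReal) ∧
      ∀ s ∉ Icc a b, {y | (s, y) ∈ L} = ∅)
    (hone : ∀ {a b : ℝ}, a ≤ b → ∀ {g : ℝ → ℝ}, ConcaveOn ℝ (Icc a b) g →
      (∀ s ∈ Icc a b, 0 ≤ g s) →
      ((∫ t in a..b, g t ^ m) * (∫ t in a..b, t ^ 2 * g t ^ m) -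
        (∫ t in a..b, t * g t ^ m) ^ 2) * (∫ t in a..b, g t ^ (m + 2)) ^ m ≤
      kap m * (∫ t in a..b, g t ^ m) ^ (m + 4))
    (hmean : ∀ {K : Set (Fin m → ℝ)}, IsCompact K → Sym K → ∀ i, ∫ x in K, x i = 0)
    (hc : Convex ℝ L) (hL : IsCompact L) (hs : ∀ s, Sym {y | (s, y) ∈ L}) (hB : Bd m)
    (i : Fin m) :
    (∫ p in L, p.2 i) = 0 ∧ (∫ p in L, p.1 * p.2 i) = 0 ∧
      (∫ p in L, p.2 i ^ 2) ^ m *
        ((volume L).toReal * (∫ p in L, p.1 ^ 2) - (∫ p in L, p.1) ^ 2) ≤
        gam m * kap m * (volume L).toReal ^ (m + 4) := by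
  rcases L.eq_empty_or_nonempty with rfl | hne
  · simp
  obtain ⟨a, b, g, hab, hconc, hg0, hg, hout⟩ := hsec hc hL hne
  exact slices_core hm hL i hab hg0 hg hout (fun s => hmean (isCompact_slice hL s) (hs s) i)
    (fun s => hB _ (convex_slice hc s) (isCompact_slice hL s) (hs s) i) (hone hab hconc hg0)

end

end Vale.Agent.P254.Perm
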