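import Vale.Agent.P254.Perm.Defs
import Mathlib.Analysis.Convex.Continuous

/-!
P254, Perm: the decreasing rearrangement of a concave function on an interval
(layer cake with weights, nested intervals).
-/

open MeasureTheory Set

namespace Vale.Agent.P254.Perm

namespace Rearr

/-- layer cake with a weight -/
theorem layer (K : ℕ) (hK : 1 ≤ K) {a b G : ℝ} {f φ : ℝ → ℝ} (hf : Measurable f)
    (h0 : ∀ s, 0 ≤ f s) (h1 : ∀ s, f s ≤ G) (hs : ∀ s, s ∉ Ioo a b → f s = 0)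
    (hφ : Continuous φ) :
    IntegrableOn (fun c => ((K : ℝ) * c ^ (K - 1)) * ∫ s in {s | c < f s}, φ s) (Ioc 0 G) ∧
    (∫ s in Ioo a b, φ s * f s ^ K) =
      ∫ c in Ioc 0 G, ((K : ℝ) * c ^ (K - 1)) * ∫ s in {s | c < f s}, φ s := by
  set F : ℝ × ℝ → ℝ := indicator {z | z.2 < f z.1} (fun z => φ z.1 * ((K : ℝ) * z.2 ^ (K - 1)))
    with hF
  have i1 : IntegrableOn φ (Ioo a b) :=
    (hφ.integrableOn_Icc).mono_set Ioo_subset_Icc_self
  have c2 : Continuous (fun c : ℝ => (K : ℝ) * c ^ (K - 1)) := by fun_prop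
  have i2 : IntegrableOn (fun c : ℝ => (K : ℝ) * c ^ (K - 1)) (Ioc 0 G) :=
    (c2.integrableOn_Icc).mono_set Ioc_subset_Icc_self
  have hm : MeasurableSet {z : ℝ × ℝ | z.2 < f z.1} :=
    measurableSet_lt measurable_snd (hf.comp measurable_fst)
  have hi : Integrable F ((volume.restrict (Ioo a b)).prod (volume.restrict (Ioc 0 G))) :=
    (Integrable.mul_prod i1 i2).indicator hm
  have hinner : ∀ c ∈ Ioc 0 G, ∫ s in Ioo a b, F (s, c) =
      ((K : ℝ) * c ^ (K - 1)) * ∫ s in {s | c < f s}, φ s := by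
    intro c hc
    have e1 : (fun s => F (s, c)) = indicator {s | c < f s}
        (fun s => ((K : ℝ) * c ^ (K - 1)) * φ s) := by
      funext s
      by_cases h : c < f s
      · rw [hF, indicator_of_mem (show (s, c) ∈ {z : ℝ × ℝ | z.2 < f z.1} from h),
          indicator_of_mem (show s ∈ {s | c < f s} from h)]
        ring
      · rw [hF, indicator_of_notMem (show (s, c) ∉ {z : ℝ × ℝ | z.2 < f z.1} from h),
          indicator_of_notMem (show s ∉ {s | c < f s} from h)]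
    have hms : MeasurableSet {s | c < f s} := measurableSet_lt measurable_const hf
    have hsub : Ioo a b ∩ {s | c < f s} = {s | c < f s} := by
      refine inter_eq_right.2 fun s hs' => ?_
      by_contra hcon
      have := hs s hcon
      rw [mem_ofPred_eq, this] at hs'
      linarith [hc.1]
    rw [e1, setIntegral_indicator hms, hsub, integral_const_mul]
  have hinner2 : ∀ s, ∫ c in Ioc 0 G, F (s, c) = φ s * f s ^ K := by
    intro s
    have e1 : (fun c => F (s, c)) = indicator (Iio (f s))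
        (fun c => φ s * ((K : ℝ) * c ^ (K - 1))) := by
      funext c
      by_cases h : c < f s
      · rw [hF, indicator_of_mem (show (s, c) ∈ {z : ℝ × ℝ | z.2 < f z.1} from h),
          indicator_of_mem (show c ∈ Iio (f s) from h)]
      · rw [hF, indicator_of_notMem (show (s, c) ∉ {z : ℝ × ℝ | z.2 < f z.1} from h),
          indicator_of_notMem (show c ∉ Iio (f s) from h)]
    have e2 : Ioc 0 G ∩ Iio (f s) = Ioo 0 (f s) := by
      ext c
      simp only [mem_inter_iff, mem_Ioc, mem_Iio, mem_Ioo]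
      constructor
      · rintro ⟨⟨h2, -⟩, h3⟩
        exact ⟨h2, h3⟩
      · rintro ⟨h2, h3⟩
        exact ⟨⟨h2, h3.le.trans (h1 s)⟩, h3⟩
    rw [e1, setIntegral_indicator measurableSet_Iio, e2, integral_const_mul,
      ← integral_Ioc_eq_integral_Ioo, ← intervalIntegral.integral_of_le (h0 s),
      intervalIntegral.integral_const_mul, integral_pow]
    congr 1
    obtain ⟨j, rfl⟩ : ∃ j, K = j + 1 := ⟨K - 1, by omega⟩
    have hj : ((j : ℝ) + 1) ≠ 0 := by positivity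
    simp only [Nat.add_sub_cancel]
    rw [zero_pow (Nat.succ_ne_zero j)]
    push_cast
    field_simp
    ring
  constructor
  · have h3 := hi.integral_prod_right
    refine (h3.congr ?_)
    filter_upwards [ae_restrict_mem measurableSet_Ioc] with c hc
    exact hinner c hc
  · have h3 := integral_integral_swap (f := fun s c => F (s, c)) hi
    calc (∫ s in Ioo a b, φ s * f s ^ K) = ∫ s in Ioo a b, ∫ c in Ioc 0 G, F (s, c) := by
          refine integral_congr_ae (Filter.Eventually.of_forall fun s => ?_)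
          exact (hinner2 s).symm
      _ = ∫ c in Ioc 0 G, ∫ s in Ioo a b, F (s, c) := h3
      _ = _ := by
          refine setIntegral_congr_fun measurableSet_Ioc fun c hc => ?_
          exact hinner c hc

theorem lin3 {μ : Measure ℝ} {A B C : ℝ → ℝ} (hA : Integrable A μ) (hB : Integrable B μ)
    (hC : Integrable C μ) (x y z : ℝ) :
    (∫ d, (x * A d + y * B d - z * C d) ∂μ) =
      x * (∫ d, A d ∂μ) + y * (∫ d, B d ∂μ) - z * (∫ d, C d ∂μ) := by
  have h1 : Integrable (fun d => x * A d + y * B d) μ := (hA.const_mul x).add (hB.const_mul y)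
  have h2 : Integrable (fun d => z * C d) μ := hC.const_mul z
  rw [integral_sub h1 h2, integral_add (hA.const_mul x) (hB.const_mul y), integral_const_mul,
    integral_const_mul, integral_const_mul]

/-- comparison of variances from the comparison of the pairs -/
theorem combine {μ : Measure ℝ} {L X1 X2 Y1 Y2 : ℝ → ℝ} (hL : Integrable L μ)
    (hX1 : Integrable X1 μ) (hX2 : Integrable X2 μ) (hY1 : Integrable Y1 μ) (hY2 : Integrable Y2 μ)
    (h : ∀ᵐ c ∂μ, ∀ᵐ d ∂μ, X2 c * L d + L c * X2 d - 2 * X1 c * X1 d ≤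
      Y2 c * L d + L c * Y2 d - 2 * Y1 c * Y1 d) :
    (∫ c, L c ∂μ) * (∫ c, X2 c ∂μ) - (∫ c, X1 c ∂μ) ^ 2 ≤
      (∫ c, L c ∂μ) * (∫ c, Y2 c ∂μ) - (∫ c, Y1 c ∂μ) ^ 2 := by
  have jint : ∀ {A B C : ℝ → ℝ}, Integrable A μ → Integrable B μ → Integrable C μ →
      ∀ x y z : ℝ, Integrable (fun d => x * A d + y * B d - z * C d) μ :=
    fun hA hB hC x y z => ((hA.const_mul x).add (hB.const_mul y)).sub (hC.const_mul z)
  have key : ∀ᵐ c ∂μ, (∫ d, L d ∂μ) * X2 c + (∫ d, X2 d ∂μ) * L c - (2 * ∫ d, X1 d ∂μ) * X1 c ≤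
      (∫ d, L d ∂μ) * Y2 c + (∫ d, Y2 d ∂μ) * L c - (2 * ∫ d, Y1 d ∂μ) * Y1 c := by
    filter_upwards [h] with c hc
    have := integral_mono_ae (jint hL hX2 hX1 _ _ _) (jint hL hY2 hY1 _ _ _) hc
    rw [lin3 hL hX2 hX1, lin3 hL hY2 hY1] at this
    linarith
  have := integral_mono_ae (jint hX2 hL hX1 _ _ _) (jint hY2 hL hY1 _ _ _) key
  rw [lin3 hX2 hL hX1, lin3 hY2 hL hY1] at this
  nlinarith

/-- nested intervals -/
theorem nested {p q p' q' : ℝ} (h : p ≤ q) (h' : p' ≤ q') (h1 : p ≤ p') (h2 : q' ≤ q) :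
    (q ^ 3 - p ^ 3) / 3 * (q' - p') + (q - p) * ((q' ^ 3 - p' ^ 3) / 3) -
        2 * ((q ^ 2 - p ^ 2) / 2) * ((q' ^ 2 - p' ^ 2) / 2) ≤
      (q - p) ^ 3 / 3 * (q' - p') + (q - p) * ((q' - p') ^ 3 / 3) -
        2 * ((q - p) ^ 2 / 2) * ((q' - p') ^ 2 / 2) := by
  have e : (q - p) ^ 3 / 3 * (q' - p') + (q - p) * ((q' - p') ^ 3 / 3) -
        2 * ((q - p) ^ 2 / 2) * ((q' - p') ^ 2 / 2) -
      ((q ^ 3 - p ^ 3) / 3 * (q' - p') + (q - p) * ((q' ^ 3 - p' ^ 3) / 3) -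
        2 * ((q ^ 2 - p ^ 2) / 2) * ((q' ^ 2 - p' ^ 2) / 2)) =
      (q - p) * (q' - p') * ((p' - p) * (q - q')) := by ring
  have h3 : 0 ≤ (q - p) * (q' - p') * ((p' - p) * (q - q')) :=
    mul_nonneg (mul_nonneg (sub_nonneg.2 h) (sub_nonneg.2 h'))
      (mul_nonneg (sub_nonneg.2 h1) (sub_nonneg.2 h2))
  linarith

theorem set_int_eq {J : Set ℝ} {p q : ℝ} (hpq : p ≤ q) (h1 : Ioo p q ⊆ J) (h2 : J ⊆ Icc p q)
    (φ : ℝ → ℝ) : ∫ s in J, φ s = ∫ s in p..q, φ s := by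
  rw [intervalIntegral.integral_of_le hpq]
  refine setIntegral_congr_set ?_
  have e1 : (Ioo p q : Set ℝ) =ᵐ[volume] Icc p q := Ioo_ae_eq_Icc
  have e2 : (Ioo p q : Set ℝ) =ᵐ[volume] Ioc p q := Ioo_ae_eq_Ioc
  have e3 : (J : Set ℝ) ≤ᵐ[volume] Icc p q := h2.eventuallyLE
  have e4 : (Ioo p q : Set ℝ) ≤ᵐ[volume] J := h1.eventuallyLE
  exact (e3.trans_eq (e1.symm.trans e2)).antisymm (e2.symm.le.trans e4)

/-- the values which are reached at the two ends of an interval of length `t` -/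
def Cs (g : ℝ → ℝ) (a b t : ℝ) : Set ℝ :=
  {c | 0 ≤ c ∧ ∃ x, a ≤ x ∧ x + t ≤ b ∧ c ≤ g x ∧ c ≤ g (x + t)}

/-- the decreasing rearrangement -/
noncomputable def re (g : ℝ → ℝ) (a b t : ℝ) : ℝ := sSup (Cs g a b t)

section

variable {a b : ℝ} (hab : a < b) {g : ℝ → ℝ} (hconc : ConcaveOn ℝ (Icc a b) g)
  (hpos : ∀ s ∈ Icc a b, 0 ≤ g s)

include hconc hpos in
theorem g_le {x : ℝ} (hx : x ∈ Icc a b) : g x ≤ 2 * g ((a + b) / 2) := by
  have hy : a + b - x ∈ Icc a b := ⟨by linarith [hx.2], by linarith [hx.1]⟩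
  have h := hconc.2 hx hy (show (0 : ℝ) ≤ 1 / 2 by norm_num) (show (0 : ℝ) ≤ 1 / 2 by norm_num)
    (by norm_num)
  simp only [smul_eq_mul] at h
  have e : 1 / 2 * x + 1 / 2 * (a + b - x) = (a + b) / 2 := by ring
  rw [e] at h
  linarith [hpos _ hy]

include hab hpos in
theorem zero_mem {t : ℝ} (ht : t ∈ Icc 0 (b - a)) : (0 : ℝ) ∈ Cs g a b t :=
  ⟨le_rfl, a, le_rfl, by linarith [ht.2], hpos _ ⟨le_rfl, hab.le⟩,
    hpos _ ⟨by linarith [ht.1], by linarith [ht.2]⟩⟩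

include hconc hpos in
theorem le_of_mem {t c : ℝ} (ht : 0 ≤ t) (hc : c ∈ Cs g a b t) : c ≤ 2 * g ((a + b) / 2) := by
  obtain ⟨-, x, h1, h2, h3, -⟩ := hc
  exact h3.trans (g_le hconc hpos ⟨h1, by linarith⟩)

include hconc hpos in
theorem bddAbove {t : ℝ} (ht : 0 ≤ t) : BddAbove (Cs g a b t) :=
  ⟨_, fun _ hc => le_of_mem hconc hpos ht hc⟩

include hab hconc hpos in
theorem re_nonneg {t : ℝ} (ht : t ∈ Icc 0 (b - a)) : 0 ≤ re g a b t :=
  le_csSup (bddAbove hconc hpos ht.1) (zero_mem hab hpos ht)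

include hab hconc hpos in
theorem re_le {t : ℝ} (ht : t ∈ Icc 0 (b - a)) : re g a b t ≤ 2 * g ((a + b) / 2) :=
  csSup_le ⟨_, zero_mem hab hpos ht⟩ fun _ hc => le_of_mem hconc hpos ht.1 hc

include hab hconc hpos in
theorem lt_re {t c : ℝ} (hc : 0 ≤ c) (ht : t ∈ Icc 0 (b - a)) :
    c < re g a b t ↔ ∃ x, a ≤ x ∧ x + t ≤ b ∧ c < g x ∧ c < g (x + t) := by
  constructor
  · intro h
    obtain ⟨d, ⟨-, x, h1, h2, h3, h4⟩, h5⟩ :=
      exists_lt_of_lt_csSup ⟨_, zero_mem hab hpos ht⟩ h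
    exact ⟨x, h1, h2, h5.trans_le h3, h5.trans_le h4⟩
  · rintro ⟨x, h1, h2, h3, h4⟩
    have h5 : c < min (g x) (g (x + t)) := lt_min h3 h4
    refine h5.trans_le (le_csSup (bddAbove hconc hpos ht.1) ?_)
    exact ⟨hc.trans h5.le, x, h1, h2, min_le_left _ _, min_le_right _ _⟩

include hab hconc hpos in
theorem re_anti : AntitoneOn (re g a b) (Icc 0 (b - a)) := by
  intro t ht t' ht' htt
  refine csSup_le_csSup (bddAbove hconc hpos ht.1) ⟨_, zero_mem hab hpos ht'⟩ ?_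
  rintro c ⟨h0, x, h1, h2, h3, h4⟩
  refine ⟨h0, x, h1, by linarith, h3, ?_⟩
  have hx : x ∈ Icc a b := ⟨h1, by linarith [ht'.1]⟩
  have hy : x + t' ∈ Icc a b := ⟨by linarith [ht'.1], h2⟩
  have := hconc.min_le_of_mem_Icc hx hy (z := x + t) ⟨by linarith [ht.1], by linarith⟩
  exact (le_min h3 h4).trans this

include hab hconc hpos in
theorem re_concave : ConcaveOn ℝ (Icc 0 (b - a)) (re g a b) := by
  refine ⟨convex_Icc _ _, ?_⟩
  intro t ht t' ht' l m hl hm hlm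
  simp only [smul_eq_mul]
  have hT : l * t + m * t' ∈ Icc 0 (b - a) := by
    have := (convex_Icc (0 : ℝ) (b - a)) ht ht' hl hm hlm
    simpa [smul_eq_mul] using this
  refine le_of_forall_pos_le_add fun ε hε => ?_
  obtain ⟨c, ⟨h0, x, h1, h2, h3, h4⟩, h5⟩ :=
    exists_lt_of_lt_csSup ⟨_, zero_mem hab hpos ht⟩ (show re g a b t - ε < re g a b t by linarith)
  obtain ⟨c', ⟨h0', x', h1', h2', h3', h4'⟩, h5'⟩ :=
    exists_lt_of_lt_csSup ⟨_, zero_mem hab hpos ht'⟩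
      (show re g a b t' - ε < re g a b t' by linarith)
  have hx : x ∈ Icc a b := ⟨h1, by linarith [ht.1]⟩
  have hx' : x' ∈ Icc a b := ⟨h1', by linarith [ht'.1]⟩
  have hy : x + t ∈ Icc a b := ⟨by linarith [ht.1], h2⟩
  have hy' : x' + t' ∈ Icc a b := ⟨by linarith [ht'.1], h2'⟩
  have k1 := hconc.2 hx hx' hl hm hlm
  have k2 := hconc.2 hy hy' hl hm hlm
  simp only [smul_eq_mul] at k1 k2
  have m1 := (convex_Icc a b) hx hx' hl hm hlm
  have m2 := (convex_Icc a b) hy hy' hl hm hlm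
  simp only [smul_eq_mul] at m1 m2
  have e : l * x + m * x' + (l * t + m * t') = l * (x + t) + m * (x' + t') := by ring
  have hmem : l * c + m * c' ∈ Cs g a b (l * t + m * t') := by
    refine ⟨by positivity, l * x + m * x', m1.1, ?_, ?_, ?_⟩
    · rw [e]
      exact m2.2
    · linarith [mul_le_mul_of_nonneg_left h3 hl, mul_le_mul_of_nonneg_left h3' hm]
    · rw [e]
      linarith [mul_le_mul_of_nonneg_left h4 hl, mul_le_mul_of_nonneg_left h4' hm]
  have h6 := le_csSup (bddAbove hconc hpos hT.1) hmem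
  have h7 : l * c + m * c' ≤ re g a b (l * t + m * t') := h6
  have h8 := mul_le_mul_of_nonneg_left h5.le hl
  have h9 := mul_le_mul_of_nonneg_left h5'.le hm
  have h10 : l * ε + m * ε = ε := by rw [← add_mul, hlm, one_mul]
  linarith

end

/-- superlevel sets -/
def J (g : ℝ → ℝ) (a b c : ℝ) : Set ℝ := {s ∈ Ioo a b | c < g s}

section

variable {a b : ℝ} {g : ℝ → ℝ}

theorem J_bddB (c : ℝ) : BddBelow (J g a b c) := ⟨a, fun _ hs => hs.1.1.le⟩

theorem J_bddA (c : ℝ) : BddAbove (J g a b c) := ⟨b, fun _ hs => hs.1.2.le⟩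

theorem J_le (c : ℝ) : sInf (J g a b c) ≤ sSup (J g a b c) := by
  rcases (J g a b c).eq_empty_or_nonempty with h | h
  · rw [h, Real.sInf_empty, Real.sSup_empty]
  · exact csInf_le_csSup h (J_bddB c) (J_bddA c)

theorem J_sub (c : ℝ) : J g a b c ⊆ Icc (sInf (J g a b c)) (sSup (J g a b c)) :=
  subset_Icc_csInf_csSup (J_bddB c) (J_bddA c)

theorem sub_J (hconc : ConcaveOn ℝ (Icc a b) g) (c : ℝ) :
    Ioo (sInf (J g a b c)) (sSup (J g a b c)) ⊆ J g a b c := by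
  have h : IsPreconnected (J g a b c) :=
    ((hconc.subset Ioo_subset_Icc_self (convex_Ioo a b)).convex_gt c).isPreconnected
  rcases (J g a b c).eq_empty_or_nonempty with h0 | h0
  · rw [h0, Real.sInf_empty, Real.sSup_empty, Ioo_self]
  · exact IsConnected.Ioo_csInf_csSup_subset ⟨h0, h⟩ (J_bddB c) (J_bddA c)

theorem J_int (hconc : ConcaveOn ℝ (Icc a b) g) (c : ℝ) (φ : ℝ → ℝ) :
    ∫ s in J g a b c, φ s = ∫ s in (sInf (J g a b c))..(sSup (J g a b c)), φ s :=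
  set_int_eq (J_le c) (sub_J hconc c) (J_sub c) φ

theorem T_int (hab : a < b) (hconc : ConcaveOn ℝ (Icc a b) g) (hpos : ∀ s ∈ Icc a b, 0 ≤ g s)
    {c : ℝ} (hc : 0 ≤ c) (φ : ℝ → ℝ) :
    ∫ s in J (re g a b) 0 (b - a) c, φ s =
      ∫ s in (0 : ℝ)..(sSup (J g a b c) - sInf (J g a b c)), φ s := by
  refine set_int_eq (sub_nonneg.2 (J_le c)) ?_ ?_ φ
  · intro t ht
    set p := sInf (J g a b c) with hp
    set q := sSup (J g a b c) with hq
    have h1 : p + (q - p - t) / 2 ∈ J g a b c :=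
      sub_J hconc c ⟨by linarith [ht.2], by linarith [ht.1, ht.2]⟩
    have h2 : p + (q - p - t) / 2 + t ∈ J g a b c :=
      sub_J hconc c ⟨by linarith [ht.1, ht.2], by linarith [ht.2]⟩
    have ht2 : t ∈ Ioo 0 (b - a) := ⟨ht.1, by linarith [h1.1.1, h2.1.2]⟩
    exact ⟨ht2, (lt_re hab hconc hpos hc ⟨ht2.1.le, ht2.2.le⟩).2
      ⟨_, h1.1.1.le, h2.1.2.le, h1.2, h2.2⟩⟩
  · rintro t ⟨ht, h1⟩
    obtain ⟨x, h2, h3, h4, h5⟩ := (lt_re hab hconc hpos hc ⟨ht.1.le, ht.2.le⟩).1 h1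
    have hx : x ∈ Icc a b := ⟨h2, by linarith [ht.1]⟩
    have hy : x + t ∈ Icc a b := ⟨by linarith [ht.1], h3⟩
    have hlt : x < x + t := by linarith [ht.1]
    have h6 : Ioo x (x + t) ⊆ J g a b c := by
      intro y hy'
      refine ⟨⟨by linarith [hy'.1], by linarith [hy'.2]⟩, ?_⟩
      exact (lt_min h4 h5).trans_le (hconc.min_le_of_mem_Icc hx hy ⟨hy'.1.le, hy'.2.le⟩)
    have h7 := csInf_le_csInf (J_bddB c) (nonempty_Ioo.2 hlt) h6
    have h8 := csSup_le_csSup (J_bddA c) (nonempty_Ioo.2 hlt) h6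
    rw [csInf_Ioo hlt] at h7
    rw [csSup_Ioo hlt] at h8
    exact ⟨ht.1.le, by linarith⟩

theorem layerJ (K : ℕ) (hK : 1 ≤ K) (hab : a ≤ b) {G : ℝ} (hG : 0 ≤ G) {φ : ℝ → ℝ}
    (hg : ContinuousOn g (Ioo a b)) (h0 : ∀ s ∈ Ioo a b, 0 ≤ g s) (h1 : ∀ s ∈ Ioo a b, g s ≤ G)
    (hφ : Continuous φ) :
    IntegrableOn (fun c => ((K : ℝ) * c ^ (K - 1)) * ∫ s in J g a b c, φ s) (Ioc 0 G) ∧
    (∫ s in a..b, φ s * g s ^ K) =
      ∫ c in Ioc 0 G, ((K : ℝ) * c ^ (K - 1)) * ∫ s in J g a b c, φ s := by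
  classical
  set f : ℝ → ℝ := indicator (Ioo a b) g with hf
  have hm : Measurable f := by
    rw [hf, ← piecewise_eq_indicator]
    exact hg.measurable_piecewise continuousOn_const measurableSet_Ioo
  have f0 : ∀ s, 0 ≤ f s := fun s => indicator_apply_nonneg fun hs => h0 s hs
  have f1 : ∀ s, f s ≤ G := by
    intro s
    by_cases hs : s ∈ Ioo a b
    · rw [hf, indicator_of_mem hs]
      exact h1 s hs
    · rw [hf, indicator_of_notMem hs]
      exact hG
  have f2 : ∀ s, s ∉ Ioo a b → f s = 0 := fun s hs => indicator_of_notMem hs _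
  have hJ : ∀ c ∈ Ioc 0 G, {s | c < f s} = J g a b c := by
    intro c hc
    ext s
    constructor
    · intro hs
      by_cases hs' : s ∈ Ioo a b
      · refine ⟨hs', ?_⟩
        have : c < f s := hs
        rwa [hf, indicator_of_mem hs'] at this
      · have : c < f s := hs
        rw [f2 s hs'] at this
        exact absurd this (not_lt.2 hc.1.le)
    · rintro ⟨hs, h⟩
      show c < f s
      rwa [hf, indicator_of_mem hs]
  obtain ⟨i1, i2⟩ := layer K hK (a := a) (b := b) hm f0 f1 f2 hφ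
  constructor
  · refine i1.congr_fun (fun c hc => ?_) measurableSet_Ioc
    simp only [hJ c hc]
  · rw [intervalIntegral.integral_of_le hab, integral_Ioc_eq_integral_Ioo]
    have e : ∫ s in Ioo a b, φ s * g s ^ K = ∫ s in Ioo a b, φ s * f s ^ K := by
      refine setIntegral_congr_fun measurableSet_Ioo fun s hs => ?_
      simp only [hf, indicator_of_mem hs]
    rw [e, i2]
    refine setIntegral_congr_fun measurableSet_Ioc fun c hc => ?_
    simp only [hJ c hc]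

theorem pairs (c d : ℝ) (hcd : c ≤ d) :
    (sSup (J g a b c) ^ 3 - sInf (J g a b c) ^ 3) / 3 * (sSup (J g a b d) - sInf (J g a b d)) +
        (sSup (J g a b c) - sInf (J g a b c)) *
          ((sSup (J g a b d) ^ 3 - sInf (J g a b d) ^ 3) / 3) -
        2 * ((sSup (J g a b c) ^ 2 - sInf (J g a b c) ^ 2) / 2) *
          ((sSup (J g a b d) ^ 2 - sInf (J g a b d) ^ 2) / 2) ≤
      (sSup (J g a b c) - sInf (J g a b c)) ^ 3 / 3 * (sSup (J g a b d) - sInf (J g a b d)) +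
        (sSup (J g a b c) - sInf (J g a b c)) * ((sSup (J g a b d) - sInf (J g a b d)) ^ 3 / 3) -
        2 * ((sSup (J g a b c) - sInf (J g a b c)) ^ 2 / 2) *
          ((sSup (J g a b d) - sInf (J g a b d)) ^ 2 / 2) := by
  rcases (J g a b d).eq_empty_or_nonempty with h | h
  · rw [h, Real.sInf_empty, Real.sSup_empty]
    simp
  · have hsub : J g a b d ⊆ J g a b c := fun s hs => ⟨hs.1, hcd.trans_lt hs.2⟩
    exact nested (J_le c) (J_le d) (csInf_le_csInf (J_bddB c) h hsub)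
      (csSup_le_csSup (J_bddA c) h hsub)

end

end Rearr

open Rearr in
/-- decreasing rearrangement of a concave function -/
theorem rearr (k : ℕ) (hk : 1 ≤ k) {a b : ℝ} (hab : a < b) {g : ℝ → ℝ}
    (hconc : ConcaveOn ℝ (Icc a b) g) (hpos : ∀ s ∈ Icc a b, 0 ≤ g s) :
    ∃ h : ℝ → ℝ, ConcaveOn ℝ (Icc 0 (b - a)) h ∧ AntitoneOn h (Icc 0 (b - a)) ∧
      (∀ s ∈ Icc 0 (b - a), 0 ≤ h s) ∧
      (∫ t in (0 : ℝ)..(b - a), h t ^ k) = (∫ t in a..b, g t ^ k) ∧
      (∫ t in (0 : ℝ)..(b - a), h t ^ (k + 2)) = (∫ t in a..b, g t ^ (k + 2)) ∧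
      (∫ t in a..b, g t ^ k) * (∫ t in a..b, t ^ 2 * g t ^ k) - (∫ t in a..b, t * g t ^ k) ^ 2 ≤
        (∫ t in (0 : ℝ)..(b - a), h t ^ k) * (∫ t in (0 : ℝ)..(b - a), t ^ 2 * h t ^ k) -
          (∫ t in (0 : ℝ)..(b - a), t * h t ^ k) ^ 2 := by
  set h := re g a b with hh
  have hB : 0 < b - a := sub_pos.2 hab
  have hcv : ConcaveOn ℝ (Icc 0 (b - a)) h := re_concave hab hconc hpos
  set G : ℝ := 2 * g ((a + b) / 2) with hG
  have hG0 : 0 ≤ G := by
    have := hpos ((a + b) / 2) ⟨by linarith, by linarith⟩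
    positivity
  have cg : ContinuousOn g (Ioo a b) :=
    ConcaveOn.continuousOn isOpen_Ioo (hconc.subset Ioo_subset_Icc_self (convex_Ioo a b))
  have ch : ContinuousOn h (Ioo 0 (b - a)) :=
    ConcaveOn.continuousOn isOpen_Ioo (hcv.subset Ioo_subset_Icc_self (convex_Ioo 0 (b - a)))
  have LG : ∀ K : ℕ, 1 ≤ K → ∀ φ : ℝ → ℝ, Continuous φ → _ := fun K hK φ hφ =>
    layerJ (g := g) K hK hab.le hG0 (φ := φ) cg (fun s hs => hpos s (Ioo_subset_Icc_self hs))
      (fun s hs => g_le hconc hpos (Ioo_subset_Icc_self hs)) hφ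
  have LH : ∀ K : ℕ, 1 ≤ K → ∀ φ : ℝ → ℝ, Continuous φ → _ := fun K hK φ hφ =>
    layerJ (g := h) K hK hB.le hG0 (φ := φ) ch
      (fun s hs => re_nonneg hab hconc hpos (Ioo_subset_Icc_self hs))
      (fun s hs => re_le hab hconc hpos (Ioo_subset_Icc_self hs)) hφ
  have J0 : ∀ c, ∫ _s in J g a b c, (1 : ℝ) = sSup (J g a b c) - sInf (J g a b c) := fun c => by
    rw [J_int hconc c]
    simp
  have J1 : ∀ c, ∫ s in J g a b c, s = (sSup (J g a b c) ^ 2 - sInf (J g a b c) ^ 2) / 2 :=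
    fun c => by rw [J_int hconc c, integral_id]
  have J2 : ∀ c, ∫ s in J g a b c, s ^ 2 = (sSup (J g a b c) ^ 3 - sInf (J g a b c) ^ 3) / 3 :=
    fun c => by
      rw [J_int hconc c, integral_pow]
      norm_num
  have T0 : ∀ c, 0 ≤ c → ∫ _s in J h 0 (b - a) c, (1 : ℝ) =
      sSup (J g a b c) - sInf (J g a b c) := fun c hc => by
    rw [T_int hab hconc hpos hc]
    simp
  have T1 : ∀ c, 0 ≤ c → ∫ s in J h 0 (b - a) c, s =
      (sSup (J g a b c) - sInf (J g a b c)) ^ 2 / 2 := fun c hc => by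
    rw [T_int hab hconc hpos hc, integral_id]
    ring
  have T2 : ∀ c, 0 ≤ c → ∫ s in J h 0 (b - a) c, s ^ 2 =
      (sSup (J g a b c) - sInf (J g a b c)) ^ 3 / 3 := fun c hc => by
    rw [T_int hab hconc hpos hc, integral_pow]
    norm_num
  have eq1 : ∀ K : ℕ, 1 ≤ K → (∫ t in (0 : ℝ)..(b - a), h t ^ K) = (∫ t in a..b, g t ^ K) := by
    intro K hK
    have e1 := (LG K hK (fun _ => 1) continuous_const).2
    have e2 := (LH K hK (fun _ => 1) continuous_const).2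
    simp only [one_mul] at e1 e2
    rw [e1, e2]
    refine setIntegral_congr_fun measurableSet_Ioc fun c hc => ?_
    simp only [J0, T0 c hc.1.le]
  refine ⟨h, hcv, re_anti hab hconc hpos, fun s hs => re_nonneg hab hconc hpos hs, eq1 k hk,
    eq1 (k + 2) (by omega), ?_⟩
  rw [eq1 k hk]
  obtain ⟨i0, e0⟩ := LG k hk (fun _ => 1) continuous_const
  obtain ⟨i1, e1⟩ := LG k hk (fun s => s) continuous_id
  obtain ⟨i2, e2⟩ := LG k hk (fun s => s ^ 2) (continuous_pow 2)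
  obtain ⟨i3, e3⟩ := LH k hk (fun s => s) continuous_id
  obtain ⟨i4, e4⟩ := LH k hk (fun s => s ^ 2) (continuous_pow 2)
  simp only [one_mul] at e0
  rw [e0, e1, e2, e3, e4]
  refine combine i0 i1 i2 i3 i4 ?_
  filter_upwards [ae_restrict_mem measurableSet_Ioc] with c hc
  filter_upwards [ae_restrict_mem measurableSet_Ioc] with d hd
  rw [J0 c, J0 d, J1 c, J1 d, J2 c, J2 d, T1 c hc.1.le, T1 d hd.1.le, T2 c hc.1.le,
    T2 d hd.1.le]
  have u1 : 0 ≤ (k : ℝ) * c ^ (k - 1) := mul_nonneg (Nat.cast_nonneg k) (pow_nonneg hc.1.le _)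
  have u2 : 0 ≤ (k : ℝ) * d ^ (k - 1) := mul_nonneg (Nat.cast_nonneg k) (pow_nonneg hd.1.le _)
  have u3 := mul_nonneg u1 u2
  rcases le_total c d with hcd | hcd
  · have h5 := mul_le_mul_of_nonneg_left (pairs (g := g) (a := a) (b := b) c d hcd) u3
    linarith
  · have h5 := mul_le_mul_of_nonneg_left (pairs (g := g) (a := a) (b := b) d c hcd) u3
    linarith

end Vale.Agent.P254.Perm
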