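import Vale.Agent.P254.Perm.Defs
import Mathlib.Analysis.Convex.Continuous

/-!
P254, permutation invariant bodies: the one-dimensional inequality for decreasing concave functions.
Everything is done with the right derivative of the concave function, so no approximation is needed.
-/

open MeasureTheory Set Filter Topology

namespace Vale.Agent.P254.Perm

namespace Dec598

theorem elem' (k : ℕ) : ∀ {h : ℝ}, 0 ≤ h → (k : ℝ) * h ≤ 4 →
    (1 - k * h / 4) ^ 2 * (1 + h) ^ (k + 1) ≤ 1 + (k + 1) * h := by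
  induction k with
  | zero => intro h h0 _; simp
  | succ k ih =>
    intro h h0 h1
    rcases h0.eq_or_lt with rfl | hpos
    · simp
    push_cast at h1 ⊢
    have h1' : (k : ℝ) * h < 4 := by nlinarith
    have ih' := ih h0 h1'.le
    have hz : 0 < (1 - (k : ℝ) * h / 4) ^ 2 := by
      have : 0 < 1 - (k : ℝ) * h / 4 := by linarith
      positivity
    have hk0 : (0 : ℝ) ≤ k := Nat.cast_nonneg k
    set y : ℝ := 1 - ((k : ℝ) + 1) * h / 4 with hy
    have hy0 : 0 ≤ y := by rw [hy]; linarith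
    have hkh : ((k : ℝ) + 1) * h = 4 * (1 - y) := by rw [hy]; ring
    have e1 : 1 - (k : ℝ) * h / 4 = y + h / 4 := by rw [hy]; ring
    rw [e1] at ih' hz
    have key : (1 + h) * (1 + (k + 1) * h) * y ^ 2 ≤ (1 + (k + 1 + 1) * h) * (y + h / 4) ^ 2 := by
      have e2 : ((k : ℝ) + 1 + 1) * h = 4 * (1 - y) + h := by linear_combination hkh
      rw [e2, hkh]
      have hy1 : y ≤ 1 := by
        rw [hy]; nlinarith
      have q1 : 0 ≤ 5 / 2 - 6 * y + 4 * y ^ 2 := by nlinarith [sq_nonneg (y - 3 / 4)]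
      nlinarith [mul_nonneg (mul_nonneg h0 hy0) q1, mul_nonneg h0 h0,
        mul_nonneg (mul_nonneg h0 h0) h0, mul_nonneg (mul_nonneg h0 h0) hy0,
        mul_nonneg (mul_nonneg h0 h0) (sub_nonneg.2 hy1)]
    have : (y ^ 2 * (1 + h) ^ (k + 1 + 1)) * (y + h / 4) ^ 2 ≤
        (1 + (k + 1 + 1) * h) * (y + h / 4) ^ 2 := by
      calc (y ^ 2 * (1 + h) ^ (k + 1 + 1)) * (y + h / 4) ^ 2
          = ((y + h / 4) ^ 2 * (1 + h) ^ (k + 1)) * ((1 + h) * y ^ 2) := by ring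
        _ ≤ (1 + (k + 1) * h) * ((1 + h) * y ^ 2) :=
            mul_le_mul_of_nonneg_right ih' (by positivity)
        _ = (1 + h) * (1 + (k + 1) * h) * y ^ 2 := by ring
        _ ≤ _ := key
    exact le_of_mul_le_mul_right this hz

/-- the tail moments -/
noncomputable def W (g : ℝ → ℝ) (b : ℝ) (i j : ℕ) (s : ℝ) : ℝ := ∫ t in s..b, t ^ i * g t ^ j

/-- decreasing, concave, nonnegative -/
structure Ok (g : ℝ → ℝ) (b : ℝ) : Prop where
  hb : 0 < b
  conc : ConcaveOn ℝ (Icc 0 b) g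
  anti : AntitoneOn g (Icc 0 b)
  nn : ∀ s ∈ Icc 0 b, 0 ≤ g s
  g0 : 0 < g 0

variable {g : ℝ → ℝ} {b : ℝ}

theorem Ok.pos (H : Ok g b) {s : ℝ} (hs : s ∈ Ico 0 b) : 0 < g s := by
  have hb := H.hb
  have h := H.conc.2 (left_mem_Icc.2 hb.le) (right_mem_Icc.2 hb.le)
    (show 0 ≤ 1 - s / b by rw [sub_nonneg, div_le_one hb]; exact hs.2.le)
    (show 0 ≤ s / b from div_nonneg hs.1 hb.le) (by ring)
  simp only [smul_eq_mul, mul_zero, zero_add] at h
  rw [div_mul_cancel₀ s hb.ne'] at h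
  have h1 : 0 < (1 - s / b) * g 0 := by
    apply mul_pos _ H.g0
    rw [sub_pos, div_lt_one hb]; exact hs.2
  have h2 : 0 ≤ s / b * g b := mul_nonneg (div_nonneg hs.1 hb.le) (H.nn b (right_mem_Icc.2 hb.le))
  linarith

theorem Ok.anti_pow (H : Ok g b) (j : ℕ) : AntitoneOn (fun t => g t ^ j) (Icc 0 b) := by
  intro s hs t ht hst
  exact pow_le_pow_left₀ (H.nn t ht) (H.anti hs ht hst) j

theorem Ok.int (H : Ok g b) (i j : ℕ) {s t : ℝ} (hs : s ∈ Icc 0 b) (ht : t ∈ Icc 0 b) :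
    IntervalIntegrable (fun t => t ^ i * g t ^ j) volume s t := by
  have h1 : AntitoneOn (fun t => g t ^ j) (uIcc s t) :=
    (H.anti_pow j).mono (uIcc_subset_Icc hs ht)
  exact h1.intervalIntegrable.continuousOn_mul (by fun_prop)

theorem Ok.cont (H : Ok g b) : ContinuousOn g (Ioo 0 b) := by
  have h := H.conc.continuousOn_interior
  rwa [interior_Icc] at h

theorem Ok.derivW (H : Ok g b) (i j : ℕ) {s : ℝ} (hs : s ∈ Ioo 0 b) :
    HasDerivAt (W g b i j) (-(s ^ i * g s ^ j)) s := by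
  have hc : ContinuousOn (fun t => t ^ i * g t ^ j) (Ioo 0 b) := by
    have := H.cont
    fun_prop
  exact intervalIntegral.integral_hasDerivAt_left
    (H.int i j (Ioo_subset_Icc_self hs) (right_mem_Icc.2 H.hb.le))
    (hc.stronglyMeasurableAtFilter isOpen_Ioo s hs) (hc.continuousAt (isOpen_Ioo.mem_nhds hs))

theorem Ok.contW (H : Ok g b) (i j : ℕ) : ContinuousOn (W g b i j) (Icc 0 b) := by
  have h := H.int i j (left_mem_Icc.2 H.hb.le) (right_mem_Icc.2 H.hb.le)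
  have h1 := (intervalIntegrable_iff_integrableOn_Icc_of_le H.hb.le).1 h
  have h2 := intervalIntegral.continuousOn_primitive_interval_left
    (f := fun t => t ^ i * g t ^ j) (a := 0) (b := b) (μ := volume)
    (by rwa [uIcc_of_le H.hb.le])
  rwa [uIcc_of_le H.hb.le] at h2

/-- right derivative: the number `l` with `g' = -l` -/
theorem Ok.rd (H : Ok g b) {s : ℝ} (hs : s ∈ Ioo 0 b) : ∃ l : ℝ, 0 ≤ l ∧
    HasDerivWithinAt g (-l) (Ioi s) s ∧ ∀ t ∈ Icc s b, g t ≤ g s - l * (t - s) := by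
  have hs' : s ∈ interior (Icc 0 b) := by rwa [interior_Icc]
  have h1 := (H.conc.neg).hasDerivWithinAt_rightDeriv_of_mem_interior hs'
  set l := derivWithin (-g) (Ioi s) s with hl
  have h2 : HasDerivWithinAt g (-l) (Ioi s) s := by
    have := h1.neg
    simpa using this
  refine ⟨l, ?_, h2, ?_⟩
  · have h3 := (hasDerivWithinAt_iff_tendsto_slope' (by simp)).1 h2
    have h4 : ∀ᶠ t in 𝓝[>] s, slope g s t ≤ 0 := by
      filter_upwards [Ioo_mem_nhdsGT hs.2] with t ht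
      rw [slope_def_field]
      exact div_nonpos_of_nonpos_of_nonneg
        (sub_nonpos.2 (H.anti ⟨hs.1.le, hs.2.le⟩ ⟨(hs.1.trans ht.1).le, ht.2.le⟩ ht.1.le))
        (sub_nonneg.2 ht.1.le)
    have := le_of_tendsto h3 h4
    linarith
  · intro t ht
    rcases ht.1.eq_or_lt with rfl | hst
    · simp
    have h3 := H.conc.slope_le_of_hasDerivWithinAt_Ioi ⟨hs.1.le, hs.2.le⟩
      ⟨hs.1.le.trans ht.1, ht.2⟩ hst h2
    rw [slope_def_field, div_le_iff₀ (sub_pos.2 hst)] at h3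
    linarith

theorem Ok.keyA (H : Ok g b) (k : ℕ) {s l : ℝ} (hs : s ∈ Ioo 0 b) (hl : 0 ≤ l)
    (h : ∀ t ∈ Icc s b, g t ≤ g s - l * (t - s)) :
    (k + 1) * l * W g b 0 k s ≤ g s ^ (k + 1) := by
  have hsI : s ∈ Icc 0 b := Ioo_subset_Icc_self hs
  have e1 : (k + 1) * l * W g b 0 k s = ∫ t in s..b, (k + 1) * l * (t ^ 0 * g t ^ k) := by
    rw [intervalIntegral.integral_const_mul]; rfl
  rw [e1]
  have e2 : ∫ t in s..b, (k + 1) * l * (g s - l * (t - s)) ^ k =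
      -(g s - l * (b - s)) ^ (k + 1) - -(g s - l * (s - s)) ^ (k + 1) := by
    apply intervalIntegral.integral_eq_sub_of_hasDerivAt
      (f := fun t => -(g s - l * (t - s)) ^ (k + 1))
    · intro t _
      have h1 : HasDerivAt (fun t : ℝ => g s - l * (t - s)) (-l) t := by
        have := ((hasDerivAt_id t).sub_const s).const_mul l
        have h2 := this.const_sub (g s)
        simpa using h2
      have h3 := (h1.pow (k + 1)).neg
      refine h3.congr_deriv ?_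
      rw [Nat.add_sub_cancel]
      push_cast
      ring
    · exact Continuous.intervalIntegrable (by fun_prop) _ _
  have h3 : ∫ t in s..b, (k + 1) * l * (t ^ 0 * g t ^ k) ≤
      ∫ t in s..b, (k + 1) * l * (g s - l * (t - s)) ^ k := by
    apply intervalIntegral.integral_mono_on hs.2.le
    · exact (H.int 0 k hsI (right_mem_Icc.2 H.hb.le)).const_mul _
    · exact Continuous.intervalIntegrable (by fun_prop) _ _
    · intro t ht
      have h4 : g t ^ k ≤ (g s - l * (t - s)) ^ k :=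
        pow_le_pow_left₀ (H.nn t ⟨hs.1.le.trans ht.1, ht.2⟩) (h t ht) k
      rw [pow_zero, one_mul]
      exact mul_le_mul_of_nonneg_left h4 (by positivity)
  refine h3.trans ?_
  rw [e2, sub_self, mul_zero, sub_zero]
  have h5 : 0 ≤ g s - l * (b - s) :=
    (H.nn b (right_mem_Icc.2 H.hb.le)).trans (h b ⟨hs.2.le, le_rfl⟩)
  have h6 := pow_nonneg h5 (k + 1)
  linarith

theorem anti_of_right {f : ℝ → ℝ} (hc : ContinuousOn f (Ioo 0 b))
    (hd : ∀ x ∈ Ioo 0 b, ∃ f', f' ≤ 0 ∧ HasDerivWithinAt f f' (Ioi x) x) {s t : ℝ} (hs : 0 < s)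
    (hst : s ≤ t) (ht : t < b) : f t ≤ f s := by
  choose! f' h1 h2 using hd
  have hm : ∀ x ∈ Icc s t, x ∈ Ioo 0 b := fun x hx => ⟨hs.trans_le hx.1, hx.2.trans_lt ht⟩
  exact image_le_of_deriv_right_le_deriv_boundary (a := s) (b := t) (f := f) (f' := f')
    (B := fun _ => f s) (B' := fun _ => 0)
    (hc.mono hm) (fun x hx => (h2 x (hm x (Ico_subset_Icc_self hx))).Ici_of_Ioi)
    (le_refl (f s)) continuousOn_const (fun x _ => hasDerivWithinAt_const _ _ _)
    (fun x hx => h1 x (hm x (Ico_subset_Icc_self hx))) (right_mem_Icc.2 hst)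

theorem lim0 (hb : 0 < b) {p : ℝ → ℝ} (hp : ContinuousOn p (Icc 0 b)) (h0 : p b = 0) {c s : ℝ}
    (hs : s ∈ Ico 0 b) (h : ∀ t ∈ Ioo s b, -p t ≤ c) : 0 ≤ c := by
  have h1 : Tendsto p (𝓝[<] b) (𝓝 (p b)) := by
    have h2 := (hp b (right_mem_Icc.2 hb.le))
    refine h2.mono_left ?_
    rw [← nhdsWithin_Ioo_eq_nhdsLT hb]
    exact nhdsWithin_mono _ Ioo_subset_Icc_self
  have h3 : Tendsto (fun t => -p t) (𝓝[<] b) (𝓝 0) := by
    have := h1.neg
    rwa [h0, neg_zero] at this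
  exact le_of_tendsto h3 (by
    filter_upwards [Ioo_mem_nhdsLT hs.2] with t ht using h t ht)

theorem Ok.contW' (H : Ok g b) (i j : ℕ) : ContinuousOn (W g b i j) (Ioo 0 b) :=
  (H.contW i j).mono Ioo_subset_Icc_self

theorem W_end (i j : ℕ) : W g b i j b = 0 := by simp [W]

/-- `M > 0` -/
theorem Ok.Wpos (H : Ok g b) (j : ℕ) {s : ℝ} (hs : s ∈ Ico 0 b) : 0 < W g b 0 j s := by
  have h1 := H.int 0 j (s := s) (t := b) (Ico_subset_Icc_self hs) (right_mem_Icc.2 H.hb.le)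
  apply intervalIntegral.intervalIntegral_pos_of_pos_on h1 _ hs.2
  intro t ht
  have := H.pos (s := t) ⟨hs.1.trans ht.1.le, ht.2⟩
  positivity

/-- `P ≤ g² M` -/
theorem Ok.PleM (H : Ok g b) (k : ℕ) {s : ℝ} (hs : s ∈ Ico 0 b) :
    W g b 0 (k + 2) s ≤ g s ^ 2 * W g b 0 k s := by
  have hsI := Ico_subset_Icc_self hs
  have hbI := right_mem_Icc.2 H.hb.le
  have e1 : g s ^ 2 * W g b 0 k s = ∫ t in s..b, g s ^ 2 * (t ^ 0 * g t ^ k) := by
    rw [intervalIntegral.integral_const_mul]; rfl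
  rw [e1]
  apply intervalIntegral.integral_mono_on hs.2.le (H.int 0 (k + 2) hsI hbI)
    ((H.int 0 k hsI hbI).const_mul _)
  intro t ht
  have htI : t ∈ Icc 0 b := ⟨hs.1.trans ht.1, ht.2⟩
  have h1 := H.anti_pow 2 hsI htI ht.1
  have h2 := pow_nonneg (H.nn t htI) k
  simp only at h1
  calc t ^ 0 * g t ^ (k + 2) = g t ^ 2 * g t ^ k := by ring
    _ ≤ g s ^ 2 * g t ^ k := mul_le_mul_of_nonneg_right h1 h2
    _ = _ := by ring

/-- `M ≤ b g^k` -/
theorem Ok.Mle (H : Ok g b) (k : ℕ) {s : ℝ} (hs : s ∈ Ico 0 b) :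
    W g b 0 k s ≤ b * g s ^ k := by
  have hsI := Ico_subset_Icc_self hs
  have hbI := right_mem_Icc.2 H.hb.le
  have e1 : ∫ _ in s..b, g s ^ k = (b - s) * g s ^ k := by
    rw [intervalIntegral.integral_const, smul_eq_mul]
  have h1 : W g b 0 k s ≤ ∫ _ in s..b, g s ^ k := by
    apply intervalIntegral.integral_mono_on hs.2.le (H.int 0 k hsI hbI)
      (by simp)
    intro t ht
    have htI : t ∈ Icc 0 b := ⟨hs.1.trans ht.1, ht.2⟩
    have h1 := H.anti_pow k hsI htI ht.1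
    simpa using h1
  rw [e1] at h1
  have h2 : 0 ≤ g s ^ k := pow_nonneg (H.nn s hsI) k
  have h3 := hs.1
  nlinarith

/-- `S = ∫ (t - s) g^k` -/
noncomputable def S (g : ℝ → ℝ) (b : ℝ) (k : ℕ) (s : ℝ) : ℝ := W g b 1 k s - s * W g b 0 k s

/-- `T = ∫ (t - s)² g^k` -/
noncomputable def T (g : ℝ → ℝ) (b : ℝ) (k : ℕ) (s : ℝ) : ℝ :=
  W g b 2 k s - 2 * s * W g b 1 k s + s ^ 2 * W g b 0 k s

theorem Ok.Snn (H : Ok g b) (k : ℕ) {s : ℝ} (hs : s ∈ Ico 0 b) : 0 ≤ S g b k s := by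
  have hsI := Ico_subset_Icc_self hs
  have hbI := right_mem_Icc.2 H.hb.le
  have e1 : S g b k s = ∫ t in s..b, (t ^ 1 * g t ^ k - s * (t ^ 0 * g t ^ k)) := by
    rw [intervalIntegral.integral_sub (H.int 1 k hsI hbI) ((H.int 0 k hsI hbI).const_mul _),
      intervalIntegral.integral_const_mul]
    rfl
  rw [e1]
  apply intervalIntegral.integral_nonneg hs.2.le
  intro t ht
  have htI : t ∈ Icc 0 b := ⟨hs.1.trans ht.1, ht.2⟩
  have h2 := pow_nonneg (H.nn t htI) k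
  have h3 : 0 ≤ (t - s) * g t ^ k := mul_nonneg (sub_nonneg.2 ht.1) h2
  linarith

theorem Ok.contS (H : Ok g b) (k : ℕ) : ContinuousOn (S g b k) (Icc 0 b) := by
  have h0 := H.contW 0 k
  have h1 := H.contW 1 k
  unfold S
  fun_prop

theorem Ok.contT (H : Ok g b) (k : ℕ) : ContinuousOn (T g b k) (Icc 0 b) := by
  have h0 := H.contW 0 k
  have h1 := H.contW 1 k
  have h2 := H.contW 2 k
  unfold T
  fun_prop

theorem S_end (k : ℕ) : S g b k b = 0 := by simp [S, W_end]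

theorem T_end (k : ℕ) : T g b k b = 0 := by simp [T, W_end]

theorem Ok.derivS (H : Ok g b) (k : ℕ) {s : ℝ} (hs : s ∈ Ioo 0 b) :
    HasDerivAt (S g b k) (-W g b 0 k s) s := by
  have h0 := H.derivW 0 k hs
  have h1 := H.derivW 1 k hs
  have h := h1.sub ((hasDerivAt_id s).mul h0)
  refine (h.congr_deriv ?_)
  simp only [id]
  ring

theorem Ok.derivT (H : Ok g b) (k : ℕ) {s : ℝ} (hs : s ∈ Ioo 0 b) :
    HasDerivAt (T g b k) (-2 * S g b k s) s := by
  have h0 := H.derivW 0 k hs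
  have h1 := H.derivW 1 k hs
  have h2 := H.derivW 2 k hs
  have h := (h2.sub (((hasDerivAt_id s).const_mul 2).mul h1)).add (((hasDerivAt_id s).pow 2).mul h0)
  refine (h.congr_deriv ?_)
  simp only [id, S]
  simp
  ring

/-- (G) -/
theorem Ok.G (H : Ok g b) (k : ℕ) {s : ℝ} (hs : s ∈ Ioo 0 b) :
    (k + 1) * g s ^ 2 * W g b 0 k s ≤ (k + 3) * W g b 0 (k + 2) s := by
  have hcont : ContinuousOn (fun s => (k + 3) * W g b 0 (k + 2) s -
      (k + 1) * g s ^ 2 * W g b 0 k s) (Ioo 0 b) := by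
    have h1 := H.cont
    have h2 := H.contW' 0 k
    have h3 := H.contW' 0 (k + 2)
    fun_prop
  have hd : ∀ x ∈ Ioo 0 b, ∃ f', f' ≤ 0 ∧ HasDerivWithinAt (fun s => (k + 3) * W g b 0 (k + 2) s -
      (k + 1) * g s ^ 2 * W g b 0 k s) f' (Ioi x) x := by
    intro x hx
    obtain ⟨l, hl, hd, ht⟩ := H.rd hx
    have hA := H.keyA k hx hl ht
    have hg := H.pos (Ioo_subset_Ico_self hx)
    have h1 := (H.derivW 0 k hx).hasDerivWithinAt (s := Ioi x)
    have h2 := (H.derivW 0 (k + 2) hx).hasDerivWithinAt (s := Ioi x)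
    refine ⟨_, ?_, (h2.const_mul ((k : ℝ) + 3)).sub (((hd.pow 2).const_mul ((k : ℝ) + 1)).mul h1)⟩
    have h3 := mul_le_mul_of_nonneg_left hA (mul_nonneg (zero_le_two (α := ℝ)) hg.le)
    simp only [pow_zero, one_mul, Nat.cast_ofNat, Nat.add_one_sub_one, pow_one, Pi.pow_apply]
    ring_nf at h3 ⊢
    linarith
  have h1 : ∀ t ∈ Ioo s b, -((k + 1) * g 0 ^ 2 * W g b 0 k t) ≤ (k + 3) * W g b 0 (k + 2) s -
      (k + 1) * g s ^ 2 * W g b 0 k s := by
    intro t ht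
    have h2 := anti_of_right hcont hd hs.1 ht.1.le ht.2
    have htI : t ∈ Ico 0 b := ⟨hs.1.le.trans ht.1.le, ht.2⟩
    have h3 := (H.Wpos (k + 2) htI).le
    have h4 := (H.Wpos k htI).le
    have h5 := H.anti_pow 2 (left_mem_Icc.2 H.hb.le) (Ico_subset_Icc_self htI) htI.1
    simp only at h2 h5
    have h6 : ((k : ℝ) + 1) * g t ^ 2 * W g b 0 k t ≤ (k + 1) * g 0 ^ 2 * W g b 0 k t := by
      gcongr
    have h7 : 0 ≤ ((k : ℝ) + 3) * W g b 0 (k + 2) t := by positivity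
    linarith
  have h2 := lim0 H.hb (p := fun t => (k + 1) * g 0 ^ 2 * W g b 0 k t)
    (continuousOn_const.mul (H.contW 0 k)) (by simp [W_end]) (Ioo_subset_Ico_self hs) h1
  linarith

/-- (Q) -/
theorem Ok.Q (H : Ok g b) (k : ℕ) {s : ℝ} (hs : s ∈ Ioo 0 b) :
    4 * (k + 2) * S g b k s * g s ^ (k + 2) + k * (k + 3) * W g b 0 k s * W g b 0 (k + 2) s ≤
      (k + 1) * (k + 4) * W g b 0 k s ^ 2 * g s ^ 2 := by
  set N : ℝ → ℝ := fun s => (k + 1) * (k + 4) * (W g b 0 k s ^ 2 * g s ^ 2) -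
    4 * (k + 2) * (S g b k s * g s ^ (k + 2)) - k * (k + 3) * (W g b 0 k s * W g b 0 (k + 2) s)
    with hN
  have hpos : ∀ x ∈ Ioo 0 b, 0 < g x := fun x hx => H.pos (Ioo_subset_Ico_self hx)
  have hcont : ContinuousOn (fun s => N s / g s ^ (k + 2)) (Ioo 0 b) := by
    have h1 := H.cont
    have h2 := H.contW' 0 k
    have h3 := H.contW' 0 (k + 2)
    have h4 := (H.contS k).mono (Ioo_subset_Icc_self (a := 0) (b := b))
    apply ContinuousOn.div
    · rw [hN]; fun_prop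
    · fun_prop
    · intro x hx
      exact (pow_pos (hpos x hx) _).ne'
  have hd : ∀ x ∈ Ioo 0 b, ∃ f', f' ≤ 0 ∧
      HasDerivWithinAt (fun s => N s / g s ^ (k + 2)) f' (Ioi x) x := by
    intro x hx
    obtain ⟨l, hl, hd, ht⟩ := H.rd hx
    have hA := H.keyA k hx hl ht
    have hG := H.G k hx
    have hg := hpos x hx
    have hM := (H.Wpos k (Ioo_subset_Ico_self hx)).le
    have hPM := H.PleM k (Ioo_subset_Ico_self hx)
    have h1 := (H.derivW 0 k hx).hasDerivWithinAt (s := Ioi x)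
    have h2 := (H.derivW 0 (k + 2) hx).hasDerivWithinAt (s := Ioi x)
    have h3 := (H.derivS k hx).hasDerivWithinAt (s := Ioi x)
    have h4 : HasDerivWithinAt N _ (Ioi x) x :=
      ((((h1.pow 2).mul (hd.pow 2)).const_mul (((k : ℝ) + 1) * (k + 4))).sub
      ((h3.mul (hd.pow (k + 2))).const_mul (4 * ((k : ℝ) + 2)))).sub
      ((h1.mul h2).const_mul ((k : ℝ) * (k + 3)))
    refine ⟨_, ?_, h4.div (hd.pow (k + 2)) (pow_pos hg _).ne'⟩
    apply div_nonpos_of_nonpos_of_nonneg _ (by positivity)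
    simp only [hN]
    set M := W g b 0 k x
    set P := W g b 0 (k + 2) x
    set Sx := S g b k x
    have hk0 : (0 : ℝ) ≤ k := Nat.cast_nonneg k
    have hX : 0 ≤ M * g x ^ 2 - P := by linarith
    have hX2 : ((k : ℝ) + 3) * (M * g x ^ 2 - P) - 2 * M * g x ^ 2 ≤ 0 := by linarith
    have hA2 := mul_le_mul_of_nonneg_right hA hX
    have e : (k : ℝ) * g x ^ (k + 1) * (-2 * M ^ 2 * g x ^ 2 * l +
        (k + 2) * (k + 3) * M * (M * g x ^ 2 - P) * l -
        (k + 3) * g x ^ (k + 1) * (M * g x ^ 2 - P)) ≤ 0 := by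
      have h5 : -2 * M ^ 2 * g x ^ 2 * l + (k + 2) * (k + 3) * M * (M * g x ^ 2 - P) * l -
        (k + 3) * g x ^ (k + 1) * (M * g x ^ 2 - P) ≤ 0 := by
        have h6 : l * M * (((k : ℝ) + 3) * (M * g x ^ 2 - P) - 2 * M * g x ^ 2) ≤ 0 :=
          mul_nonpos_of_nonneg_of_nonpos (by positivity) hX2
        nlinarith
      exact mul_nonpos_of_nonneg_of_nonpos (by positivity) h5
    refine le_trans (le_of_eq ?_) e
    simp only [pow_zero, one_mul, Nat.cast_ofNat, Nat.add_one_sub_one, pow_one, Nat.cast_add,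
      Pi.pow_apply]
    ring
  have h1 : ∀ t ∈ Ioo s b, -(4 * (k + 2) * S g b k t + k * (k + 3) * b * W g b 0 k t) ≤
      N s / g s ^ (k + 2) := by
    intro t ht
    have h2 := anti_of_right hcont hd hs.1 ht.1.le ht.2
    have htI : t ∈ Ico 0 b := ⟨hs.1.le.trans ht.1.le, ht.2⟩
    have hg := H.pos htI
    have h3 := (H.Wpos k htI).le
    have h4 : W g b 0 (k + 2) t ≤ b * g t ^ (k + 2) := H.Mle (k + 2) htI
    refine le_trans ?_ h2
    rw [le_div_iff₀ (pow_pos hg _)]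
    simp only [hN]
    have h5 : (k : ℝ) * (k + 3) * (W g b 0 k t * W g b 0 (k + 2) t) ≤
        k * (k + 3) * (W g b 0 k t * (b * g t ^ (k + 2))) := by gcongr
    have h6 : 0 ≤ ((k : ℝ) + 1) * (k + 4) * (W g b 0 k t ^ 2 * g t ^ 2) := by positivity
    linarith
  have h2 := lim0 H.hb (p := fun t => 4 * (k + 2) * S g b k t + k * (k + 3) * b * W g b 0 k t)
    ((continuousOn_const.mul (H.contS k)).add (continuousOn_const.mul (H.contW 0 k)))
    (by simp [W_end, S_end]) (Ioo_subset_Ico_self hs) h1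
  have h3 := hpos s hs
  have h4 : 0 ≤ N s := by
    by_contra hc
    push Not at hc
    have := div_neg_of_neg_of_pos hc (pow_pos h3 (k + 2))
    linarith
  simp only [hN] at h4
  linarith

/-- (E) -/
theorem Ok.E (H : Ok g b) {k : ℕ} (hk : 1 ≤ k) {s : ℝ} (hs : s ∈ Ioo 0 b) :
    S g b k s ^ 2 * W g b 0 (k + 2) s ^ (k + 1) ≤ kap k * W g b 0 k s ^ (k + 4) *
      ((k + 3) * W g b 0 (k + 2) s - k * g s ^ 2 * W g b 0 k s) := by
  have hG := H.G k hs
  have hQ := H.Q k hs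
  have hg := H.pos (Ioo_subset_Ico_self hs)
  have hM := H.Wpos k (Ioo_subset_Ico_self hs)
  have hP := H.Wpos (k + 2) (Ioo_subset_Ico_self hs)
  have hS := H.Snn k (Ioo_subset_Ico_self hs)
  set M := W g b 0 k s
  set P := W g b 0 (k + 2) s
  set Sx := S g b k s
  set G := g s
  have hk0 : (0 : ℝ) < k := by exact_mod_cast hk
  obtain ⟨h, hh⟩ : ∃ h : ℝ, h = (k + 3) * P / ((k + 1) * M * G ^ 2) - 1 := ⟨_, rfl⟩
  obtain ⟨β, hβ⟩ : ∃ β : ℝ, β = (k + 2) * Sx * G ^ k / ((k + 1) * M ^ 2) := ⟨_, rfl⟩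
  have h0 : 0 ≤ h := by
    rw [hh, sub_nonneg, one_le_div (by positivity)]
    linarith
  have hP' : P = (1 + h) * (k + 1) * M * G ^ 2 / (k + 3) := by
    rw [hh]; field_simp; ring
  have hS' : Sx = β * (k + 1) * M ^ 2 / ((k + 2) * G ^ k) := by
    rw [hβ]; field_simp
  have hβ0 : 0 ≤ β := by rw [hβ]; positivity
  have hβ1 : β ≤ 1 - k * h / 4 := by
    have e1 : 4 * (k + 2) * Sx * G ^ (k + 2) = 4 * β * ((k + 1) * M ^ 2 * G ^ 2) := by
      rw [hS', pow_add]; field_simp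
    have e2 : k * (k + 3) * M * P = k * (1 + h) * ((k + 1) * M ^ 2 * G ^ 2) := by
      rw [hP']; field_simp
    rw [e1, e2] at hQ
    have h3 : 0 < ((k : ℝ) + 1) * M ^ 2 * G ^ 2 := by positivity
    have h4 : 4 * β + k * (1 + h) ≤ k + 4 := by
      refine le_of_mul_le_mul_right ?_ h3
      linarith
    linarith
  have hkh : (k : ℝ) * h ≤ 4 := by linarith
  have hel := elem' k h0 hkh
  have h5 : β ^ 2 ≤ (1 - k * h / 4) ^ 2 := pow_le_pow_left₀ hβ0 hβ1 2
  have h6 : β ^ 2 * (1 + h) ^ (k + 1) ≤ 1 + (k + 1) * h :=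
    (mul_le_mul_of_nonneg_right h5 (by positivity)).trans hel
  have h7 : 0 ≤ kap k * M ^ (k + 5) * G ^ 2 := by
    unfold kap
    positivity
  have h8 := mul_le_mul_of_nonneg_left h6 h7
  refine le_trans (le_of_eq ?_) (h8.trans (le_of_eq ?_))
  · rw [hS', hP']
    unfold kap
    rw [div_pow, div_pow, mul_pow, mul_pow, mul_pow, mul_pow, mul_pow, mul_pow]
    field_simp
    ring
  · rw [hP']
    field_simp
    ring

theorem Ok.main (H : Ok g b) {k : ℕ} (hk : 1 ≤ k) :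
    (W g b 0 k 0 * W g b 2 k 0 - W g b 1 k 0 ^ 2) * W g b 0 (k + 2) 0 ^ k ≤
      kap k * W g b 0 k 0 ^ (k + 4) := by
  obtain ⟨j, rfl⟩ : ∃ j, k = j + 1 := ⟨k - 1, by omega⟩
  have hkap : 0 ≤ kap (j + 1) := by
    unfold kap
    positivity
  set F : ℝ → ℝ := fun s => kap (j + 1) * (W g b 0 (j + 1) s ^ (j + 1 + 3) /
    W g b 0 (j + 1 + 2) s ^ (j + 1)) - (T g b (j + 1) s - S g b (j + 1) s ^ 2 /
      W g b 0 (j + 1) s) with hF
  have hMp : ∀ s ∈ Ico 0 b, 0 < W g b 0 (j + 1) s := fun s hs => H.Wpos _ hs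
  have hPp : ∀ s ∈ Ico 0 b, 0 < W g b 0 (j + 1 + 2) s := fun s hs => H.Wpos _ hs
  have hcont : ContinuousOn F (Ico 0 b) := by
    have hI : Ico 0 b ⊆ Icc 0 b := Ico_subset_Icc_self
    have h2 := (H.contW 0 (j + 1)).mono hI
    have h3 := (H.contW 0 (j + 1 + 2)).mono hI
    have h4 := (H.contS (j + 1)).mono hI
    have h5 := (H.contT (j + 1)).mono hI
    exact (continuousOn_const.mul ((h2.pow _).div (h3.pow _)
      fun x hx => (pow_pos (hPp x hx) _).ne')).sub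
      (h5.sub ((h4.pow 2).div h2 fun x hx => (hMp x hx).ne'))
  have hd : ∀ x ∈ Ioo 0 b, ∃ f', f' ≤ 0 ∧ HasDerivAt F f' x := by
    intro x hx
    have hE := H.E hk hx
    have hM := hMp x (Ioo_subset_Ico_self hx)
    have hP := hPp x (Ioo_subset_Ico_self hx)
    have hg := H.pos (Ioo_subset_Ico_self hx)
    have h1 := H.derivW 0 (j + 1) hx
    have h2 := H.derivW 0 (j + 1 + 2) hx
    have h3 := H.derivS (j + 1) hx
    have h4 := H.derivT (j + 1) hx
    have h5 : HasDerivAt F _ x :=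
      (((h1.pow (j + 1 + 3)).div (h2.pow (j + 1)) (pow_pos hP _).ne').const_mul
        (kap (j + 1))).sub (h4.sub ((h3.pow 2).div h1 hM.ne'))
    refine ⟨_, ?_, h5⟩
    simp only [Pi.pow_apply]
    set M := W g b 0 (j + 1) x
    set P := W g b 0 (j + 1 + 2) x
    set Sx := S g b (j + 1) x
    have e1 : j + 1 + 3 - 1 = j + 3 := rfl
    have e2 : j + 1 - 1 = j := rfl
    have e3 : 2 - 1 = 1 := rfl
    rw [e1, e2, e3]
    have h6 : (g x ^ (j + 1) / (M ^ 2 * P ^ (j + 2))) * (Sx ^ 2 * P ^ (j + 1 + 1) -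
        kap (j + 1) * M ^ (j + 1 + 4) * (((j + 1 : ℕ) + 3) * P - (j + 1 : ℕ) * g x ^ 2 * M)) ≤ 0 :=
      mul_nonpos_of_nonneg_of_nonpos (by positivity) (sub_nonpos.2 hE)
    refine le_trans (le_of_eq ?_) h6
    push_cast
    field_simp
    ring
  have hmono : ∀ t ∈ Ioo 0 b, F t ≤ F 0 := by
    intro t ht
    have hsub : Icc 0 t ⊆ Ico 0 b := fun x hx => ⟨hx.1, hx.2.trans_lt ht.2⟩
    have h1 : AntitoneOn F (Icc 0 t) := by
      apply antitoneOn_of_deriv_nonpos (convex_Icc 0 t) (hcont.mono hsub)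
      · intro x hx
        rw [interior_Icc] at hx
        obtain ⟨f', _, h⟩ := hd x ⟨hx.1, hx.2.trans ht.2⟩
        exact h.differentiableAt.differentiableWithinAt
      · intro x hx
        rw [interior_Icc] at hx
        obtain ⟨f', h', h⟩ := hd x ⟨hx.1, hx.2.trans ht.2⟩
        rw [h.deriv]
        exact h'
    exact h1 (left_mem_Icc.2 ht.1.le) (right_mem_Icc.2 ht.1.le) ht.1.le
  have hlow : ∀ t ∈ Ioo 0 b, -T g b (j + 1) t ≤ F 0 := by
    intro t ht
    refine le_trans ?_ (hmono t ht)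
    have hM := hMp t (Ioo_subset_Ico_self ht)
    have hP := hPp t (Ioo_subset_Ico_self ht)
    have h1 : 0 ≤ kap (j + 1) * (W g b 0 (j + 1) t ^ (j + 1 + 3) /
      W g b 0 (j + 1 + 2) t ^ (j + 1)) := by positivity
    have h2 : 0 ≤ S g b (j + 1) t ^ 2 / W g b 0 (j + 1) t := by positivity
    simp only [hF]
    linarith
  have h0 := lim0 H.hb (H.contT (j + 1)) (T_end _) (left_mem_Ico.2 H.hb) hlow
  have hM := hMp 0 (left_mem_Ico.2 H.hb)
  have hP := hPp 0 (left_mem_Ico.2 H.hb)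
  simp only [hF, S, T] at h0
  set M := W g b 0 (j + 1) 0
  set P := W g b 0 (j + 1 + 2) 0
  set A := W g b 1 (j + 1) 0
  set B := W g b 2 (j + 1) 0
  have h1 := mul_nonneg h0 (mul_nonneg hM.le (pow_nonneg hP.le (j + 1)))
  have e : (kap (j + 1) * (M ^ (j + 1 + 3) / P ^ (j + 1)) -
      (B - 2 * 0 * A + 0 ^ 2 * M - (A - 0 * M) ^ 2 / M)) * (M * P ^ (j + 1)) =
      kap (j + 1) * M ^ (j + 1 + 4) - (M * B - A ^ 2) * P ^ (j + 1) := by
    field_simp
    ring
  rw [e] at h1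
  linarith

end Dec598

/-- [A4] -/
theorem dec_concave (k : ℕ) (hk : 1 ≤ k) {b : ℝ} (hb : 0 ≤ b) {g : ℝ → ℝ}
    (hconc : ConcaveOn ℝ (Icc 0 b) g) (hanti : AntitoneOn g (Icc 0 b))
    (hpos : ∀ s ∈ Icc 0 b, 0 ≤ g s) :
    ((∫ t in (0 : ℝ)..b, g t ^ k) * (∫ t in (0 : ℝ)..b, t ^ 2 * g t ^ k) -
        (∫ t in (0 : ℝ)..b, t * g t ^ k) ^ 2) * (∫ t in (0 : ℝ)..b, g t ^ (k + 2)) ^ k ≤
      kap k * (∫ t in (0 : ℝ)..b, g t ^ k) ^ (k + 4) := by
  have hk' : k ≠ 0 := by omega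
  rcases hb.eq_or_lt with rfl | hb
  · simp [hk']
  rcases (hpos 0 (left_mem_Icc.2 hb.le)).eq_or_lt with h0 | h0
  · have hz : ∀ t ∈ uIcc 0 b, g t = 0 := by
      intro t ht
      rw [uIcc_of_le hb.le] at ht
      exact le_antisymm ((hanti (left_mem_Icc.2 hb.le) ht ht.1).trans h0.symm.le) (hpos t ht)
    have e1 : ∫ t in (0 : ℝ)..b, g t ^ k = 0 := by
      rw [intervalIntegral.integral_congr (g := fun _ => 0)
        (fun t ht => by simp only [hz t ht]; exact zero_pow hk')]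
      simp
    have e2 : ∫ t in (0 : ℝ)..b, t * g t ^ k = 0 := by
      rw [intervalIntegral.integral_congr (g := fun _ => 0)
        (fun t ht => by simp only [hz t ht]; rw [zero_pow hk', mul_zero])]
      simp
    rw [e1, e2]
    simp
  · have H : Dec598.Ok g b := ⟨hb, hconc, hanti, hpos, h0⟩
    have h := H.main hk
    simpa only [Dec598.W, pow_zero, one_mul, pow_one] using h

end Vale.Agent.P254.Perm
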