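import Vale.Agent.P254.Perm.Defs

/-!
P254: decreasing rearrangement of a concave function on an interval.
-/

open MeasureTheory Set

namespace Vale.Agent.P254.Perm.R863

/-- The folded function. -/
noncomputable def fold (a b : ℝ) (g : ℝ → ℝ) (t : ℝ) : ℝ :=
  sSup ((fun x => min (g x) (g (x + t))) '' Icc a (b - t))

theorem bdd {a b : ℝ} {g : ℝ → ℝ} (hconc : ConcaveOn ℝ (Icc a b) g)
    (hpos : ∀ s ∈ Icc a b, 0 ≤ g s) {x : ℝ} (hx : x ∈ Icc a b) :
    g x ≤ 2 * g ((a + b) / 2) := by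
  have hx' : a + b - x ∈ Icc a b := ⟨by linarith [hx.2], by linarith [hx.1]⟩
  have h := hconc.2 hx hx' (by norm_num : (0:ℝ) ≤ 1/2) (by norm_num : (0:ℝ) ≤ 1/2) (by norm_num)
  have e : (1/2 : ℝ) • x + (1/2 : ℝ) • (a + b - x) = (a + b) / 2 := by
    simp only [smul_eq_mul]; ring
  rw [e] at h
  simp only [smul_eq_mul] at h
  have := hpos _ hx'
  linarith

theorem bddAbove {a b : ℝ} {g : ℝ → ℝ} (hconc : ConcaveOn ℝ (Icc a b) g)
    (hpos : ∀ s ∈ Icc a b, 0 ≤ g s) {t : ℝ} (ht : 0 ≤ t) :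
    BddAbove ((fun x => min (g x) (g (x + t))) '' Icc a (b - t)) := by
  refine ⟨2 * g ((a + b) / 2), ?_⟩
  rintro _ ⟨x, hx, rfl⟩
  exact (min_le_left _ _).trans (bdd hconc hpos ⟨hx.1, by linarith [hx.2]⟩)

theorem nonem {a b : ℝ} {g : ℝ → ℝ} {t : ℝ} (ht : t ≤ b - a) :
    ((fun x => min (g x) (g (x + t))) '' Icc a (b - t)).Nonempty :=
  ⟨_, a, ⟨le_rfl, by linarith⟩, rfl⟩

theorem lt_fold {a b : ℝ} {g : ℝ → ℝ} (hconc : ConcaveOn ℝ (Icc a b) g)
    (hpos : ∀ s ∈ Icc a b, 0 ≤ g s) {t : ℝ} (ht : t ∈ Icc 0 (b - a)) (c : ℝ) :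
    c < fold a b g t ↔ ∃ x ∈ Icc a b, x + t ∈ Icc a b ∧ c < g x ∧ c < g (x + t) := by
  unfold fold
  rw [lt_csSup_iff (bddAbove hconc hpos ht.1) (nonem ht.2)]
  constructor
  · rintro ⟨_, ⟨x, hx, rfl⟩, h⟩
    exact ⟨x, ⟨hx.1, by linarith [hx.2, ht.1]⟩, ⟨by linarith [hx.1, ht.1], by linarith [hx.2]⟩,
      lt_min_iff.1 h⟩
  · rintro ⟨x, hx, hx', h⟩
    exact ⟨_, ⟨x, ⟨hx.1, by linarith [hx'.2]⟩, rfl⟩, lt_min_iff.2 h⟩

theorem fold_nonneg {a b : ℝ} {g : ℝ → ℝ} (hconc : ConcaveOn ℝ (Icc a b) g)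
    (hpos : ∀ s ∈ Icc a b, 0 ≤ g s) {t : ℝ} (ht : t ∈ Icc 0 (b - a)) : 0 ≤ fold a b g t := by
  have h : min (g a) (g (a + t)) ≤ fold a b g t :=
    le_csSup (bddAbove hconc hpos ht.1) ⟨a, ⟨le_rfl, by linarith [ht.2]⟩, rfl⟩
  have h1 : 0 ≤ g a := hpos _ ⟨le_rfl, by linarith [ht.1, ht.2]⟩
  have h2 : 0 ≤ g (a + t) := hpos _ ⟨by linarith [ht.1], by linarith [ht.2]⟩
  exact (le_min h1 h2).trans h

theorem fold_anti {a b : ℝ} {g : ℝ → ℝ} (hconc : ConcaveOn ℝ (Icc a b) g)
    (hpos : ∀ s ∈ Icc a b, 0 ≤ g s) : AntitoneOn (fold a b g) (Icc 0 (b - a)) := by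
  intro t ht t' ht' htt
  refine le_of_forall_lt fun c hc => ?_
  rw [lt_fold hconc hpos ht'] at hc
  rw [lt_fold hconc hpos ht]
  obtain ⟨x, hx, hx', h1, h2⟩ := hc
  have hm : x + t ∈ Icc a b := ⟨by linarith [hx.1, ht.1], by linarith [hx'.2]⟩
  refine ⟨x, hx, hm, h1, ?_⟩
  have h3 : min (g x) (g (x + t')) ≤ g (x + t) :=
    hconc.ge_on_segment hx hx' (by
      rw [segment_eq_Icc (by linarith [ht'.1])]
      exact ⟨by linarith [ht.1], by linarith⟩)
  exact (lt_min h1 h2).trans_le h3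

theorem fold_concave {a b : ℝ} {g : ℝ → ℝ} (hconc : ConcaveOn ℝ (Icc a b) g)
    (hpos : ∀ s ∈ Icc a b, 0 ≤ g s) : ConcaveOn ℝ (Icc 0 (b - a)) (fold a b g) := by
  refine ⟨convex_Icc _ _, ?_⟩
  intro t ht t' ht' p q hp hq hpq
  simp only [smul_eq_mul]
  refine le_of_forall_pos_le_add fun ε hε => ?_
  obtain ⟨x, hx, hxt, h1, h2⟩ := (lt_fold hconc hpos ht (fold a b g t - ε)).1 (by linarith)
  obtain ⟨y, hy, hyt, h3, h4⟩ := (lt_fold hconc hpos ht' (fold a b g t' - ε)).1 (by linarith)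
  have hz : p * x + q * y ∈ Icc a b := (convex_Icc a b) hx hy hp hq hpq
  have hzt : p * (x + t) + q * (y + t') ∈ Icc a b := (convex_Icc a b) hxt hyt hp hq hpq
  have e : p * (x + t) + q * (y + t') = (p * x + q * y) + (p * t + q * t') := by ring
  have ht'' : 0 ≤ p * t + q * t' := by
    have := mul_nonneg hp ht.1
    have := mul_nonneg hq ht'.1
    linarith
  have h5 : min (g (p * x + q * y)) (g ((p * x + q * y) + (p * t + q * t'))) ≤
      fold a b g (p * t + q * t') :=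
    le_csSup (bddAbove hconc hpos ht'')
      ⟨p * x + q * y, ⟨hz.1, by rw [e] at hzt; linarith [hzt.2]⟩, rfl⟩
  have h6 : p * g x + q * g y ≤ g (p * x + q * y) := hconc.2 hx hy hp hq hpq
  have h7 : p * g (x + t) + q * g (y + t') ≤ g ((p * x + q * y) + (p * t + q * t')) := by
    rw [← e]
    exact hconc.2 hxt hyt hp hq hpq
  have h8 : p * fold a b g t + q * fold a b g t' - ε ≤ p * g x + q * g y := by
    have := mul_le_mul_of_nonneg_left h1.le hp
    have := mul_le_mul_of_nonneg_left h3.le hq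
    nlinarith
  have h9 : p * fold a b g t + q * fold a b g t' - ε ≤ p * g (x + t) + q * g (y + t') := by
    have := mul_le_mul_of_nonneg_left h2.le hp
    have := mul_le_mul_of_nonneg_left h4.le hq
    nlinarith
  have := le_min (h8.trans h6) (h9.trans h7)
  linarith

/-- Helly in dimension one. -/
theorem helly {ι : Type*} (p r : ι → ℝ) (h : ∀ i j, |p i - p j| ≤ r i + r j) :
    ∃ ν : ℝ, ∀ i, |p i - ν| ≤ r i := by
  rcases isEmpty_or_nonempty ι with h0 | h0
  · exact ⟨0, fun i => (h0.false i).elim⟩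
  obtain ⟨j0⟩ := h0
  have hb : BddAbove (range fun i => p i - r i) := by
    refine ⟨p j0 + r j0, ?_⟩
    rintro _ ⟨i, rfl⟩
    have := (abs_le.1 (h i j0)).2
    simp only
    linarith
  refine ⟨⨆ i, (p i - r i), fun i => ?_⟩
  have h1 : p i - r i ≤ ⨆ i, (p i - r i) := le_ciSup hb i
  have h2 : (⨆ i, (p i - r i)) ≤ p i + r i := by
    have : Nonempty ι := ⟨j0⟩
    refine ciSup_le fun j => ?_
    have := (abs_le.1 (h j i)).2
    linarith
  rw [abs_le]
  constructor <;> linarith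

/-- Measurability of a concave nonnegative function on an interval. -/
theorem meas {a b : ℝ} {g : ℝ → ℝ} (hconc : ConcaveOn ℝ (Icc a b) g)
    (hpos : ∀ s ∈ Icc a b, 0 ≤ g s) : Measurable ((Icc a b).indicator g) := by
  refine measurable_of_Ioi fun c => ?_
  rcases lt_or_ge c 0 with hc | hc
  · have : (Icc a b).indicator g ⁻¹' Ioi c = univ := by
      refine eq_univ_of_forall fun x => ?_
      simp only [mem_preimage, mem_Ioi]
      by_cases hx : x ∈ Icc a b
      · rw [indicator_of_mem hx]; exact hc.trans_le (hpos x hx)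
      · rw [indicator_of_notMem hx]; exact hc
    rw [this]; exact MeasurableSet.univ
  · have : (Icc a b).indicator g ⁻¹' Ioi c = {x ∈ Icc a b | c < g x} := by
      ext x
      simp only [mem_preimage, mem_Ioi, mem_ofPred_eq]
      by_cases hx : x ∈ Icc a b
      · rw [indicator_of_mem hx]; simp [hx]
      · rw [indicator_of_notMem hx]
        constructor
        · intro h; linarith
        · intro h; exact absurd h.1 hx
    rw [this]
    exact (hconc.convex_gt c).ordConnected.measurableSet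

theorem level_eq {a b : ℝ} {g : ℝ → ℝ} {c : ℝ} (hc : 0 < c) :
    {x | c < (Icc a b).indicator g x} = {x ∈ Icc a b | c < g x} := by
  ext x
  simp only [mem_ofPred_eq]
  by_cases hx : x ∈ Icc a b
  · rw [indicator_of_mem hx]; simp [hx]
  · rw [indicator_of_notMem hx]
    constructor
    · intro h; linarith
    · intro h; exact absurd h.1 hx

theorem intOn {a b : ℝ} {g w : ℝ → ℝ} (hconc : ConcaveOn ℝ (Icc a b) g)
    (hpos : ∀ s ∈ Icc a b, 0 ≤ g s) (hw : Continuous w) (k : ℕ) :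
    IntegrableOn (fun x => w x * g x ^ k) (Icc a b) := by
  obtain ⟨C, hC⟩ := (isCompact_Icc (a := a) (b := b)).exists_bound_of_continuousOn hw.continuousOn
  have hGm : Measurable ((Icc a b).indicator g) := meas hconc hpos
  have h1 : IntegrableOn (fun x => w x * (Icc a b).indicator g x ^ k) (Icc a b) := by
    refine Measure.integrableOn_of_bounded (M := C * (2 * g ((a + b) / 2)) ^ k) (by simp)
      (hw.measurable.mul (hGm.pow_const k)).aestronglyMeasurable ?_
    filter_upwards [ae_restrict_mem measurableSet_Icc] with x hx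
    change ‖w x * (Icc a b).indicator g x ^ k‖ ≤ _
    rw [indicator_of_mem hx, norm_mul, norm_pow, Real.norm_eq_abs (g x), abs_of_nonneg (hpos x hx)]
    exact mul_le_mul (hC x hx) (pow_le_pow_left₀ (hpos x hx) (bdd hconc hpos hx) k)
      (pow_nonneg (hpos x hx) _) ((norm_nonneg _).trans (hC x hx))
  refine h1.congr_fun (fun x hx => ?_) measurableSet_Icc
  simp only [indicator_of_mem hx]

theorem intI {a b : ℝ} (hab : a ≤ b) {g w : ℝ → ℝ} (hconc : ConcaveOn ℝ (Icc a b) g)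
    (hpos : ∀ s ∈ Icc a b, 0 ≤ g s) (hw : Continuous w) (k : ℕ) :
    IntervalIntegrable (fun x => w x * g x ^ k) volume a b :=
  (intervalIntegrable_iff_integrableOn_Ioc_of_le hab).2
    ((intOn hconc hpos hw k).mono_set Ioc_subset_Icc_self)

/-- Layer cake. -/
theorem cake {a b : ℝ} (hab : a ≤ b) {g w : ℝ → ℝ} (hconc : ConcaveOn ℝ (Icc a b) g)
    (hpos : ∀ s ∈ Icc a b, 0 ≤ g s) (hw : Continuous w) (hw0 : ∀ s, 0 ≤ w s) {k : ℕ}
    (hk : 1 ≤ k) :
    ENNReal.ofReal (∫ t in a..b, w t * g t ^ k) =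
      ∫⁻ c in Ioi (0 : ℝ), (∫⁻ s in {x ∈ Icc a b | c < g x}, ENNReal.ofReal (w s)) *
        ENNReal.ofReal (k * c ^ (k - 1)) := by
  set G := (Icc a b).indicator g with hG
  have hGm : Measurable G := meas hconc hpos
  have hG0 : ∀ x, 0 ≤ G x := fun x => indicator_nonneg hpos x
  have hwm : Measurable fun s => ENNReal.ofReal (w s) := hw.measurable.ennreal_ofReal
  have h1 := lintegral_comp_eq_lintegral_meas_lt_mul
    (volume.withDensity fun s => ENNReal.ofReal (w s)) (f := G)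
    (g := fun c => (k : ℝ) * c ^ (k - 1)) (Filter.Eventually.of_forall hG0) hGm.aemeasurable
    (fun t _ => (by fun_prop : Continuous fun c : ℝ => (k : ℝ) * c ^ (k - 1)).intervalIntegrable _ _)
    (by
      filter_upwards [ae_restrict_mem measurableSet_Ioi] with c hc
      have hc0 : (0:ℝ) < c := hc
      positivity)
  have h2 : ∀ x : ℝ, ∫ t in (0:ℝ)..x, (k : ℝ) * t ^ (k - 1) = x ^ k := by
    intro x
    rw [intervalIntegral.integral_const_mul, integral_pow]
    have hk' : ((k - 1 : ℕ) : ℝ) + 1 = k := by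
      rw [Nat.cast_sub hk]; push_cast; ring
    have hkk : k - 1 + 1 = k := by omega
    rw [hk', hkk, zero_pow (by omega)]
    have : (k : ℝ) ≠ 0 := by positivity
    field_simp
    ring
  simp only [h2] at h1
  have h3 : ∀ c ∈ Ioi (0:ℝ), (volume.withDensity fun s => ENNReal.ofReal (w s)) {x | c < G x} *
      ENNReal.ofReal (k * c ^ (k - 1)) =
      (∫⁻ s in {x ∈ Icc a b | c < g x}, ENNReal.ofReal (w s)) *
        ENNReal.ofReal (k * c ^ (k - 1)) := by
    intro c hc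
    rw [hG, level_eq hc, withDensity_apply]
    exact (hconc.convex_gt c).ordConnected.measurableSet
  rw [setLIntegral_congr_fun measurableSet_Ioi h3] at h1
  rw [← h1, lintegral_withDensity_eq_lintegral_mul _ hwm (hGm.pow_const k).ennreal_ofReal]
  have h4 : (fun x => w x * G x ^ k) = (Icc a b).indicator fun x => w x * g x ^ k := by
    funext x
    by_cases hx : x ∈ Icc a b
    · rw [hG, indicator_of_mem hx, indicator_of_mem hx]
    · rw [hG, indicator_of_notMem hx, indicator_of_notMem hx, zero_pow (by omega), mul_zero]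
  have h5 : Integrable fun x => w x * G x ^ k := by
    rw [h4]
    exact (integrable_indicator_iff measurableSet_Icc).2 (intOn hconc hpos hw k)
  have h6 : ∫ t in a..b, w t * g t ^ k = ∫ x, w x * G x ^ k := by
    rw [h4, integral_indicator measurableSet_Icc, intervalIntegral.integral_of_le hab,
      integral_Icc_eq_integral_Ioc]
  rw [h6, ofReal_integral_eq_lintegral_ofReal h5
    (Filter.Eventually.of_forall fun x => mul_nonneg (hw0 x) (pow_nonneg (hG0 x) _))]
  refine lintegral_congr fun x => ?_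
  simp only [Pi.mul_apply]
  rw [ENNReal.ofReal_mul (hw0 x)]

/-- A bounded nonempty convex set of the line and its interval. -/
theorem setL {A : Set ℝ} {α β : ℝ} (h1 : Ioo α β ⊆ A) (h2 : A ⊆ Icc α β) (hαβ : α ≤ β)
    {w : ℝ → ℝ} (hw : Continuous w) (hw0 : ∀ s, 0 ≤ w s) :
    ∫⁻ s in A, ENNReal.ofReal (w s) = ENNReal.ofReal (∫ s in α..β, w s) := by
  have h : A =ᵐ[volume] Icc α β := by
    refine Filter.EventuallyLE.antisymm h2.eventuallyLE ?_
    exact (Ioo_ae_eq_Icc (μ := volume) (a := α) (b := β)).symm.le.trans h1.eventuallyLE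
  rw [setLIntegral_congr h, intervalIntegral.integral_of_le hαβ, ← integral_Icc_eq_integral_Ioc,
    ofReal_integral_eq_lintegral_ofReal (hw.integrableOn_Icc)
    (Filter.Eventually.of_forall fun x => hw0 x)]

/-- The level sets of the function and of the folded function. -/
theorem level {a b : ℝ} {g : ℝ → ℝ} (hconc : ConcaveOn ℝ (Icc a b) g)
    (hpos : ∀ s ∈ Icc a b, 0 ≤ g s) {c : ℝ} (hne : {x ∈ Icc a b | c < g x}.Nonempty) :
    ∃ α β : ℝ, α ≤ β ∧ Ioo α β ⊆ {x ∈ Icc a b | c < g x} ∧ {x ∈ Icc a b | c < g x} ⊆ Icc α β ∧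
      Ioo 0 (β - α) ⊆ {t ∈ Icc 0 (b - a) | c < fold a b g t} ∧
      {t ∈ Icc 0 (b - a) | c < fold a b g t} ⊆ Icc 0 (β - α) ∧
      α = sInf {x ∈ Icc a b | c < g x} ∧ β = sSup {x ∈ Icc a b | c < g x} := by
  set A := {x ∈ Icc a b | c < g x} with hA
  have hAi : A ⊆ Icc a b := fun x hx => hx.1
  have hbb : BddBelow A := bddBelow_Icc.mono hAi
  have hba : BddAbove A := bddAbove_Icc.mono hAi
  have hord : A.OrdConnected := (hconc.convex_gt c).ordConnected
  have hle : sInf A ≤ sSup A := csInf_le_csSup hne hbb hba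
  have ha : a ≤ sInf A := le_csInf hne fun x hx => (hAi hx).1
  have hb : sSup A ≤ b := csSup_le hne fun x hx => (hAi hx).2
  refine ⟨sInf A, sSup A, hle, ?_, ?_, ?_, ?_, rfl, rfl⟩
  · intro x hx
    obtain ⟨y, hy, hyx⟩ := exists_lt_of_csInf_lt hne hx.1
    obtain ⟨z, hz, hxz⟩ := exists_lt_of_lt_csSup hne hx.2
    exact hord.out hy hz ⟨hyx.le, hxz.le⟩
  · intro x hx
    exact ⟨csInf_le hbb hx, le_csSup hba hx⟩
  · intro t ht
    have htI : t ∈ Icc 0 (b - a) := ⟨ht.1.le, by linarith [ht.2]⟩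
    refine ⟨htI, ?_⟩
    obtain ⟨x, hx, hx'⟩ := exists_lt_of_csInf_lt hne
      (show sInf A < sInf A + (sSup A - sInf A - t) / 2 by linarith [ht.2])
    obtain ⟨y, hy, hy'⟩ := exists_lt_of_lt_csSup hne
      (show sSup A - (sSup A - sInf A - t) / 2 < sSup A by linarith [ht.2])
    have hxt : x + t ∈ A := hord.out hx hy ⟨by linarith [ht.1], by linarith⟩
    exact (lt_fold hconc hpos htI c).2 ⟨x, hx.1, hxt.1, hx.2, hxt.2⟩
  · intro t ht
    obtain ⟨x, hx, hxt, h1, h2⟩ := (lt_fold hconc hpos ht.1 c).1 ht.2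
    have e1 : sInf A ≤ x := csInf_le hbb ⟨hx, h1⟩
    have e2 : x + t ≤ sSup A := le_csSup hba ⟨hxt, h2⟩
    exact ⟨ht.1.1, by linarith⟩

theorem level_empty {a b : ℝ} {g : ℝ → ℝ} (hconc : ConcaveOn ℝ (Icc a b) g)
    (hpos : ∀ s ∈ Icc a b, 0 ≤ g s) {c : ℝ} (hne : ¬{x ∈ Icc a b | c < g x}.Nonempty) :
    {t ∈ Icc 0 (b - a) | c < fold a b g t} = ∅ := by
  rw [Set.eq_empty_iff_forall_notMem]
  intro t ht
  obtain ⟨x, hx, _, h1, _⟩ := (lt_fold hconc hpos ht.1 c).1 ht.2
  exact hne ⟨x, hx, h1⟩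

/-- The moments of order zero. -/
theorem mass {a b : ℝ} (hab : a ≤ b) {g : ℝ → ℝ} (hconc : ConcaveOn ℝ (Icc a b) g)
    (hpos : ∀ s ∈ Icc a b, 0 ≤ g s) {k : ℕ} (hk : 1 ≤ k) :
    (∫ t in (0 : ℝ)..(b - a), fold a b g t ^ k) = ∫ t in a..b, g t ^ k := by
  have h1 := cake hab hconc hpos (w := fun _ => (1:ℝ)) continuous_const (fun _ => zero_le_one) hk
  have h2 := cake (sub_nonneg.2 hab) (fold_concave hconc hpos)
    (fun s hs => fold_nonneg hconc hpos hs) (w := fun _ => (1:ℝ)) continuous_const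
    (fun _ => zero_le_one) hk
  simp only [one_mul] at h1 h2
  have h3 : ENNReal.ofReal (∫ t in (0 : ℝ)..(b - a), fold a b g t ^ k) =
      ENNReal.ofReal (∫ t in a..b, g t ^ k) := by
    rw [h1, h2]
    refine lintegral_congr fun c => ?_
    congr 1
    by_cases hne : {x ∈ Icc a b | c < g x}.Nonempty
    · obtain ⟨α, β, hαβ, e1, e2, e3, e4, _, _⟩ := level hconc hpos hne
      rw [setL e1 e2 hαβ continuous_const (fun _ => zero_le_one),
        setL e3 e4 (sub_nonneg.2 hαβ) continuous_const (fun _ => zero_le_one)]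
      simp
    · rw [level_empty hconc hpos hne, Set.not_nonempty_iff_eq_empty.1 hne]
  refine (ENNReal.ofReal_eq_ofReal_iff ?_ ?_).1 h3
  · exact intervalIntegral.integral_nonneg (sub_nonneg.2 hab) fun t ht =>
      pow_nonneg (fold_nonneg hconc hpos ht) _
  · exact intervalIntegral.integral_nonneg hab fun t ht => pow_nonneg (hpos t ht) _

theorem int_sq (α β ν : ℝ) : ∫ s in α..β, (s - ν) ^ 2 = ((β - ν) ^ 3 - (α - ν) ^ 3) / 3 := by
  rw [intervalIntegral.integral_comp_sub_right (fun s => s ^ 2) ν, integral_pow]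
  norm_num

/-- Comparison of the second moments. -/
theorem second {a b : ℝ} (hab : a ≤ b) {g : ℝ → ℝ} (hconc : ConcaveOn ℝ (Icc a b) g)
    (hpos : ∀ s ∈ Icc a b, 0 ≤ g s) {k : ℕ} (hk : 1 ≤ k) (m : ℝ) :
    ∃ ν : ℝ, (∫ t in a..b, (t - ν) ^ 2 * g t ^ k) ≤
      ∫ t in (0 : ℝ)..(b - a), (t - m) ^ 2 * fold a b g t ^ k := by
  let A : ℝ → Set ℝ := fun c => {x ∈ Icc a b | c < g x}
  have hAi : ∀ c, A c ⊆ Icc a b := fun c x hx => hx.1
  have hmono : ∀ c d, c ≤ d → A d ⊆ A c := fun c d h x hx => ⟨hx.1, h.trans_lt hx.2⟩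
  obtain ⟨ν, hν⟩ := helly (ι := {c : ℝ // (A c).Nonempty})
    (fun c => (sInf (A c.1) + sSup (A c.1)) / 2) (fun c => |(sSup (A c.1) - sInf (A c.1)) / 2 - m|)
    (by
      have key : ∀ c d : ℝ, (A c).Nonempty → (A d).Nonempty → c ≤ d →
          |(sInf (A c) + sSup (A c)) / 2 - (sInf (A d) + sSup (A d)) / 2| ≤
            |(sSup (A c) - sInf (A c)) / 2 - m| + |(sSup (A d) - sInf (A d)) / 2 - m| := by
        intro c d hc hd hcd
        have e1 : sInf (A c) ≤ sInf (A d) :=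
          csInf_le_csInf (bddBelow_Icc.mono (hAi c)) hd (hmono c d hcd)
        have e2 : sSup (A d) ≤ sSup (A c) :=
          csSup_le_csSup (bddAbove_Icc.mono (hAi c)) hd (hmono c d hcd)
        have e3 : |(sSup (A c) - sInf (A c)) / 2 - (sSup (A d) - sInf (A d)) / 2| ≤
            |(sSup (A c) - sInf (A c)) / 2 - m| + |(sSup (A d) - sInf (A d)) / 2 - m| := by
          have := abs_sub_le ((sSup (A c) - sInf (A c)) / 2) m ((sSup (A d) - sInf (A d)) / 2)
          rwa [abs_sub_comm m] at this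
        refine le_trans ?_ e3
        rw [abs_le]
        have e4 := le_abs_self ((sSup (A c) - sInf (A c)) / 2 - (sSup (A d) - sInf (A d)) / 2)
        constructor <;> linarith
      rintro ⟨c, hc⟩ ⟨d, hd⟩
      rcases le_total c d with h | h
      · exact key c d hc hd h
      · have := key d c hd hc h
        simp only
        rw [abs_sub_comm]
        exact this.trans (add_comm _ _).le)
  refine ⟨ν, ?_⟩
  have h1 := cake hab hconc hpos (w := fun t => (t - ν) ^ 2) (by fun_prop)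
    (fun _ => sq_nonneg _) hk
  have h2 := cake (sub_nonneg.2 hab) (fold_concave hconc hpos)
    (fun s hs => fold_nonneg hconc hpos hs) (w := fun t => (t - m) ^ 2) (by fun_prop)
    (fun _ => sq_nonneg _) hk
  have h3 : ENNReal.ofReal (∫ t in a..b, (t - ν) ^ 2 * g t ^ k) ≤
      ENNReal.ofReal (∫ t in (0 : ℝ)..(b - a), (t - m) ^ 2 * fold a b g t ^ k) := by
    rw [h1, h2]
    refine lintegral_mono fun c => ?_
    refine mul_le_mul_left ?_ _
    by_cases hne : {x ∈ Icc a b | c < g x}.Nonempty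
    · obtain ⟨α, β, hαβ, e1, e2, e3, e4, e5, e6⟩ := level hconc hpos hne
      rw [setL e1 e2 hαβ (by fun_prop) (fun _ => sq_nonneg _),
        setL e3 e4 (sub_nonneg.2 hαβ) (by fun_prop) (fun _ => sq_nonneg _)]
      refine ENNReal.ofReal_le_ofReal ?_
      rw [int_sq, int_sq]
      have h5 := hν ⟨c, hne⟩
      simp only [A] at h5
      rw [← e5, ← e6] at h5
      have h6 := sq_le_sq' (by linarith [abs_nonneg ((α + β) / 2 - ν)]) h5
      rw [sq_abs, sq_abs] at h6
      nlinarith [mul_le_mul_of_nonneg_left h6 (sub_nonneg.2 hαβ)]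
    · rw [Set.not_nonempty_iff_eq_empty.1 hne]
      simp
  refine (ENNReal.ofReal_le_ofReal_iff ?_).1 h3
  exact intervalIntegral.integral_nonneg (sub_nonneg.2 hab) fun t ht =>
      mul_nonneg (sq_nonneg _) (pow_nonneg (fold_nonneg hconc hpos ht) _)

/-- The expansion of a second moment. -/
theorem expand {a b : ℝ} (hab : a ≤ b) {g : ℝ → ℝ} (hconc : ConcaveOn ℝ (Icc a b) g)
    (hpos : ∀ s ∈ Icc a b, 0 ≤ g s) (k : ℕ) (ν : ℝ) :
    (∫ t in a..b, (t - ν) ^ 2 * g t ^ k) = (∫ t in a..b, t ^ 2 * g t ^ k) -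
      2 * ν * (∫ t in a..b, t * g t ^ k) + ν ^ 2 * ∫ t in a..b, g t ^ k := by
  have i2 := intI hab hconc hpos (w := fun t => t ^ 2) (by fun_prop) k
  have i1 := intI hab hconc hpos (w := fun t => t) (by fun_prop) k
  have i0 := intI hab hconc hpos (w := fun _ => (1:ℝ)) (by fun_prop) k
  simp only [one_mul] at i0
  rw [← intervalIntegral.integral_const_mul, ← intervalIntegral.integral_const_mul,
    ← intervalIntegral.integral_sub i2 (i1.const_mul _),
    ← intervalIntegral.integral_add (i2.sub (i1.const_mul _)) (i0.const_mul _)]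
  refine intervalIntegral.integral_congr fun t _ => ?_
  ring

end Vale.Agent.P254.Perm.R863

namespace Vale.Agent.P254.Perm

open R863

/-- Decreasing rearrangement of a concave function. -/
theorem rearr (k : ℕ) (hk : 1 ≤ k) {a b : ℝ} (hab : a < b) {g : ℝ → ℝ}
    (hconc : ConcaveOn ℝ (Icc a b) g) (hpos : ∀ s ∈ Icc a b, 0 ≤ g s) :
    ∃ h : ℝ → ℝ, ConcaveOn ℝ (Icc 0 (b - a)) h ∧ AntitoneOn h (Icc 0 (b - a)) ∧
      (∀ s ∈ Icc 0 (b - a), 0 ≤ h s) ∧
      (∫ t in (0 : ℝ)..(b - a), h t ^ k) = (∫ t in a..b, g t ^ k) ∧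
      (∫ t in (0 : ℝ)..(b - a), h t ^ (k + 2)) = (∫ t in a..b, g t ^ (k + 2)) ∧
      (∫ t in a..b, g t ^ k) * (∫ t in a..b, t ^ 2 * g t ^ k) - (∫ t in a..b, t * g t ^ k) ^ 2 ≤
        (∫ t in (0 : ℝ)..(b - a), h t ^ k) * (∫ t in (0 : ℝ)..(b - a), t ^ 2 * h t ^ k) -
          (∫ t in (0 : ℝ)..(b - a), t * h t ^ k) ^ 2 := by
  have hL : (0:ℝ) ≤ b - a := (sub_pos.2 hab).le
  have hconc' := fold_concave hconc hpos
  have hpos' : ∀ s ∈ Icc 0 (b - a), 0 ≤ fold a b g s := fun s hs => fold_nonneg hconc hpos hs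
  have hm := mass hab.le hconc hpos hk
  refine ⟨fold a b g, hconc', fold_anti hconc hpos, hpos', hm,
    mass hab.le hconc hpos (by omega), ?_⟩
  set M := ∫ t in a..b, g t ^ k with hM
  set S1 := ∫ t in a..b, t * g t ^ k
  set S2 := ∫ t in a..b, t ^ 2 * g t ^ k
  set T1 := ∫ t in (0 : ℝ)..(b - a), t * fold a b g t ^ k with hT1
  set T2 := ∫ t in (0 : ℝ)..(b - a), t ^ 2 * fold a b g t ^ k with hT2
  rw [hm]
  have hM0 : 0 ≤ M := intervalIntegral.integral_nonneg hab.le fun t ht => pow_nonneg (hpos t ht) _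
  rcases hM0.eq_or_lt with h0 | h0
  · have h1 : T1 = 0 := by
      refine le_antisymm ?_ (intervalIntegral.integral_nonneg hL fun t ht =>
        mul_nonneg ht.1 (pow_nonneg (hpos' t ht) _))
      have i1 := intI hL hconc' hpos' (w := fun t => t) (by fun_prop) k
      have i0 := intI hL hconc' hpos' (w := fun _ => (1:ℝ)) (by fun_prop) k
      simp only [one_mul] at i0
      calc T1 ≤ ∫ t in (0 : ℝ)..(b - a), (b - a) * fold a b g t ^ k :=
            intervalIntegral.integral_mono_on hL i1 (i0.const_mul _) fun t ht =>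
              mul_le_mul_of_nonneg_right ht.2 (pow_nonneg (hpos' t ht) _)
        _ = 0 := by
            rw [intervalIntegral.integral_const_mul, hm, ← h0, mul_zero]
    rw [h1, ← h0]
    nlinarith [sq_nonneg S1]
  · obtain ⟨ν, hν⟩ := second hab.le hconc hpos hk (T1 / M)
    rw [expand hab.le hconc hpos, expand hL hconc' hpos', hm] at hν
    have e1 := mul_le_mul_of_nonneg_left hν h0.le
    have e2 : M * (T2 - 2 * (T1 / M) * T1 + (T1 / M) ^ 2 * M) = M * T2 - T1 ^ 2 := by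
      field_simp
      ring
    have e3 : M * (S2 - 2 * ν * S1 + ν ^ 2 * M) = M * S2 - S1 ^ 2 + (S1 - ν * M) ^ 2 := by ring
    nlinarith [sq_nonneg (S1 - ν * M)]

end Vale.Agent.P254.Perm
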