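import Vale.Agent.P254.Perm.OneDimOf
import Vale.Agent.P254.Perm.DecApp
import Vale.Agent.P254.Perm.Rearr863

/-!
P254, permutation invariant bodies: the one-dimensional inequality for concave functions.
-/

open MeasureTheory Set

namespace Vale.Agent.P254.Perm

theorem one_dim (k : ℕ) (hk : 1 ≤ k) {a b : ℝ} (hab : a ≤ b) {g : ℝ → ℝ}
    (hconc : ConcaveOn ℝ (Icc a b) g) (hpos : ∀ s ∈ Icc a b, 0 ≤ g s) :
    ((∫ t in a..b, g t ^ k) * (∫ t in a..b, t ^ 2 * g t ^ k) -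
        (∫ t in a..b, t * g t ^ k) ^ 2) * (∫ t in a..b, g t ^ (k + 2)) ^ k ≤
      kap k * (∫ t in a..b, g t ^ k) ^ (k + 4) :=
  one_dim_of k (rearr k hk) (dec_concave k hk) hab hconc hpos

end Vale.Agent.P254.Perm
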