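import Vale.Agent.P254.Perm.Defs
import Vale.Agent.P254.Bdl.B4

/-! P254, permutation invariant bodies: sections and Brunn-Minkowski (helper956). -/

open MeasureTheory Set
open scoped Pointwise

namespace Vale.Agent.P254.Perm

theorem sec_mem {m : ℕ} {L : Set (ℝ × (Fin m → ℝ))} (hc : Convex ℝ L) {s t α β : ℝ}
    (hα : 0 ≤ α) (hβ : 0 ≤ β) (hab : α + β = 1) {x y : Fin m → ℝ} (hx : (s, x) ∈ L)
    (hy : (t, y) ∈ L) : (α * s + β * t, α • x + β • y) ∈ L := by
  have h := hc hx hy hα hβ hab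
  simpa using h

theorem sec_compact {m : ℕ} {L : Set (ℝ × (Fin m → ℝ))} (hL : IsCompact L) (s : ℝ) :
    IsCompact {y | (s, y) ∈ L} := by
  refine (hL.image continuous_snd).of_isClosed_subset ?_ ?_
  · exact hL.isClosed.preimage (by fun_prop : Continuous fun y : Fin m → ℝ => (s, y))
  · intro y hy
    exact ⟨(s, y), hy, rfl⟩

/-- one summand of volume zero -/
theorem sec_zero {m : ℕ} (hm : 1 ≤ m) {A B C : Set (Fin m → ℝ)} {β b c : ℝ}
    (hA : A.Nonempty) (hβ : 0 < β) (hc : 0 ≤ c)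
    (hBv : (volume B).toReal = b ^ m) (hCv : (volume C).toReal = c ^ m) (hCf : volume C ≠ ⊤)
    (h : ∀ x ∈ A, ∀ y ∈ B, x + β • y ∈ C) : β * b ≤ c := by
  obtain ⟨x, hx⟩ := hA
  have h1 : (fun z => x + z) '' (β • B) ⊆ C := by
    rintro _ ⟨_, ⟨y, hy, rfl⟩, rfl⟩
    exact h x hx y hy
  have h2 : volume ((fun z => x + z) '' (β • B)) = volume (β • B) := by
    rw [image_add_left, measure_preimage_add]
  have h3 : (volume (β • B)).toReal ≤ (volume C).toReal := by
    rw [← h2]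
    exact ENNReal.toReal_mono hCf (measure_mono h1)
  rw [Unc.volume_smul_real hβ, hBv, hCv, ← mul_pow] at h3
  by_contra hlt
  push Not at hlt
  have := pow_lt_pow_left₀ hlt hc (by omega : m ≠ 0)
  linarith

theorem sec (m : ℕ) (hm : 1 ≤ m) {L : Set (ℝ × (Fin m → ℝ))} (hc : Convex ℝ L) (hL : IsCompact L)
    (hne : L.Nonempty) : ∃ (a b : ℝ) (g : ℝ → ℝ), a ≤ b ∧ ConcaveOn ℝ (Icc a b) g ∧
      (∀ s ∈ Icc a b, 0 ≤ g s) ∧ (∀ s ∈ Icc a b, g s ^ m = (volume {y | (s, y) ∈ L}).toReal) ∧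
      ∀ s ∉ Icc a b, {y | (s, y) ∈ L} = ∅ := by
  have hp : IsCompact (Prod.fst '' L) := hL.image continuous_fst
  have hcon : IsConnected (Prod.fst '' L) :=
    ⟨hne.image _, (hc.isPreconnected).image _ continuous_fst.continuousOn⟩
  have hI := eq_Icc_of_connected_compact hcon hp
  set a := sInf (Prod.fst '' L) with ha
  set b := sSup (Prod.fst '' L) with hb
  have hab : a ≤ b := by
    have : (Icc a b).Nonempty := hI ▸ hcon.1
    exact nonempty_Icc.1 this
  have hsl : ∀ s ∈ Icc a b, {y | (s, y) ∈ L}.Nonempty := by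
    intro s hs
    rw [← hI] at hs
    obtain ⟨⟨s', y⟩, hy, rfl⟩ := hs
    exact ⟨y, hy⟩
  have hfin : ∀ s, volume {y | (s, y) ∈ L} ≠ ⊤ := fun s => (sec_compact hL s).measure_lt_top.ne
  have hmm : ∀ s, MeasurableSet {y | (s, y) ∈ L} := fun s => (sec_compact hL s).measurableSet
  set g : ℝ → ℝ := fun s => (volume {y | (s, y) ∈ L}).toReal ^ ((m : ℝ)⁻¹) with hg
  have hg0 : ∀ s, 0 ≤ g s := fun s => Real.rpow_nonneg ENNReal.toReal_nonneg _
  have hgm : ∀ s, g s ^ m = (volume {y | (s, y) ∈ L}).toReal := fun s =>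
    Real.rpow_inv_natCast_pow ENNReal.toReal_nonneg (by omega)
  refine ⟨a, b, g, hab, ⟨convex_Icc a b, ?_⟩, fun s _ => hg0 s, fun s _ => hgm s, ?_⟩
  · intro s hs t ht α β hα hβ hαβ
    simp only [smul_eq_mul]
    rcases hα.eq_or_lt with h0 | hα'
    · subst h0
      have : β = 1 := by linarith
      subst this
      simp
    rcases hβ.eq_or_lt with h0 | hβ'
    · subst h0
      have : α = 1 := by linarith
      subst this
      simp
    rcases (hg0 s).eq_or_lt with hs0 | hs0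
    · rw [← hs0, mul_zero, zero_add]
      refine sec_zero hm ((hsl s hs).image (fun x => α • x)) hβ' (hg0 _) (hgm t).symm (hgm _).symm
        (hfin _) ?_
      rintro _ ⟨x, hx, rfl⟩ y hy
      exact sec_mem hc hα hβ hαβ hx hy
    rcases (hg0 t).eq_or_lt with ht0 | ht0
    · rw [← ht0, mul_zero, add_zero]
      refine sec_zero hm ((hsl t ht).image (fun x => β • x)) hα' (hg0 _) (hgm s).symm (hgm _).symm
        (hfin _) ?_
      rintro _ ⟨x, hx, rfl⟩ y hy
      have h5 := sec_mem hc hα hβ hαβ hy hx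
      rw [add_comm (α • y)] at h5
      exact h5
    refine Unc.bm_add (A := α • {y | (s, y) ∈ L}) (B := β • {y | (t, y) ∈ L})
      (C := {y | (α * s + β * t, y) ∈ L}) (by omega) ((hmm s).const_smul₀ α)
      ((hmm t).const_smul₀ β) (hmm _) (mul_pos hα' hs0) (mul_pos hβ' ht0) (hg0 _) ?_ ?_
      (hgm _).symm (hfin _) ?_
    · rw [Unc.volume_smul_real hα', mul_pow, hgm]
    · rw [Unc.volume_smul_real hβ', mul_pow, hgm]
    · rintro _ ⟨x, hx, rfl⟩ _ ⟨y, hy, rfl⟩
      exact sec_mem hc hα hβ hαβ hx hy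
  · intro s hs
    by_contra hne'
    obtain ⟨y, hy⟩ := nonempty_iff_ne_empty.2 hne'
    exact hs (hI ▸ ⟨(s, y), hy, rfl⟩)

end Vale.Agent.P254.Perm
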