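import Vale.Agent.P254.Perm.Defs

/-!
P254, permutation invariant bodies: a convex body whose section volumes are those of a cone and
whose sections are simplices is a simplex.
-/

open MeasureTheory Set

namespace Vale.Agent.P254.Perm

/-- A compact convex set and a closed convex subset of the same positive volume are equal. -/
theorem cone266_eq_of_vol {m : ℕ} {A B : Set (Fin m → ℝ)} (hA : IsClosed A)
    (hB : Convex ℝ B) (hBc : IsCompact B) (hAB : A ⊆ B) (hpos : 0 < volume B)
    (hv : volume B ≤ volume A) : A = B := by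
  refine hAB.antisymm fun z hz => ?_
  by_contra hzA
  have hint : (interior B).Nonempty := by
    by_contra h
    rw [not_nonempty_iff_eq_empty] at h
    have h1 : volume B ≤ volume (frontier B) := by
      refine measure_mono fun x hx => ?_
      rw [frontier, h, sdiff_empty]
      exact subset_closure hx
    rw [hB.addHaar_frontier volume] at h1
    exact absurd hpos (not_lt.2 h1)
  have hcl : z ∈ closure (interior B) := by
    rw [hB.closure_interior_eq_closure_of_nonempty_interior hint]
    exact subset_closure hz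
  have hne : (interior B ∩ Aᶜ).Nonempty := by
    rw [mem_closure_iff] at hcl
    obtain ⟨x, h1, h2⟩ := hcl Aᶜ hA.isOpen_compl hzA
    exact ⟨x, h2, h1⟩
  have hU : IsOpen (interior B ∩ Aᶜ) := isOpen_interior.inter hA.isOpen_compl
  have hUpos : 0 < volume (interior B ∩ Aᶜ) := hU.measure_pos volume hne
  have hfin : volume A ≠ ⊤ := ne_top_of_le_ne_top hBc.measure_lt_top.ne (measure_mono hAB)
  have hdisj : Disjoint A (interior B ∩ Aᶜ) := by
    rw [disjoint_left]
    exact fun x h1 h2 => h2.2 h1
  have h1 : volume A + volume (interior B ∩ Aᶜ) ≤ volume B := by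
    rw [← measure_union hdisj hU.measurableSet]
    exact measure_mono (union_subset hAB (inter_subset_left.trans interior_subset))
  have h2 : volume A < volume A + volume (interior B ∩ Aᶜ) :=
    ENNReal.lt_add_right hfin hUpos.ne'
  exact absurd (h2.trans_le (h1.trans hv)) (lt_irrefl _)

/-- The sections above a given one are homothetic to it, the centre being the apex. -/
theorem cone266_sec {m : ℕ} {L : Set (ℝ × (Fin m → ℝ))} (hc : Convex ℝ L)
    (hL : IsCompact L) {a b c : ℝ} (hc0 : 0 < c)
    (hA : ∀ s ∈ Ioo a b, (volume {y | (s, y) ∈ L}).toReal = (c * (b - s)) ^ m)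
    {p : Fin m → ℝ} (hp : (b, p) ∈ L) {r s : ℝ} (hr : r ∈ Ioo a b) (hs : s ∈ Ioo a b)
    (hrs : r ≤ s) :
    AffineMap.homothety p ((b - s) / (b - r)) '' {y | (r, y) ∈ L} = {y | (s, y) ∈ L} := by
  have hbr : 0 < b - r := sub_pos.2 hr.2
  have hbs : 0 < b - s := sub_pos.2 hs.2
  have hclosed : ∀ t : ℝ, IsCompact {y : Fin m → ℝ | (t, y) ∈ L} := fun t => by
    have h1 : {y : Fin m → ℝ | (t, y) ∈ L} = Prod.snd '' (L ∩ Prod.fst ⁻¹' {t}) := by
      ext y
      constructor
      · exact fun h => ⟨(t, y), ⟨h, rfl⟩, rfl⟩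
      · rintro ⟨⟨t', y'⟩, ⟨h1, h2⟩, rfl⟩
        have h3 : t' = t := h2
        subst h3
        exact h1
    rw [h1]
    exact (hL.inter_right (isClosed_singleton.preimage continuous_fst)).image continuous_snd
  have hconv : ∀ t : ℝ, Convex ℝ {y : Fin m → ℝ | (t, y) ∈ L} := fun t y hy z hz u v hu hv huv => by
    have h1 := hc hy hz hu hv huv
    have h2 : u • (t, y) + v • (t, z) = (t, u • y + v • z) := by
      ext1
      · show u * t + v * t = t
        rw [← add_mul, huv, one_mul]
      · rfl
    rw [h2] at h1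
    exact h1
  refine cone266_eq_of_vol ((hclosed r).image (AffineMap.homothety_continuous p _)).isClosed (hconv s)
    (hclosed s) ?_ ?_ ?_
  · rintro _ ⟨y, hy, rfl⟩
    have hl0 : 0 ≤ (b - s) / (b - r) := (div_pos hbs hbr).le
    have hl1 : 0 ≤ 1 - (b - s) / (b - r) := by
      rw [sub_nonneg, div_le_one hbr]
      linarith
    have h1 := hc hy hp hl0 hl1 (by ring)
    have h2 : ((b - s) / (b - r)) • ((r, y) : ℝ × (Fin m → ℝ)) +
        (1 - (b - s) / (b - r)) • (b, p) =
        (s, AffineMap.homothety p ((b - s) / (b - r)) y) := by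
      ext1
      · show (b - s) / (b - r) * r + (1 - (b - s) / (b - r)) * b = s
        field_simp
        ring
      · show ((b - s) / (b - r)) • y + (1 - (b - s) / (b - r)) • p = _
        rw [AffineMap.homothety_apply, vsub_eq_sub, vadd_eq_add]
        module
    rw [h2] at h1
    exact h1
  · have h1 := hA s hs
    by_contra h2
    have h3 : volume {y | (s, y) ∈ L} = 0 := le_antisymm (not_lt.1 h2) bot_le
    rw [h3, ENNReal.toReal_zero] at h1
    exact absurd h1.symm (pow_pos (mul_pos hc0 hbs) m).ne'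
  · rw [Measure.addHaar_image_homothety, Module.finrank_fin_fun]
    rw [← ENNReal.ofReal_toReal (hclosed s).measure_lt_top.ne,
      ← ENNReal.ofReal_toReal (hclosed r).measure_lt_top.ne, hA s hs, hA r hr,
      ← ENNReal.ofReal_mul (abs_nonneg _)]
    refine ENNReal.ofReal_le_ofReal (le_of_eq ?_)
    rw [abs_of_pos (pow_pos (div_pos hbs hbr) m), ← mul_pow]
    congr 1
    field_simp

/-- [Q2] -/
theorem cone_simplex (m : ℕ) (hm : 1 ≤ m) {L : Set (ℝ × (Fin m → ℝ))} (hc : Convex ℝ L)
    (hL : IsCompact L) {a b c : ℝ} (hab : a < b) (hc0 : 0 < c)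
    (hA : ∀ s ∈ Ioo a b, (volume {y | (s, y) ∈ L}).toReal = (c * (b - s)) ^ m)
    (hout : ∀ s ∉ Icc a b, {y | (s, y) ∈ L} = ∅)
    (hsimp : ∀ᵐ s ∂(volume.restrict (Ioo a b)), IsSimplex {y | (s, y) ∈ L}) :
    ∃ v : Fin (m + 2) → ℝ × (Fin m → ℝ), AffineIndependent ℝ v ∧ L = convexHull ℝ (range v) := by
  -- a section which is a simplex
  have hne : (volume.restrict (Ioo a b) : Measure ℝ) ≠ 0 := by
    intro h
    have h1 : (volume.restrict (Ioo a b) : Measure ℝ) univ = 0 := by rw [h]; rfl
    rw [Measure.restrict_apply_univ, Real.volume_Ioo, ENNReal.ofReal_eq_zero] at h1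
    linarith
  have : (ae (volume.restrict (Ioo a b) : Measure ℝ)).NeBot := ae_neBot.2 hne
  obtain ⟨r, ⟨w, hw, hwL⟩, hr⟩ := (hsimp.and (ae_restrict_mem measurableSet_Ioo)).exists
  have hbr : 0 < b - r := sub_pos.2 hr.2
  have hba : 0 < b - a := sub_pos.2 hab
  -- the apex
  have hpos : ∀ s ∈ Ioo a b, ∃ y, (s, y) ∈ L := fun s hs => by
    by_contra h
    push Not at h
    have h1 := hA s hs
    have h2 : {y | (s, y) ∈ L} = ∅ := eq_empty_of_forall_notMem h
    rw [h2, measure_empty, ENNReal.toReal_zero] at h1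
    exact absurd h1.symm (pow_pos (mul_pos hc0 (sub_pos.2 hs.2)) m).ne'
  obtain ⟨⟨b', p⟩, hp, hb'⟩ : b ∈ Prod.fst '' L := by
    have h1 : closure (Ioo a b) ⊆ Prod.fst '' L := by
      refine closure_minimal (fun s hs => ?_) (hL.image continuous_fst).isClosed
      obtain ⟨y, hy⟩ := hpos s hs
      exact ⟨(s, y), hy, rfl⟩
    rw [closure_Ioo hab.ne] at h1
    exact h1 (right_mem_Icc.2 hab.le)
  have hb'' : b' = b := hb'
  subst hb''
  -- every section is homothetic to the one at `r`
  have key : ∀ s ∈ Ioo a b', ∀ y, (s, y) ∈ L → ∃ x ∈ convexHull ℝ (range w),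
      y = AffineMap.homothety p ((b' - s) / (b' - r)) x := fun s hs y hy => by
    rw [← hwL]
    rcases le_total r s with h | h
    · have h1 := cone266_sec hc hL hc0 hA hp hr hs h
      have h2 : y ∈ {y | (s, y) ∈ L} := hy
      rw [← h1] at h2
      obtain ⟨x, hx, rfl⟩ := h2
      exact ⟨x, hx, rfl⟩
    · have h1 := cone266_sec hc hL hc0 hA hp hs hr h
      have hbs : 0 < b' - s := sub_pos.2 hs.2
      refine ⟨AffineMap.homothety p ((b' - r) / (b' - s)) y, ?_, ?_⟩
      · rw [← h1]
        exact ⟨y, hy, rfl⟩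
      · rw [← AffineMap.homothety_mul_apply]
        have h3 : (b' - s) / (b' - r) * ((b' - r) / (b' - s)) = 1 := by
          field_simp
        rw [h3, AffineMap.homothety_one, AffineMap.id_apply]
  have key2 : ∀ s ∈ Ioo a b', ∀ x ∈ convexHull ℝ (range w),
      (s, AffineMap.homothety p ((b' - s) / (b' - r)) x) ∈ L := fun s hs x hx => by
    rw [← hwL] at hx
    rcases le_total r s with h | h
    · have h1 := cone266_sec hc hL hc0 hA hp hr hs h
      have h2 : AffineMap.homothety p ((b' - s) / (b' - r)) x ∈ {y | (s, y) ∈ L} := by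
        rw [← h1]
        exact ⟨x, hx, rfl⟩
      exact h2
    · have h1 := cone266_sec hc hL hc0 hA hp hs hr h
      rw [← h1] at hx
      obtain ⟨y, hy, rfl⟩ := hx
      have hbs : 0 < b' - s := sub_pos.2 hs.2
      have h3 : (b' - s) / (b' - r) * ((b' - r) / (b' - s)) = 1 := by
        field_simp
      rw [← AffineMap.homothety_mul_apply, h3, AffineMap.homothety_one, AffineMap.id_apply]
      exact hy
  -- the vertices
  let q : Fin (m + 1) → ℝ × (Fin m → ℝ) := fun i =>
    (a, AffineMap.homothety p ((b' - a) / (b' - r)) (w i))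
  let v : Fin (m + 2) → ℝ × (Fin m → ℝ) := Fin.cons (b', p) q
  have hv0 : v 0 = (b', p) := rfl
  have hvs : ∀ i, v (Fin.succ i) = q i := fun i => rfl
  have hqL : ∀ i, q i ∈ L := fun i => by
    have h1 : Filter.Tendsto (fun s : ℝ => ((s, AffineMap.homothety p ((b' - s) / (b' - r)) (w i)) :
        ℝ × (Fin m → ℝ))) (nhdsWithin a (Ioi a)) (nhds (q i)) := by
      refine Filter.Tendsto.mono_left ?_ nhdsWithin_le_nhds
      have h2 : Continuous (fun s : ℝ => ((s, AffineMap.homothety p ((b' - s) / (b' - r)) (w i)) :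
        ℝ × (Fin m → ℝ))) := by
        simp only [AffineMap.homothety_apply, vsub_eq_sub, vadd_eq_add]
        fun_prop
      exact h2.tendsto a
    refine hL.isClosed.mem_of_tendsto h1 ?_
    filter_upwards [Ioo_mem_nhdsGT hab] with s hs
    exact key2 s hs _ (subset_convexHull ℝ _ (mem_range_self i))
  have hsub : convexHull ℝ (range v) ⊆ L := by
    refine convexHull_min ?_ hc
    rintro _ ⟨i, rfl⟩
    refine Fin.cases ?_ (fun i => ?_) i
    · exact hp
    · exact hqL i
  -- points over the open interval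
  have hin : ∀ s ∈ Ioo a b', ∀ y, (s, y) ∈ L → (s, y) ∈ convexHull ℝ (range v) :=
      fun s hs y hy => by
    obtain ⟨x, hx, rfl⟩ := key s hs y hy
    have hbs : 0 < b' - s := sub_pos.2 hs.2
    -- the point of the base
    have h1 : ((a, AffineMap.homothety p ((b' - a) / (b' - r)) x) : ℝ × (Fin m → ℝ)) ∈
        convexHull ℝ (range v) := by
      let f : (Fin m → ℝ) →ᵃ[ℝ] ℝ × (Fin m → ℝ) :=
        (AffineMap.const ℝ (Fin m → ℝ) a).prod (AffineMap.homothety p ((b' - a) / (b' - r)))
      have h2 : f x ∈ f '' convexHull ℝ (range w) := ⟨x, hx, rfl⟩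
      rw [AffineMap.image_convexHull] at h2
      refine convexHull_mono ?_ h2
      rintro _ ⟨_, ⟨i, rfl⟩, rfl⟩
      exact ⟨Fin.succ i, rfl⟩
    have h3 : ((b', p) : ℝ × (Fin m → ℝ)) ∈ convexHull ℝ (range v) :=
      subset_convexHull ℝ _ ⟨0, rfl⟩
    have hl0 : 0 ≤ (b' - s) / (b' - a) := (div_pos hbs hba).le
    have hl1 : 0 ≤ 1 - (b' - s) / (b' - a) := by
      rw [sub_nonneg, div_le_one hba]
      linarith [hs.1]
    have h4 := (convex_convexHull ℝ (range v)) h1 h3 hl0 hl1 (by ring)
    have h5 : ((b' - s) / (b' - a)) •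
        ((a, AffineMap.homothety p ((b' - a) / (b' - r)) x) : ℝ × (Fin m → ℝ)) +
        (1 - (b' - s) / (b' - a)) • (b', p) =
        (s, AffineMap.homothety p ((b' - s) / (b' - r)) x) := by
      ext1
      · show (b' - s) / (b' - a) * a + (1 - (b' - s) / (b' - a)) * b' = s
        field_simp
        ring
      · show ((b' - s) / (b' - a)) • AffineMap.homothety p ((b' - a) / (b' - r)) x +
          (1 - (b' - s) / (b' - a)) • p = AffineMap.homothety p ((b' - s) / (b' - r)) x
        simp only [AffineMap.homothety_apply, vsub_eq_sub, vadd_eq_add]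
        have h6 : (b' - s) / (b' - r) = (b' - s) / (b' - a) * ((b' - a) / (b' - r)) := by
          field_simp
        rw [h6]
        module
    rw [h5] at h4
    exact h4
  have hclv : IsClosed (convexHull ℝ (range v)) :=
    ((finite_range v).isCompact_convexHull (𝕜 := ℝ)).isClosed
  refine ⟨v, ?_, Subset.antisymm ?_ hsub⟩
  · rw [affineIndependent_iff_of_fintype]
    intro u hu hv
    rw [Finset.weightedVSub_eq_linear_combination _ hu, Fin.sum_univ_succ] at hv
    rw [Fin.sum_univ_succ] at hu
    have h1 : u 0 * b' + ∑ i : Fin (m + 1), u (Fin.succ i) * a = 0 := by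
      have h2 := congrArg Prod.fst hv
      rw [Prod.fst_add, Prod.fst_sum] at h2
      exact h2
    rw [← Finset.sum_mul] at h1
    have h0 : u 0 = 0 := by
      have h2 : u 0 * (b' - a) = 0 := by linear_combination h1 - a * hu
      exact (mul_eq_zero.1 h2).resolve_right hba.ne'
    have hu' : ∑ i : Fin (m + 1), u (Fin.succ i) = 0 := by
      rw [h0, zero_add] at hu
      exact hu
    have h3 : ∑ i : Fin (m + 1), u (Fin.succ i) •
        AffineMap.homothety p ((b' - a) / (b' - r)) (w i) = 0 := by
      have h2 := congrArg Prod.snd hv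
      rw [Prod.snd_add, Prod.snd_sum, h0] at h2
      have h4 : ((0 : ℝ) • v 0).2 = 0 := by simp
      rw [h4, zero_add] at h2
      exact h2
    have h5 : ((b' - a) / (b' - r)) • ∑ i : Fin (m + 1), u (Fin.succ i) • w i = 0 := by
      have h6 : ∑ i : Fin (m + 1), u (Fin.succ i) •
          AffineMap.homothety p ((b' - a) / (b' - r)) (w i) =
          ((b' - a) / (b' - r)) • (∑ i : Fin (m + 1), u (Fin.succ i) • w i) +
            ((1 - (b' - a) / (b' - r)) * ∑ i : Fin (m + 1), u (Fin.succ i)) • p := by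
        rw [Finset.smul_sum, Finset.mul_sum, Finset.sum_smul, ← Finset.sum_add_distrib]
        refine Finset.sum_congr rfl fun i _ => ?_
        rw [AffineMap.homothety_apply, vsub_eq_sub, vadd_eq_add]
        module
      rw [h6, hu', mul_zero, zero_smul, add_zero] at h3
      exact h3
    have h7 : ∑ i : Fin (m + 1), u (Fin.succ i) • w i = 0 :=
      (smul_eq_zero.1 h5).resolve_left (div_pos hba hbr).ne'
    have h8 := affineIndependent_iff.1 hw Finset.univ (fun i => u (Fin.succ i)) hu' h7
    intro i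
    refine Fin.cases h0 (fun j => ?_) i
    exact h8 j (Finset.mem_univ j)
  · rintro ⟨s, y⟩ hy
    obtain ⟨y0, hy0⟩ := hpos r hr
    have hs : s ∈ Icc a b' := by
      by_contra h
      have h1 : y ∈ {y | (s, y) ∈ L} := hy
      rw [hout s h] at h1
      exact h1
    have h1 : Filter.Tendsto (fun t : ℝ => (1 - t) • ((s, y) : ℝ × (Fin m → ℝ)) + t • (r, y0))
        (nhdsWithin 0 (Ioi 0)) (nhds (s, y)) := by
      refine Filter.Tendsto.mono_left ?_ nhdsWithin_le_nhds
      have h2 : Continuous (fun t : ℝ => (1 - t) • ((s, y) : ℝ × (Fin m → ℝ)) + t • (r, y0)) := by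
        fun_prop
      have h3 := h2.tendsto 0
      simpa using h3
    refine hclv.mem_of_tendsto h1 ?_
    filter_upwards [Ioo_mem_nhdsGT (show (0 : ℝ) < 1 from one_pos)] with t ht
    have h4 := hc hy hy0 (show (0 : ℝ) ≤ 1 - t by linarith [ht.2]) ht.1.le (by ring)
    refine hin _ ?_ _ h4
    show (1 - t) * s + t * r ∈ Ioo a b'
    have h5 : 0 < t * (r - a) := mul_pos ht.1 (sub_pos.2 hr.1)
    have h6 : 0 < t * (b' - r) := mul_pos ht.1 hbr
    have h7 : 0 ≤ (1 - t) * (s - a) := mul_nonneg (by linarith [ht.2]) (sub_nonneg.2 hs.1)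
    have h8 : 0 ≤ (1 - t) * (b' - s) := mul_nonneg (by linarith [ht.2]) (sub_nonneg.2 hs.2)
    constructor <;> nlinarith

end Vale.Agent.P254.Perm
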