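import Vale.Agent.P254.Perm.Cone

/-!
P254, permutation invariant bodies: mirror image of `cone_simplex`.
-/

open MeasureTheory Set

namespace Vale.Agent.P254.Perm

/-- [Q2], mirror image -/
theorem cone_simplex_mirror (m : ℕ) (hm : 1 ≤ m) {L : Set (ℝ × (Fin m → ℝ))} (hc : Convex ℝ L)
    (hL : IsCompact L) {a b c : ℝ} (hab : a < b) (hc0 : 0 < c)
    (hA : ∀ s ∈ Ioo a b, (volume {y | (s, y) ∈ L}).toReal = (c * (s - a)) ^ m)
    (hout : ∀ s ∉ Icc a b, {y | (s, y) ∈ L} = ∅)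
    (hsimp : ∀ᵐ s ∂(volume.restrict (Ioo a b)), IsSimplex {y | (s, y) ∈ L}) :
    ∃ v : Fin (m + 2) → ℝ × (Fin m → ℝ), AffineIndependent ℝ v ∧ L = convexHull ℝ (range v) := by
  let e : (ℝ × (Fin m → ℝ)) ≃ₗ[ℝ] (ℝ × (Fin m → ℝ)) :=
    LinearEquiv.prodCongr (LinearEquiv.neg ℝ) (LinearEquiv.refl ℝ _)
  have he : ∀ x : ℝ × (Fin m → ℝ), e x = (-x.1, x.2) := fun x => rfl
  have hee : ∀ x : ℝ × (Fin m → ℝ), e (e x) = x := fun x => by
    rw [he, he]
    simp
  have hcont : Continuous (fun x : ℝ × (Fin m → ℝ) => e x) := by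
    simp only [he]
    fun_prop
  have hsec : ∀ s : ℝ, {y | (s, y) ∈ e '' L} = {y | (-s, y) ∈ L} := fun s => by
    ext y
    constructor
    · rintro ⟨x, hx, hxy⟩
      have h1 : x = e (s, y) := by rw [← hxy, hee]
      rw [h1, he] at hx
      exact hx
    · intro h
      exact ⟨(-s, y), h, by rw [he]; simp⟩
  have hA' : ∀ s ∈ Ioo (-b) (-a), (volume {y | (s, y) ∈ e '' L}).toReal =
      (c * (-a - s)) ^ m := fun s hs => by
    rw [hsec, hA (-s) ⟨by linarith [hs.2], by linarith [hs.1]⟩]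
    congr 1
    ring
  have hout' : ∀ s ∉ Icc (-b) (-a), {y | (s, y) ∈ e '' L} = ∅ := fun s hs => by
    rw [hsec]
    exact hout (-s) fun h => hs ⟨by linarith [h.2], by linarith [h.1]⟩
  have hsimp' : ∀ᵐ s ∂(volume.restrict (Ioo (-b) (-a))), IsSimplex {y | (s, y) ∈ e '' L} := by
    have h1 : (volume.restrict (Ioo (-b) (-a)) : Measure ℝ) =
        (volume.restrict (Ioo a b) : Measure ℝ).map (fun x => -x) := by
      have h2 : MeasurePreserving (fun x : ℝ => -x) volume volume :=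
        Measure.measurePreserving_neg volume
      have h3 := (h2.restrict_preimage (measurableSet_Ioo (a := -b) (b := -a))).map_eq
      have h4 : (fun x : ℝ => -x) ⁻¹' Ioo (-b) (-a) = Ioo a b := by
        ext x
        simp only [mem_preimage, mem_Ioo, neg_lt_neg_iff]
        exact and_comm
      rw [h4] at h3
      exact h3.symm
    rw [h1]
    refine ((Homeomorph.neg ℝ).measurableEmbedding.ae_map_iff
      (p := fun s => IsSimplex {y | (s, y) ∈ e '' L})).2 ?_
    filter_upwards [hsimp] with s hs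
    show IsSimplex {y | (-s, y) ∈ e '' L}
    rw [hsec, neg_neg]
    exact hs
  obtain ⟨v, hv, hvL⟩ := cone_simplex m hm
    (hc.linear_image (e : (ℝ × (Fin m → ℝ)) →ₗ[ℝ] (ℝ × (Fin m → ℝ)))) (hL.image hcont)
    (neg_lt_neg hab) hc0 hA' hout' hsimp'
  refine ⟨fun i => e (v i), ?_, ?_⟩
  · exact hv.map' (e : (ℝ × (Fin m → ℝ)) →ₗ[ℝ] (ℝ × (Fin m → ℝ))).toAffineMap e.injective
  · have h1 : L = e '' (e '' L) := by
      rw [← image_comp]
      have h2 : (fun x => e x) ∘ (fun x => e x) = id := funext hee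
      show L = ((fun x => e x) ∘ (fun x => e x)) '' L
      rw [h2, image_id]
    have hvL' : e '' L = convexHull ℝ (range v) := hvL
    rw [h1, hvL']
    have h3 := (e : (ℝ × (Fin m → ℝ)) →ₗ[ℝ] (ℝ × (Fin m → ℝ))).image_convexHull (range v)
    rw [← range_comp] at h3
    exact h3
end Vale.Agent.P254.Perm
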