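import Vale.Agent.P254.Perm.DecApp

/-!
P254, permutation invariant bodies: the equality case of the one-dimensional inequality for
decreasing concave functions.
-/

open MeasureTheory Set Filter Topology

namespace Vale.Agent.P254.Perm

namespace Dec598

theorem elem_lt {k : ℕ} (hk : 1 ≤ k) {h : ℝ} (h0 : 0 < h) (h1 : (k : ℝ) * h ≤ 4) :
    (1 - k * h / 4) ^ 2 * (1 + h) ^ (k + 1) < 1 + (k + 1) * h := by
  obtain ⟨k, rfl⟩ : ∃ j, k = j + 1 := ⟨k - 1, by omega⟩
  push_cast at h1 ⊢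
  have h1' : (k : ℝ) * h < 4 := by nlinarith
  have ih' := elem' k h0.le h1'.le
  have hz : 0 < (1 - (k : ℝ) * h / 4) ^ 2 := by
    have : 0 < 1 - (k : ℝ) * h / 4 := by linarith
    positivity
  have hk0 : (0 : ℝ) ≤ k := Nat.cast_nonneg k
  set y : ℝ := 1 - ((k : ℝ) + 1) * h / 4 with hy
  have hy0 : 0 ≤ y := by rw [hy]; linarith
  have hkh : ((k : ℝ) + 1) * h = 4 * (1 - y) := by rw [hy]; ring
  have e1 : 1 - (k : ℝ) * h / 4 = y + h / 4 := by rw [hy]; ring
  rw [e1] at ih' hz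
  have key : (1 + h) * (1 + (k + 1) * h) * y ^ 2 + h ^ 2 / 16 ≤
      (1 + (k + 1 + 1) * h) * (y + h / 4) ^ 2 := by
    have e2 : ((k : ℝ) + 1 + 1) * h = 4 * (1 - y) + h := by linear_combination hkh
    rw [e2, hkh]
    have hy1 : y ≤ 1 := by
      rw [hy]; nlinarith
    have q1 : 0 ≤ 5 / 2 - 6 * y + 4 * y ^ 2 := by nlinarith [sq_nonneg (y - 3 / 4)]
    nlinarith [mul_nonneg (mul_nonneg h0.le hy0) q1, mul_nonneg h0.le h0.le,
      mul_nonneg (mul_nonneg h0.le h0.le) h0.le, mul_nonneg (mul_nonneg h0.le h0.le) hy0,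
      mul_nonneg (mul_nonneg h0.le h0.le) (sub_nonneg.2 hy1)]
  have : (y ^ 2 * (1 + h) ^ (k + 1 + 1)) * (y + h / 4) ^ 2 <
      (1 + (k + 1 + 1) * h) * (y + h / 4) ^ 2 := by
    calc (y ^ 2 * (1 + h) ^ (k + 1 + 1)) * (y + h / 4) ^ 2
        = ((y + h / 4) ^ 2 * (1 + h) ^ (k + 1)) * ((1 + h) * y ^ 2) := by ring
      _ ≤ (1 + (k + 1) * h) * ((1 + h) * y ^ 2) :=
          mul_le_mul_of_nonneg_right ih' (by positivity)
      _ < (1 + h) * (1 + (k + 1) * h) * y ^ 2 + h ^ 2 / 16 := by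
          have : 0 < h ^ 2 / 16 := by positivity
          linarith
      _ ≤ _ := key
  exact lt_of_mul_lt_mul_right this hz.le

variable {g : ℝ → ℝ} {b : ℝ}

/-- equality in (E) forces equality in (G) -/
theorem Ok.E_eq (H : Ok g b) {k : ℕ} (hk : 1 ≤ k) {s : ℝ} (hs : s ∈ Ioo 0 b)
    (heq : kap k * W g b 0 k s ^ (k + 4) *
      ((k + 3) * W g b 0 (k + 2) s - k * g s ^ 2 * W g b 0 k s) ≤
        S g b k s ^ 2 * W g b 0 (k + 2) s ^ (k + 1)) :
    (k + 3) * W g b 0 (k + 2) s = (k + 1) * g s ^ 2 * W g b 0 k s := by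
  have hG := H.G k hs
  refine le_antisymm ?_ hG
  by_contra hlt
  push Not at hlt
  have hQ := H.Q k hs
  have hg := H.pos (Ioo_subset_Ico_self hs)
  have hM := H.Wpos k (Ioo_subset_Ico_self hs)
  have hP := H.Wpos (k + 2) (Ioo_subset_Ico_self hs)
  have hS := H.Snn k (Ioo_subset_Ico_self hs)
  set M := W g b 0 k s
  set P := W g b 0 (k + 2) s
  set Sx := S g b k s
  set G := g s
  have hk0 : (0 : ℝ) < k := by exact_mod_cast hk
  obtain ⟨h, hh⟩ : ∃ h : ℝ, h = (k + 3) * P / ((k + 1) * M * G ^ 2) - 1 := ⟨_, rfl⟩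
  obtain ⟨β, hβ⟩ : ∃ β : ℝ, β = (k + 2) * Sx * G ^ k / ((k + 1) * M ^ 2) := ⟨_, rfl⟩
  have h0 : 0 < h := by
    rw [hh, sub_pos, one_lt_div (by positivity)]
    linarith
  have hP' : P = (1 + h) * (k + 1) * M * G ^ 2 / (k + 3) := by
    rw [hh]; field_simp; ring
  have hS' : Sx = β * (k + 1) * M ^ 2 / ((k + 2) * G ^ k) := by
    rw [hβ]; field_simp
  have hβ0 : 0 ≤ β := by rw [hβ]; positivity
  have hβ1 : β ≤ 1 - k * h / 4 := by
    have e1 : 4 * (k + 2) * Sx * G ^ (k + 2) = 4 * β * ((k + 1) * M ^ 2 * G ^ 2) := by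
      rw [hS', pow_add]; field_simp
    have e2 : k * (k + 3) * M * P = k * (1 + h) * ((k + 1) * M ^ 2 * G ^ 2) := by
      rw [hP']; field_simp
    rw [e1, e2] at hQ
    have h3 : 0 < ((k : ℝ) + 1) * M ^ 2 * G ^ 2 := by positivity
    have h4 : 4 * β + k * (1 + h) ≤ k + 4 := by
      refine le_of_mul_le_mul_right ?_ h3
      linarith
    linarith
  have hkh : (k : ℝ) * h ≤ 4 := by linarith
  have hel := elem_lt hk h0 hkh
  have h5 : β ^ 2 ≤ (1 - k * h / 4) ^ 2 := pow_le_pow_left₀ hβ0 hβ1 2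
  have h6 : β ^ 2 * (1 + h) ^ (k + 1) < 1 + (k + 1) * h :=
    (mul_le_mul_of_nonneg_right h5 (by positivity)).trans_lt hel
  have h7 : 0 < kap k * M ^ (k + 5) * G ^ 2 := by
    unfold kap
    positivity
  have h8 := mul_lt_mul_of_pos_left h6 h7
  have e1 : Sx ^ 2 * P ^ (k + 1) = kap k * M ^ (k + 5) * G ^ 2 * (β ^ 2 * (1 + h) ^ (k + 1)) := by
    rw [hS', hP']
    unfold kap
    rw [div_pow, div_pow, mul_pow, mul_pow, mul_pow, mul_pow, mul_pow, mul_pow]
    field_simp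
    ring
  have e2 : kap k * M ^ (k + 5) * G ^ 2 * (1 + (k + 1) * h) =
      kap k * M ^ (k + 4) * ((k + 3) * P - k * G ^ 2 * M) := by
    rw [hP']
    field_simp
    ring
  rw [e1, ← e2] at heq
  linarith

/-- the Lyapunov function -/
noncomputable def F (g : ℝ → ℝ) (b : ℝ) (j : ℕ) (s : ℝ) : ℝ :=
  kap (j + 1) * (W g b 0 (j + 1) s ^ (j + 1 + 3) /
    W g b 0 (j + 1 + 2) s ^ (j + 1)) - (T g b (j + 1) s - S g b (j + 1) s ^ 2 /
      W g b 0 (j + 1) s)

theorem Ok.contF (H : Ok g b) (j : ℕ) : ContinuousOn (F g b j) (Ico 0 b) := by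
  have hI : Ico 0 b ⊆ Icc 0 b := Ico_subset_Icc_self
  have h2 := (H.contW 0 (j + 1)).mono hI
  have h3 := (H.contW 0 (j + 1 + 2)).mono hI
  have h4 := (H.contS (j + 1)).mono hI
  have h5 := (H.contT (j + 1)).mono hI
  exact (continuousOn_const.mul ((h2.pow _).div (h3.pow _)
    fun x hx => (pow_pos (H.Wpos _ hx) _).ne')).sub
    (h5.sub ((h4.pow 2).div h2 fun x hx => (H.Wpos _ hx).ne'))

theorem Ok.derivF (H : Ok g b) (j : ℕ) {x : ℝ} (hx : x ∈ Ioo 0 b) :
    HasDerivAt (F g b j) ((g x ^ (j + 1) / (W g b 0 (j + 1) x ^ 2 *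
      W g b 0 (j + 1 + 2) x ^ (j + 2))) * (S g b (j + 1) x ^ 2 *
        W g b 0 (j + 1 + 2) x ^ (j + 1 + 1) -
        kap (j + 1) * W g b 0 (j + 1) x ^ (j + 1 + 4) * (((j + 1 : ℕ) + 3) *
          W g b 0 (j + 1 + 2) x - (j + 1 : ℕ) * g x ^ 2 * W g b 0 (j + 1) x))) x := by
  have hM := H.Wpos (j + 1) (Ioo_subset_Ico_self hx)
  have hP := H.Wpos (j + 1 + 2) (Ioo_subset_Ico_self hx)
  have h1 := H.derivW 0 (j + 1) hx
  have h2 := H.derivW 0 (j + 1 + 2) hx
  have h3 := H.derivS (j + 1) hx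
  have h4 := H.derivT (j + 1) hx
  have h5 : HasDerivAt (F g b j) _ x :=
    (((h1.pow (j + 1 + 3)).div (h2.pow (j + 1)) (pow_pos hP _).ne').const_mul
      (kap (j + 1))).sub (h4.sub ((h3.pow 2).div h1 hM.ne'))
  refine h5.congr_deriv ?_
  simp only [Pi.pow_apply]
  set M := W g b 0 (j + 1) x
  set P := W g b 0 (j + 1 + 2) x
  set Sx := S g b (j + 1) x
  have e1 : j + 1 + 3 - 1 = j + 3 := rfl
  have e2 : j + 1 - 1 = j := rfl
  have e3 : 2 - 1 = 1 := rfl
  rw [e1, e2, e3]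
  push_cast
  field_simp
  ring

theorem Ok.antiF (H : Ok g b) (j : ℕ) : AntitoneOn (F g b j) (Ico 0 b) := by
  apply antitoneOn_of_deriv_nonpos (convex_Ico 0 b) (H.contF j)
  · intro x hx
    rw [interior_Ico] at hx
    exact (H.derivF j hx).differentiableAt.differentiableWithinAt
  · intro x hx
    rw [interior_Ico] at hx
    rw [(H.derivF j hx).deriv]
    have hM := H.Wpos (j + 1) (Ioo_subset_Ico_self hx)
    have hP := H.Wpos (j + 1 + 2) (Ioo_subset_Ico_self hx)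
    have hg := H.pos (Ioo_subset_Ico_self hx)
    exact mul_nonpos_of_nonneg_of_nonpos (by positivity)
      (sub_nonpos.2 (H.E (by omega : 1 ≤ j + 1) hx))

theorem Ok.Fnn (H : Ok g b) (j : ℕ) {s : ℝ} (hs : s ∈ Ico 0 b) : 0 ≤ F g b j s := by
  apply lim0 H.hb (H.contT (j + 1)) (T_end _) hs
  intro t ht
  have htI : t ∈ Ico 0 b := ⟨hs.1.trans ht.1.le, ht.2⟩
  refine le_trans ?_ (H.antiF j hs htI ht.1.le)
  have hM := H.Wpos (j + 1) htI
  have hP := H.Wpos (j + 1 + 2) htI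
  have h1 : 0 ≤ kap (j + 1) * (W g b 0 (j + 1) t ^ (j + 1 + 3) /
    W g b 0 (j + 1 + 2) t ^ (j + 1)) := by
    unfold kap
    positivity
  have h2 : 0 ≤ S g b (j + 1) t ^ 2 / W g b 0 (j + 1) t := by positivity
  simp only [F]
  linarith

/-- (A) with the remainder -/
theorem Ok.keyA' (H : Ok g b) (k : ℕ) {s l : ℝ} (hs : s ∈ Ioo 0 b) (hl : 0 ≤ l)
    (h : ∀ t ∈ Icc s b, g t ≤ g s - l * (t - s)) :
    (k + 1) * l * W g b 0 k s + (g s - l * (b - s)) ^ (k + 1) ≤ g s ^ (k + 1) := by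
  have hsI : s ∈ Icc 0 b := Ioo_subset_Icc_self hs
  have e1 : (k + 1) * l * W g b 0 k s = ∫ t in s..b, (k + 1) * l * (t ^ 0 * g t ^ k) := by
    rw [intervalIntegral.integral_const_mul]; rfl
  rw [e1]
  have e2 : ∫ t in s..b, (k + 1) * l * (g s - l * (t - s)) ^ k =
      -(g s - l * (b - s)) ^ (k + 1) - -(g s - l * (s - s)) ^ (k + 1) := by
    apply intervalIntegral.integral_eq_sub_of_hasDerivAt
      (f := fun t => -(g s - l * (t - s)) ^ (k + 1))
    · intro t _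
      have h1 : HasDerivAt (fun t : ℝ => g s - l * (t - s)) (-l) t := by
        have := ((hasDerivAt_id t).sub_const s).const_mul l
        have h2 := this.const_sub (g s)
        simpa using h2
      have h3 := (h1.pow (k + 1)).neg
      refine h3.congr_deriv ?_
      rw [Nat.add_sub_cancel]
      push_cast
      ring
    · exact Continuous.intervalIntegrable (by fun_prop) _ _
  have h3 : ∫ t in s..b, (k + 1) * l * (t ^ 0 * g t ^ k) ≤
      ∫ t in s..b, (k + 1) * l * (g s - l * (t - s)) ^ k := by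
    apply intervalIntegral.integral_mono_on hs.2.le
    · exact (H.int 0 k hsI (right_mem_Icc.2 H.hb.le)).const_mul _
    · exact Continuous.intervalIntegrable (by fun_prop) _ _
    · intro t ht
      have h4 : g t ^ k ≤ (g s - l * (t - s)) ^ k :=
        pow_le_pow_left₀ (H.nn t ⟨hs.1.le.trans ht.1, ht.2⟩) (h t ht) k
      rw [pow_zero, one_mul]
      exact mul_le_mul_of_nonneg_left h4 (by positivity)
  rw [e2, sub_self, mul_zero, sub_zero] at h3
  linarith

theorem Ok.main_eq (H : Ok g b) {k : ℕ} (hk : 1 ≤ k)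
    (heq : kap k * W g b 0 k 0 ^ (k + 4) ≤
      (W g b 0 k 0 * W g b 2 k 0 - W g b 1 k 0 ^ 2) * W g b 0 (k + 2) 0 ^ k) :
    ∃ c : ℝ, 0 < c ∧ ∀ s ∈ Ioo 0 b, g s = c * (b - s) := by
  obtain ⟨j, rfl⟩ : ∃ j, k = j + 1 := ⟨k - 1, by omega⟩
  have hb0 := left_mem_Ico.2 H.hb
  -- `F` vanishes
  have hF0 : F g b j 0 ≤ 0 := by
    have hM := H.Wpos (j + 1) hb0
    have hP := H.Wpos (j + 1 + 2) hb0
    simp only [F, S, T]
    set M := W g b 0 (j + 1) 0
    set P := W g b 0 (j + 1 + 2) 0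
    set A := W g b 1 (j + 1) 0
    set B := W g b 2 (j + 1) 0
    have e : (kap (j + 1) * (M ^ (j + 1 + 3) / P ^ (j + 1)) -
      (B - 2 * 0 * A + 0 ^ 2 * M - (A - 0 * M) ^ 2 / M)) =
      (kap (j + 1) * M ^ (j + 1 + 4) - (M * B - A ^ 2) * P ^ (j + 1)) / (M * P ^ (j + 1)) := by
      field_simp
      ring
    rw [e]
    exact div_nonpos_of_nonpos_of_nonneg (sub_nonpos.2 heq) (by positivity)
  have hFz : ∀ s ∈ Ico 0 b, F g b j s = 0 := fun s hs =>
    le_antisymm ((H.antiF j hb0 hs hs.1).trans hF0) (H.Fnn j hs)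
  -- equality in (G)
  have hGe : ∀ s ∈ Ioo 0 b, (((j + 1 : ℕ) : ℝ) + 3) * W g b 0 (j + 1 + 2) s =
      ((j + 1 : ℕ) + 1) * g s ^ 2 * W g b 0 (j + 1) s := by
    intro s hs
    apply H.E_eq hk hs
    have h1 : HasDerivAt (F g b j) 0 s := by
      apply (hasDerivAt_const s (0 : ℝ)).congr_of_eventuallyEq
      filter_upwards [isOpen_Ioo.mem_nhds hs] with t ht using hFz t (Ioo_subset_Ico_self ht)
    have h2 := (H.derivF j hs).unique h1
    have hM := H.Wpos (j + 1) (Ioo_subset_Ico_self hs)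
    have hP := H.Wpos (j + 1 + 2) (Ioo_subset_Ico_self hs)
    have hg := H.pos (Ioo_subset_Ico_self hs)
    rcases mul_eq_zero.1 h2 with h3 | h3
    · exact absurd h3 (by positivity)
    · linarith
  -- the right derivative
  have hl : ∀ x ∈ Ioo 0 b, HasDerivWithinAt g (-(g x / (b - x))) (Ioi x) x := by
    intro x hx
    obtain ⟨l, hl, hd, ht⟩ := H.rd hx
    have hA := H.keyA' (j + 1) hx hl ht
    have hg := H.pos (Ioo_subset_Ico_self hx)
    have h1 := (H.derivW 0 (j + 1) hx).hasDerivWithinAt (s := Ioi x)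
    have h2 := (H.derivW 0 (j + 1 + 2) hx).hasDerivWithinAt (s := Ioi x)
    have h3 := (h2.const_mul (((j + 1 : ℕ) : ℝ) + 3)).sub
      (((hd.pow 2).const_mul (((j + 1 : ℕ) : ℝ) + 1)).mul h1)
    have h4 : HasDerivWithinAt (fun s => (((j + 1 : ℕ) : ℝ) + 3) * W g b 0 (j + 1 + 2) s -
        ((j + 1 : ℕ) + 1) * g s ^ 2 * W g b 0 (j + 1) s) 0 (Ioi x) x := by
      apply (hasDerivWithinAt_const x (Ioi x) (0 : ℝ)).congr_of_eventuallyEq
      · filter_upwards [Ioo_mem_nhdsGT hx.2] with t ht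
        rw [hGe t ⟨hx.1.trans ht.1, ht.2⟩, sub_self]
      · rw [hGe x hx, sub_self]
    have h5 := (uniqueDiffWithinAt_Ioi x).eq_deriv _ h3 h4
    have h6 : ((j + 1 : ℕ) + 1 : ℝ) * l * W g b 0 (j + 1) x = g x ^ (j + 1 + 1) := by
      have h7 : (2 * g x) * (((j + 1 : ℕ) + 1 : ℝ) * l * W g b 0 (j + 1) x - g x ^ (j + 1 + 1)) =
          0 := by
        rw [← h5]
        simp only [pow_zero, one_mul, Nat.cast_ofNat, Nat.add_one_sub_one, pow_one, Pi.pow_apply]
        push_cast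
        ring
      rcases mul_eq_zero.1 h7 with h8 | h8
      · linarith
      · linarith
    have h7 : (g x - l * (b - x)) ^ (j + 1 + 1) ≤ 0 := by linarith
    have h8 : 0 ≤ g x - l * (b - x) :=
      (H.nn b (right_mem_Icc.2 H.hb.le)).trans (ht b ⟨hx.2.le, le_rfl⟩)
    have h9 : g x - l * (b - x) = 0 := by
      have h10 := le_antisymm h7 (pow_nonneg h8 _)
      exact pow_eq_zero_iff (by omega) |>.1 h10
    have hbx : 0 < b - x := sub_pos.2 hx.2
    have h10 : l = g x / (b - x) := by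
      rw [eq_div_iff hbx.ne']; linarith
    rwa [← h10]
  -- `g / (b - s)` is constant
  have hcq : ContinuousOn (fun s => g s / (b - s)) (Ioo 0 b) := by
    apply H.cont.div (by fun_prop)
    intro x hx
    exact (sub_pos.2 hx.2).ne'
  have hdq : ∀ x ∈ Ioo 0 b, HasDerivWithinAt (fun s => g s / (b - s)) 0 (Ioi x) x := by
    intro x hx
    have hbx : 0 < b - x := sub_pos.2 hx.2
    have h1 : HasDerivWithinAt (fun s : ℝ => b - s) (-1) (Ioi x) x := by
      have := (hasDerivWithinAt_id x (Ioi x)).const_sub b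
      simpa using this
    refine ((hl x hx).div h1 hbx.ne').congr_deriv ?_
    field_simp
    ring
  have hconst : ∀ s ∈ Ioo 0 b, g s / (b - s) = g (b / 2) / (b - b / 2) := by
    have hc1 : ∀ s t, 0 < s → s ≤ t → t < b → g t / (b - t) = g s / (b - s) := by
      intro s t hs hst ht
      apply le_antisymm
      · exact anti_of_right hcq (fun x hx => ⟨0, le_rfl, hdq x hx⟩) hs hst ht
      · have h1 := anti_of_right (f := fun s => -(g s / (b - s))) hcq.neg
          (fun x hx => ⟨-0, by simp, (hdq x hx).neg⟩) hs hst ht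
        linarith
    intro s hs
    have hb := H.hb
    rcases le_total s (b / 2) with h | h
    · exact (hc1 s (b / 2) hs.1 h (by linarith)).symm
    · exact hc1 (b / 2) s (by linarith) h hs.2
  have hb := H.hb
  refine ⟨g (b / 2) / (b - b / 2), div_pos (H.pos ⟨by linarith, by linarith⟩) (by linarith), ?_⟩
  intro s hs
  rw [← hconst s hs, div_mul_cancel₀ _ (sub_pos.2 hs.2).ne']

end Dec598

open Dec598 in
/-- [Q1a] equality case, decreasing functions -/
theorem dec_eq (k : ℕ) (hk : 1 ≤ k) {b : ℝ} (hb : 0 < b) {g : ℝ → ℝ}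
    (hconc : ConcaveOn ℝ (Icc 0 b) g) (hanti : AntitoneOn g (Icc 0 b))
    (hpos : ∀ s ∈ Icc 0 b, 0 ≤ g s) (hM : 0 < ∫ t in (0 : ℝ)..b, g t ^ k)
    (heq : kap k * (∫ t in (0 : ℝ)..b, g t ^ k) ^ (k + 4) ≤
      ((∫ t in (0 : ℝ)..b, g t ^ k) * (∫ t in (0 : ℝ)..b, t ^ 2 * g t ^ k) -
        (∫ t in (0 : ℝ)..b, t * g t ^ k) ^ 2) * (∫ t in (0 : ℝ)..b, g t ^ (k + 2)) ^ k) :
    ∃ c : ℝ, 0 < c ∧ ∀ s ∈ Ioo 0 b, g s = c * (b - s) := by
  have hk' : k ≠ 0 := by omega
  have h0 : 0 < g 0 := by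
    rcases (hpos 0 (left_mem_Icc.2 hb.le)).eq_or_lt with h0 | h0
    · exfalso
      have hz : ∀ t ∈ uIcc 0 b, g t = 0 := by
        intro t ht
        rw [uIcc_of_le hb.le] at ht
        exact le_antisymm ((hanti (left_mem_Icc.2 hb.le) ht ht.1).trans h0.symm.le) (hpos t ht)
      have e1 : ∫ t in (0 : ℝ)..b, g t ^ k = 0 := by
        rw [intervalIntegral.integral_congr (g := fun _ => 0)
          (fun t ht => by simp only [hz t ht]; exact zero_pow hk')]
        simp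
      linarith
    · exact h0
  have H : Ok g b := ⟨hb, hconc, hanti, hpos, h0⟩
  apply H.main_eq hk
  simpa only [W, pow_zero, one_mul, pow_one] using heq

end Vale.Agent.P254.Perm
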