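import Vale.Agent.P254.Perm.Rearr863

/-!
P254: decreasing rearrangement of a concave function on an interval, with the lengths of the
superlevel sets.
-/

open MeasureTheory Set

namespace Vale.Agent.P254.Perm

open R863

theorem R863.level_vol {a b : ℝ} {g : ℝ → ℝ} (hconc : ConcaveOn ℝ (Icc a b) g)
    (hpos : ∀ s ∈ Icc a b, 0 ≤ g s) (c : ℝ) :
    volume {s | s ∈ Icc 0 (b - a) ∧ c < fold a b g s} = volume {s | s ∈ Icc a b ∧ c < g s} := by
  by_cases hne : {x ∈ Icc a b | c < g x}.Nonempty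
  · obtain ⟨α, β, hαβ, e1, e2, e3, e4, _, _⟩ := level hconc hpos hne
    have f1 := setL e1 e2 hαβ (w := fun _ => (1:ℝ)) continuous_const (fun _ => zero_le_one)
    have f2 := setL e3 e4 (sub_nonneg.2 hαβ) (w := fun _ => (1:ℝ)) continuous_const
      (fun _ => zero_le_one)
    simp only [ENNReal.ofReal_one, setLIntegral_one, intervalIntegral.integral_const, smul_eq_mul,
      mul_one, sub_zero] at f1 f2
    rw [f1, f2]
  · rw [level_empty hconc hpos hne, Set.not_nonempty_iff_eq_empty.1 hne]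

/-- Decreasing rearrangement of a concave function. -/
theorem rearr' (k : ℕ) (hk : 1 ≤ k) {a b : ℝ} (hab : a < b) {g : ℝ → ℝ}
    (hconc : ConcaveOn ℝ (Icc a b) g) (hpos : ∀ s ∈ Icc a b, 0 ≤ g s) :
    ∃ h : ℝ → ℝ, ConcaveOn ℝ (Icc 0 (b - a)) h ∧ AntitoneOn h (Icc 0 (b - a)) ∧
      (∀ s ∈ Icc 0 (b - a), 0 ≤ h s) ∧
      (∀ t : ℝ, 0 < t → volume {s | s ∈ Icc 0 (b - a) ∧ t < h s} =
        volume {s | s ∈ Icc a b ∧ t < g s}) ∧
      (∫ t in (0 : ℝ)..(b - a), h t ^ k) = (∫ t in a..b, g t ^ k) ∧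
      (∫ t in (0 : ℝ)..(b - a), h t ^ (k + 2)) = (∫ t in a..b, g t ^ (k + 2)) ∧
      (∫ t in a..b, g t ^ k) * (∫ t in a..b, t ^ 2 * g t ^ k) - (∫ t in a..b, t * g t ^ k) ^ 2 ≤
        (∫ t in (0 : ℝ)..(b - a), h t ^ k) * (∫ t in (0 : ℝ)..(b - a), t ^ 2 * h t ^ k) -
          (∫ t in (0 : ℝ)..(b - a), t * h t ^ k) ^ 2 := by
  have hL : (0:ℝ) ≤ b - a := (sub_pos.2 hab).le
  have hconc' := fold_concave hconc hpos
  have hpos' : ∀ s ∈ Icc 0 (b - a), 0 ≤ fold a b g s := fun s hs => fold_nonneg hconc hpos hs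
  have hm := mass hab.le hconc hpos hk
  refine ⟨fold a b g, hconc', fold_anti hconc hpos, hpos', fun t _ => level_vol hconc hpos t, hm,
    mass hab.le hconc hpos (by omega), ?_⟩
  set M := ∫ t in a..b, g t ^ k with hM
  set S1 := ∫ t in a..b, t * g t ^ k
  set S2 := ∫ t in a..b, t ^ 2 * g t ^ k
  set T1 := ∫ t in (0 : ℝ)..(b - a), t * fold a b g t ^ k with hT1
  set T2 := ∫ t in (0 : ℝ)..(b - a), t ^ 2 * fold a b g t ^ k with hT2
  rw [hm]
  have hM0 : 0 ≤ M := intervalIntegral.integral_nonneg hab.le fun t ht => pow_nonneg (hpos t ht) _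
  rcases hM0.eq_or_lt with h0 | h0
  · have h1 : T1 = 0 := by
      refine le_antisymm ?_ (intervalIntegral.integral_nonneg hL fun t ht =>
        mul_nonneg ht.1 (pow_nonneg (hpos' t ht) _))
      have i1 := intI hL hconc' hpos' (w := fun t => t) (by fun_prop) k
      have i0 := intI hL hconc' hpos' (w := fun _ => (1:ℝ)) (by fun_prop) k
      simp only [one_mul] at i0
      calc T1 ≤ ∫ t in (0 : ℝ)..(b - a), (b - a) * fold a b g t ^ k :=
            intervalIntegral.integral_mono_on hL i1 (i0.const_mul _) fun t ht =>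
              mul_le_mul_of_nonneg_right ht.2 (pow_nonneg (hpos' t ht) _)
        _ = 0 := by
            rw [intervalIntegral.integral_const_mul, hm, ← h0, mul_zero]
    rw [h1, ← h0]
    nlinarith [sq_nonneg S1]
  · obtain ⟨ν, hν⟩ := second hab.le hconc hpos hk (T1 / M)
    rw [expand hab.le hconc hpos, expand hL hconc' hpos', hm] at hν
    have e1 := mul_le_mul_of_nonneg_left hν h0.le
    have e2 : M * (T2 - 2 * (T1 / M) * T1 + (T1 / M) ^ 2 * M) = M * T2 - T1 ^ 2 := by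
      field_simp
      ring
    have e3 : M * (S2 - 2 * ν * S1 + ν ^ 2 * M) = M * S2 - S1 ^ 2 + (S1 - ν * M) ^ 2 := by ring
    nlinarith [sq_nonneg (S1 - ν * M)]

end Vale.Agent.P254.Perm
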