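import Vale.Agent.P254.Perm.Defs

/-!
P254, convex bodies which are invariant under the permutations of the coordinates:
the shape of the section function in the equality case.
-/

open MeasureTheory Set

namespace Vale.Agent.P254.Perm

namespace TentAux

open Filter Topology

theorem conc_three {S : Set ℝ} {g : ℝ → ℝ} (hg : ConcaveOn ℝ S g) {x y z : ℝ}
    (hx : x ∈ S) (hz : z ∈ S) (hxy : x < y) (hyz : y < z) :
    g z * (y - x) + g x * (z - y) ≤ g y * (z - x) := by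
  have h := hg.slope_anti_adjacent hx hz hxy hyz
  rw [div_le_div_iff₀ (by linarith) (by linarith)] at h
  nlinarith

theorem exists_apex {a b H : ℝ} (hab : a < b) (hH : 0 < H) {g : ℝ → ℝ}
    (hconc : ConcaveOn ℝ (Icc a b) g) (hpos : ∀ s ∈ Icc a b, 0 ≤ g s)
    (hne : ∀ t, 0 < t → t < H → ∃ s ∈ Icc a b, t < g s) :
    ∃ m ∈ Icc a b, (∀ s ∈ Ioo a m, H * (s - a) / (m - a) ≤ g s) ∧
      (∀ s ∈ Ioo m b, H * (b - s) / (b - m) ≤ g s) := by
  have ht : ∀ n : ℕ, ∃ s ∈ Icc a b, H - H / ((n : ℝ) + 2) < g s := by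
    intro n
    have hn : (0 : ℝ) ≤ n := n.cast_nonneg
    apply hne
    · have : H / ((n : ℝ) + 2) < H := by
        rw [div_lt_iff₀ (by positivity)]
        nlinarith
      linarith
    · have : 0 < H / ((n : ℝ) + 2) := by positivity
      linarith
  choose u huI hu using ht
  obtain ⟨m, hm, φ, hφ, hlim⟩ := isCompact_Icc.tendsto_subseq huI
  have hlev : Tendsto (fun n : ℕ => H - H / (((φ n : ℕ) : ℝ) + 2)) atTop (𝓝 (H - 0)) := by
    apply Tendsto.sub tendsto_const_nhds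
    have h1 : Tendsto (fun n : ℕ => H / ((n : ℝ) + 2)) atTop (𝓝 0) := by
      apply Tendsto.div_atTop tendsto_const_nhds
      exact tendsto_atTop_add_const_right _ _ tendsto_natCast_atTop_atTop
    exact h1.comp hφ.tendsto_atTop
  rw [sub_zero] at hlev
  have hlim' : Tendsto (fun n => u (φ n)) atTop (𝓝 m) := hlim
  refine ⟨m, hm, ?_, ?_⟩
  · intro s hs
    have hev : ∀ᶠ n in atTop, s < u (φ n) := hlim'.eventually (lt_mem_nhds hs.2)
    have hma : 0 < m - a := by linarith [hs.1, hs.2]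
    have hlim2 : Tendsto (fun n => (H - H / (((φ n : ℕ) : ℝ) + 2)) * (s - a) / (u (φ n) - a))
        atTop (𝓝 (H * (s - a) / (m - a))) :=
      Tendsto.div (hlev.mul_const _) (hlim'.sub_const _) hma.ne'
    refine le_of_tendsto hlim2 ?_
    filter_upwards [hev] with n hn
    have hua : 0 < u (φ n) - a := by linarith [hs.1]
    have hga := hpos a (left_mem_Icc.2 hab.le)
    rw [div_le_iff₀ hua]
    have h3 := conc_three hconc (left_mem_Icc.2 hab.le) (huI (φ n)) hs.1 hn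
    have h4 : 0 ≤ g a * (u (φ n) - s) := mul_nonneg hga (by linarith)
    have h5 : (H - H / (((φ n : ℕ) : ℝ) + 2)) * (s - a) ≤ g (u (φ n)) * (s - a) :=
      mul_le_mul_of_nonneg_right (hu (φ n)).le (by linarith [hs.1])
    linarith
  · intro s hs
    have hev : ∀ᶠ n in atTop, u (φ n) < s := hlim'.eventually (gt_mem_nhds hs.1)
    have hmb : 0 < b - m := by linarith [hs.1, hs.2]
    have hlim2 : Tendsto (fun n => (H - H / (((φ n : ℕ) : ℝ) + 2)) * (b - s) / (b - u (φ n)))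
        atTop (𝓝 (H * (b - s) / (b - m))) :=
      Tendsto.div (hlev.mul_const _) (hlim'.const_sub _) hmb.ne'
    refine le_of_tendsto hlim2 ?_
    filter_upwards [hev] with n hn
    have hub : 0 < b - u (φ n) := by linarith [hs.2]
    have hgb := hpos b (right_mem_Icc.2 hab.le)
    rw [div_le_iff₀ hub]
    have h3 := conc_three hconc (huI (φ n)) (right_mem_Icc.2 hab.le) hn hs.2
    have h4 : 0 ≤ g b * (s - u (φ n)) := mul_nonneg hgb (by linarith)
    have h5 : (H - H / (((φ n : ℕ) : ℝ) + 2)) * (b - s) ≤ g (u (φ n)) * (b - s) :=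
      mul_le_mul_of_nonneg_right (hu (φ n)).le (by linarith [hs.2])
    linarith

theorem level_bounds {a b H m : ℝ} (hab : a < b) (hH : 0 < H) {g : ℝ → ℝ}
    (hconc : ConcaveOn ℝ (Icc a b) g)
    (hlev : ∀ t, 0 < t → t < H →
      volume {s | s ∈ Icc a b ∧ t < g s} = ENNReal.ofReal ((b - a) * (1 - t / H)))
    (hm : m ∈ Icc a b)
    (hL : ∀ s ∈ Ioo a m, H * (s - a) / (m - a) ≤ g s)
    (hR : ∀ s ∈ Ioo m b, H * (b - s) / (b - m) ≤ g s)
    {t : ℝ} (ht0 : 0 < t) (htH : t < H) {s : ℝ} (hs : s ∈ Icc a b) (hgs : t < g s) :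
    a + (m - a) * (t / H) ≤ s ∧ s ≤ b - (b - m) * (t / H) := by
  set r := t / H with hr
  have hr0 : 0 < r := div_pos ht0 hH
  have hr1 : r < 1 := (div_lt_one hH).2 htH
  have hrH : t = r * H := by rw [hr]; field_simp
  set α := a + (m - a) * r with hα
  set β := b - (b - m) * r with hβ
  have hαβ : β - α = (b - a) * (1 - r) := by rw [hα, hβ]; ring
  have hpos' : 0 < (b - a) * (1 - r) := mul_pos (by linarith) (by linarith)
  have haα : a ≤ α := by
    have := mul_nonneg (by linarith [hm.1] : 0 ≤ m - a) hr0.le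
    linarith
  have hβb : β ≤ b := by
    have := mul_nonneg (by linarith [hm.2] : 0 ≤ b - m) hr0.le
    linarith
  have hconv : Convex ℝ {x | x ∈ Icc a b ∧ t < g x} := hconc.convex_gt t
  have hsub : ∀ y, α < y → y < β → y ≠ m → y ∈ {x | x ∈ Icc a b ∧ t < g x} := by
    intro y h1 h2 h3
    refine ⟨⟨by linarith, by linarith⟩, ?_⟩
    rcases lt_or_gt_of_ne h3 with h | h
    · have hma : 0 < m - a := by linarith
      refine lt_of_lt_of_le ?_ (hL y ⟨by linarith, h⟩)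
      rw [lt_div_iff₀ hma, hrH]
      have : (m - a) * r < y - a := by linarith
      nlinarith
    · have hmb : 0 < b - m := by linarith
      refine lt_of_lt_of_le ?_ (hR y ⟨h, by linarith⟩)
      rw [lt_div_iff₀ hmb, hrH]
      have : (b - m) * r < b - y := by linarith
      nlinarith
  have hoc := hconv.ordConnected
  constructor
  · by_contra hlt
    push Not at hlt
    have hI : Ioo s β ⊆ {x | x ∈ Icc a b ∧ t < g x} := by
      intro x hx
      have h1 : max x α < β := max_lt hx.2 (by linarith)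
      obtain ⟨y, hy1, hy2, hy3⟩ : ∃ y, max x α < y ∧ y < β ∧ y ≠ m := by
        obtain ⟨y1, h11, h12⟩ := exists_between h1
        obtain ⟨y2, h21, h22⟩ := exists_between h12
        by_cases hy : y1 = m
        · exact ⟨y2, by linarith, h22, by rw [← hy]; exact h21.ne'⟩
        · exact ⟨y1, h11, h12, hy⟩
      have hy := hsub y (lt_of_le_of_lt (le_max_right _ _) hy1) hy2 hy3
      exact hoc.out ⟨hs, hgs⟩ hy ⟨hx.1.le, (lt_of_le_of_lt (le_max_left _ _) hy1).le⟩
    have hv := measure_mono (μ := volume) hI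
    rw [hlev t ht0 htH, Real.volume_Ioo, ENNReal.ofReal_le_ofReal_iff (by rw [← hr]; exact hpos'.le),
      ← hr, ← hαβ] at hv
    linarith
  · by_contra hlt
    push Not at hlt
    have hI : Ioo α s ⊆ {x | x ∈ Icc a b ∧ t < g x} := by
      intro x hx
      have h1 : α < min x β := lt_min hx.1 (by linarith)
      obtain ⟨y, hy1, hy2, hy3⟩ : ∃ y, α < y ∧ y < min x β ∧ y ≠ m := by
        obtain ⟨y1, h11, h12⟩ := exists_between h1
        obtain ⟨y2, h21, h22⟩ := exists_between h12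
        by_cases hy : y1 = m
        · exact ⟨y2, by linarith, h22, by rw [← hy]; exact h21.ne'⟩
        · exact ⟨y1, h11, h12, hy⟩
      have hy := hsub y hy1 (lt_of_lt_of_le hy2 (min_le_right _ _)) hy3
      exact hoc.out hy ⟨hs, hgs⟩ ⟨(lt_of_lt_of_le hy2 (min_le_left _ _)).le, hx.2.le⟩
    have hv := measure_mono (μ := volume) hI
    rw [hlev t ht0 htH, Real.volume_Ioo, ENNReal.ofReal_le_ofReal_iff (by rw [← hr]; exact hpos'.le),
      ← hr, ← hαβ] at hv
    linarith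

theorem tent_shape {a b H : ℝ} (hab : a < b) (hH : 0 < H) {g : ℝ → ℝ}
    (hconc : ConcaveOn ℝ (Icc a b) g) (hpos : ∀ s ∈ Icc a b, 0 ≤ g s)
    (hlev : ∀ t, 0 < t → t < H →
      volume {s | s ∈ Icc a b ∧ t < g s} = ENNReal.ofReal ((b - a) * (1 - t / H))) :
    ∃ m ∈ Icc a b, (∀ s ∈ Ioo a m, g s = H * (s - a) / (m - a)) ∧
      (∀ s ∈ Ioo m b, g s = H * (b - s) / (b - m)) := by
  have hne : ∀ t, 0 < t → t < H → ∃ s ∈ Icc a b, t < g s := by
    intro t h0 h1
    by_contra hcon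
    push Not at hcon
    have he : {s | s ∈ Icc a b ∧ t < g s} = ∅ := by
      ext s
      simp only [Set.mem_ofPred_eq, mem_empty_iff_false, iff_false, not_and, not_lt]
      exact hcon s
    have h2 := hlev t h0 h1
    rw [he, measure_empty] at h2
    have h3 : 0 < (b - a) * (1 - t / H) :=
      mul_pos (by linarith) (by have := (div_lt_one hH).2 h1; linarith)
    have h4 := ENNReal.ofReal_pos.2 h3
    rw [← h2] at h4
    exact lt_irrefl _ h4
  obtain ⟨m, hm, hL, hR⟩ := exists_apex hab hH hconc hpos hne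
  refine ⟨m, hm, ?_, ?_⟩
  · intro s hs
    refine le_antisymm ?_ (hL s hs)
    by_contra hlt
    push Not at hlt
    have hma : 0 < m - a := by linarith [hs.1, hs.2]
    have hT0 : 0 < H * (s - a) / (m - a) := div_pos (mul_pos hH (by linarith [hs.1])) hma
    have hTH : H * (s - a) / (m - a) < H := by
      rw [div_lt_iff₀ hma]
      exact mul_lt_mul_of_pos_left (by linarith [hs.2]) hH
    obtain ⟨t, ht1, ht2⟩ := exists_between (lt_min hlt hTH)
    have hb := (level_bounds hab hH hconc hlev hm hL hR (hT0.trans ht1)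
      (lt_of_lt_of_le ht2 (min_le_right _ _)) ⟨hs.1.le, by linarith [hs.2, hm.2]⟩
      (lt_of_lt_of_le ht2 (min_le_left _ _))).1
    rw [div_lt_iff₀ hma] at ht1
    have h5 : (m - a) * (t / H) = t * (m - a) / H := by ring
    rw [h5] at hb
    have h6 : s - a < t * (m - a) / H := by
      rw [lt_div_iff₀ hH]; linarith
    linarith
  · intro s hs
    refine le_antisymm ?_ (hR s hs)
    by_contra hlt
    push Not at hlt
    have hmb : 0 < b - m := by linarith [hs.1, hs.2]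
    have hT0 : 0 < H * (b - s) / (b - m) := div_pos (mul_pos hH (by linarith [hs.2])) hmb
    have hTH : H * (b - s) / (b - m) < H := by
      rw [div_lt_iff₀ hmb]
      exact mul_lt_mul_of_pos_left (by linarith [hs.1]) hH
    obtain ⟨t, ht1, ht2⟩ := exists_between (lt_min hlt hTH)
    have hb := (level_bounds hab hH hconc hlev hm hL hR (hT0.trans ht1)
      (lt_of_lt_of_le ht2 (min_le_right _ _)) ⟨by linarith [hs.1, hm.1], hs.2.le⟩
      (lt_of_lt_of_le ht2 (min_le_left _ _))).2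
    rw [div_lt_iff₀ hmb] at ht1
    have h5 : (b - m) * (t / H) = t * (b - m) / H := by ring
    rw [h5] at hb
    have h6 : b - s < t * (b - m) / H := by
      rw [lt_div_iff₀ hH]; linarith
    linarith

theorem int_pow3 (k : ℕ) (p0 p1 p2 C x : ℝ) :
    (∫ u in (0 : ℝ)..x, (p0 + p1 * u + p2 * u ^ 2) * (C * u) ^ k) =
      C ^ k * (p0 * x ^ (k + 1) / ((k : ℝ) + 1) + p1 * x ^ (k + 2) / ((k : ℝ) + 2) +
        p2 * x ^ (k + 3) / ((k : ℝ) + 3)) := by
  have h : ∀ u : ℝ, HasDerivAt (fun u : ℝ => C ^ k * (p0 * u ^ (k + 1) / ((k : ℝ) + 1) +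
      p1 * u ^ (k + 2) / ((k : ℝ) + 2) + p2 * u ^ (k + 3) / ((k : ℝ) + 3)))
      ((p0 + p1 * u + p2 * u ^ 2) * (C * u) ^ k) u := by
    intro u
    have h1 := (((hasDerivAt_pow (k + 1) u).const_mul p0).div_const ((k : ℝ) + 1))
    have h2 := (((hasDerivAt_pow (k + 2) u).const_mul p1).div_const ((k : ℝ) + 2))
    have h3 := (((hasDerivAt_pow (k + 3) u).const_mul p2).div_const ((k : ℝ) + 3))
    refine (((h1.add h2).add h3).const_mul (C ^ k)).congr_deriv ?_
    have hk1 : (k : ℝ) + 1 ≠ 0 := by positivity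
    have hk2 : (k : ℝ) + 2 ≠ 0 := by positivity
    have hk3 : (k : ℝ) + 3 ≠ 0 := by positivity
    have e1 : k + 1 - 1 = k := by omega
    have e2 : k + 2 - 1 = k + 1 := by omega
    have e3 : k + 3 - 1 = k + 2 := by omega
    rw [e1, e2, e3, mul_pow]
    push_cast
    field_simp
    ring
  rw [intervalIntegral.integral_eq_sub_of_hasDerivAt (fun u _ => h u)]
  · simp
  · apply Continuous.intervalIntegrable
    fun_prop

theorem int_left (k : ℕ) (p0 p1 p2 C a m : ℝ) :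
    (∫ t in a..m, (p0 + p1 * (t - a) + p2 * (t - a) ^ 2) * (C * (t - a)) ^ k) =
      C ^ k * (p0 * (m - a) ^ (k + 1) / ((k : ℝ) + 1) + p1 * (m - a) ^ (k + 2) / ((k : ℝ) + 2) +
        p2 * (m - a) ^ (k + 3) / ((k : ℝ) + 3)) := by
  have h := intervalIntegral.integral_comp_sub_right
    (fun u => (p0 + p1 * u + p2 * u ^ 2) * (C * u) ^ k) a (a := a) (b := m)
  rw [h, sub_self, int_pow3]

theorem int_right (k : ℕ) (p0 p1 p2 C b m : ℝ) :
    (∫ t in m..b, (p0 + p1 * (b - t) + p2 * (b - t) ^ 2) * (C * (b - t)) ^ k) =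
      C ^ k * (p0 * (b - m) ^ (k + 1) / ((k : ℝ) + 1) + p1 * (b - m) ^ (k + 2) / ((k : ℝ) + 2) +
        p2 * (b - m) ^ (k + 3) / ((k : ℝ) + 3)) := by
  have h := intervalIntegral.integral_comp_sub_left
    (fun u => (p0 + p1 * u + p2 * u ^ 2) * (C * u) ^ k) b (a := m) (b := b)
  rw [h, sub_self, int_pow3]

theorem split_int (k : ℕ) {a m b : ℝ} (ham : a < m) (hmb : m < b) {g : ℝ → ℝ} {C1 C2 : ℝ}
    (h1 : ∀ s ∈ Ioo a m, g s = C1 * (s - a)) (h2 : ∀ s ∈ Ioo m b, g s = C2 * (b - s))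
    (p : ℝ → ℝ) (hp : Continuous p) :
    (∫ t in a..b, p t * g t ^ k) =
      (∫ t in a..m, p t * (C1 * (t - a)) ^ k) + ∫ t in m..b, p t * (C2 * (b - t)) ^ k := by
  have i1 : IntervalIntegrable (fun t => p t * (C1 * (t - a)) ^ k) volume a m :=
    Continuous.intervalIntegrable (by fun_prop) _ _
  have i2 : IntervalIntegrable (fun t => p t * (C2 * (b - t)) ^ k) volume m b :=
    Continuous.intervalIntegrable (by fun_prop) _ _
  have e1 : EqOn (fun t => p t * (C1 * (t - a)) ^ k) (fun t => p t * g t ^ k) (uIoo a m) := by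
    intro t ht
    rw [uIoo_of_le ham.le] at ht
    simp only [h1 t ht]
  have e2 : EqOn (fun t => p t * (C2 * (b - t)) ^ k) (fun t => p t * g t ^ k) (uIoo m b) := by
    intro t ht
    rw [uIoo_of_le hmb.le] at ht
    simp only [h2 t ht]
  rw [intervalIntegral.integral_congr_uIoo e1, intervalIntegral.integral_congr_uIoo e2,
    intervalIntegral.integral_add_adjacent_intervals (i1.congr_uIoo e1) (i2.congr_uIoo e2)]

theorem moments (k : ℕ) {C x H : ℝ} (hH : C * x = H) (p0 p1 p2 : ℝ) :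
    C ^ k * (p0 * x ^ (k + 1) / ((k : ℝ) + 1) + p1 * x ^ (k + 2) / ((k : ℝ) + 2) +
        p2 * x ^ (k + 3) / ((k : ℝ) + 3)) =
      H ^ k * (p0 * x / ((k : ℝ) + 1) + p1 * x ^ 2 / ((k : ℝ) + 2) +
        p2 * x ^ 3 / ((k : ℝ) + 3)) := by
  rw [← hH, mul_pow]
  ring

theorem gap_id (κ G a x y : ℝ) (h1 : κ + 1 ≠ 0) (h2 : κ + 2 ≠ 0) (h3 : κ + 3 ≠ 0) :
    (G * (1 * (x + y) / (κ + 1) + 0 * (x + y) ^ 2 / (κ + 2) + 0 * (x + y) ^ 3 / (κ + 3))) *
        (G * ((a + x + y) ^ 2 * (x + y) / (κ + 1) +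
          (-2 * (a + x + y)) * (x + y) ^ 2 / (κ + 2) + 1 * (x + y) ^ 3 / (κ + 3))) -
      (G * ((a + x + y) * (x + y) / (κ + 1) + (-1) * (x + y) ^ 2 / (κ + 2) +
        0 * (x + y) ^ 3 / (κ + 3))) ^ 2 =
    ((G * (1 * x / (κ + 1) + 0 * x ^ 2 / (κ + 2) + 0 * x ^ 3 / (κ + 3)) +
        G * (1 * y / (κ + 1) + 0 * y ^ 2 / (κ + 2) + 0 * y ^ 3 / (κ + 3))) *
      (G * (a ^ 2 * x / (κ + 1) + (2 * a) * x ^ 2 / (κ + 2) + 1 * x ^ 3 / (κ + 3)) +
        G * ((a + x + y) ^ 2 * y / (κ + 1) + (-2 * (a + x + y)) * y ^ 2 / (κ + 2) +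
          1 * y ^ 3 / (κ + 3))) -
      (G * (a * x / (κ + 1) + 1 * x ^ 2 / (κ + 2) + 0 * x ^ 3 / (κ + 3)) +
        G * ((a + x + y) * y / (κ + 1) + (-1) * y ^ 2 / (κ + 2) +
          0 * y ^ 3 / (κ + 3))) ^ 2) +
    G ^ 2 * (2 * κ / ((κ + 1) ^ 2 * (κ + 2) ^ 2 * (κ + 3)) * (x * y * (x + y) ^ 2)) := by
  field_simp
  ring

end TentAux

theorem tent_eq (k : ℕ) (hk : 1 ≤ k) {a b c : ℝ} (hab : a < b) (hc : 0 < c) {g : ℝ → ℝ}
    (hconc : ConcaveOn ℝ (Icc a b) g) (hpos : ∀ s ∈ Icc a b, 0 ≤ g s)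
    (hlev : ∀ t : ℝ, 0 < t → t < c * (b - a) →
      volume {s | s ∈ Icc a b ∧ t < g s} = ENNReal.ofReal ((b - a) - t / c))
    (hvar : (∫ t in a..b, (c * (b - t)) ^ k) * (∫ t in a..b, t ^ 2 * (c * (b - t)) ^ k) -
        (∫ t in a..b, t * (c * (b - t)) ^ k) ^ 2 ≤
      (∫ t in a..b, g t ^ k) * (∫ t in a..b, t ^ 2 * g t ^ k) - (∫ t in a..b, t * g t ^ k) ^ 2) :
    (∀ s ∈ Ioo a b, g s = c * (b - s)) ∨ ∀ s ∈ Ioo a b, g s = c * (s - a) := by
  have hL : 0 < b - a := by linarith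
  have hH : 0 < c * (b - a) := mul_pos hc hL
  obtain ⟨m, hm, h1, h2⟩ := TentAux.tent_shape hab hH hconc hpos (by
    intro t ht0 ht1
    rw [hlev t ht0 ht1]
    congr 1
    field_simp)
  rcases hm.1.eq_or_lt with rfl | ham
  · left
    intro s hs
    rw [h2 s hs]
    field_simp
  rcases hm.2.eq_or_lt with rfl | hmb
  · right
    intro s hs
    rw [h1 s hs]
    field_simp
  exfalso
  obtain ⟨x, hx⟩ : ∃ x, x = m - a := ⟨_, rfl⟩
  obtain ⟨y, hy⟩ : ∃ y, y = b - m := ⟨_, rfl⟩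
  have hx0 : 0 < x := by rw [hx]; linarith
  have hy0 : 0 < y := by rw [hy]; linarith
  have hb : b = a + x + y := by rw [hx, hy]; ring
  have hLxy : b - a = x + y := by rw [hb]; ring
  have hC1 : (c * (b - a) / x) * x = c * (b - a) := by field_simp
  have hC2 : (c * (b - a) / y) * y = c * (b - a) := by field_simp
  have g1 : ∀ s ∈ Ioo a m, g s = (c * (b - a) / x) * (s - a) := by
    intro s hs
    rw [h1 s hs, hx]
    ring
  have g2 : ∀ s ∈ Ioo m b, g s = (c * (b - a) / y) * (b - s) := by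
    intro s hs
    rw [h2 s hs, hy]
    ring
  -- the tent
  have key : ∀ p0 p1 p2 q0 q1 q2 : ℝ,
      (∀ t, p0 + p1 * (t - a) + p2 * (t - a) ^ 2 = q0 + q1 * (b - t) + q2 * (b - t) ^ 2) →
      (∫ t in a..b, (p0 + p1 * (t - a) + p2 * (t - a) ^ 2) * g t ^ k) =
        (c * (b - a)) ^ k * (p0 * x / ((k : ℝ) + 1) + p1 * x ^ 2 / ((k : ℝ) + 2) +
          p2 * x ^ 3 / ((k : ℝ) + 3)) +
        (c * (b - a)) ^ k * (q0 * y / ((k : ℝ) + 1) + q1 * y ^ 2 / ((k : ℝ) + 2) +
          q2 * y ^ 3 / ((k : ℝ) + 3)) := by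
    intro p0 p1 p2 q0 q1 q2 hpq
    rw [TentAux.split_int k ham hmb g1 g2 _ (by fun_prop), TentAux.int_left, ← hx,
      TentAux.moments k hC1]
    simp_rw [hpq]
    rw [TentAux.int_right, ← hy, TentAux.moments k hC2]
  have keyc : ∀ q0 q1 q2 : ℝ,
      (∫ t in a..b, (q0 + q1 * (b - t) + q2 * (b - t) ^ 2) * (c * (b - t)) ^ k) =
        (c * (b - a)) ^ k * (q0 * (x + y) / ((k : ℝ) + 1) + q1 * (x + y) ^ 2 / ((k : ℝ) + 2) +
          q2 * (x + y) ^ 3 / ((k : ℝ) + 3)) := by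
    intro q0 q1 q2
    rw [TentAux.int_right, TentAux.moments k rfl, hLxy]
  have t0 : (∫ t in a..b, g t ^ k) =
      ∫ t in a..b, (1 + 0 * (t - a) + 0 * (t - a) ^ 2) * g t ^ k := by
    congr 1
    ext t
    ring
  have t1 : (∫ t in a..b, t * g t ^ k) =
      ∫ t in a..b, (a + 1 * (t - a) + 0 * (t - a) ^ 2) * g t ^ k := by
    congr 1
    ext t
    ring
  have t2 : (∫ t in a..b, t ^ 2 * g t ^ k) =
      ∫ t in a..b, (a ^ 2 + (2 * a) * (t - a) + 1 * (t - a) ^ 2) * g t ^ k := by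
    congr 1
    ext t
    ring
  have c0 : (∫ t in a..b, (c * (b - t)) ^ k) =
      ∫ t in a..b, (1 + 0 * (b - t) + 0 * (b - t) ^ 2) * (c * (b - t)) ^ k := by
    congr 1
    ext t
    ring
  have c1 : (∫ t in a..b, t * (c * (b - t)) ^ k) =
      ∫ t in a..b, (b + (-1) * (b - t) + 0 * (b - t) ^ 2) * (c * (b - t)) ^ k := by
    congr 1
    ext t
    ring
  have c2 : (∫ t in a..b, t ^ 2 * (c * (b - t)) ^ k) =
      ∫ t in a..b, (b ^ 2 + (-2 * b) * (b - t) + 1 * (b - t) ^ 2) * (c * (b - t)) ^ k := by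
    congr 1
    ext t
    ring
  have k0 := key 1 0 0 1 0 0 (by intro t; ring)
  have k1 := key a 1 0 b (-1) 0 (by intro t; ring)
  have k2 := key (a ^ 2) (2 * a) 1 (b ^ 2) (-2 * b) 1 (by intro t; ring)
  rw [t0, t1, t2, c0, c1, c2, k0, k1, k2, keyc, keyc, keyc] at hvar
  have hG : 0 < (c * (b - a)) ^ k := pow_pos hH k
  obtain ⟨G, hGd⟩ : ∃ G, G = (c * (b - a)) ^ k := ⟨_, rfl⟩
  rw [← hGd] at hvar hG
  rw [hb] at hvar
  have hk0 : (0 : ℝ) < k := by exact_mod_cast hk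
  rw [TentAux.gap_id (k : ℝ) G a x y (by positivity) (by positivity) (by positivity)] at hvar
  have hgap : 0 < G ^ 2 * (2 * (k : ℝ) / (((k : ℝ) + 1) ^ 2 * ((k : ℝ) + 2) ^ 2 * ((k : ℝ) + 3)) *
      (x * y * (x + y) ^ 2)) := by positivity
  linarith

end Vale.Agent.P254.Perm
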