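import Vale.Agent.P254.Perm.OneEqCore
import Vale.Agent.P254.Perm.DecEq598
import Vale.Agent.P254.Perm.Tent
import Vale.Agent.P254.Perm.RearrP863

/-!
P254, permutation invariant bodies: the equality case of the one-dimensional inequality (helper898).
-/

open MeasureTheory Set

namespace Vale.Agent.P254.Perm

/-- [Q1] equality case of the one-dimensional inequality, from `dec_eq`, `tent_eq`, `rearr'` -/
theorem one_dim_eq (k : ℕ) (hk : 1 ≤ k) {a b : ℝ} (hab : a < b) {g : ℝ → ℝ}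
    (hconc : ConcaveOn ℝ (Icc a b) g) (hpos : ∀ s ∈ Icc a b, 0 ≤ g s)
    (hM : 0 < ∫ t in a..b, g t ^ k)
    (heq : kap k * (∫ t in a..b, g t ^ k) ^ (k + 4) ≤
      ((∫ t in a..b, g t ^ k) * (∫ t in a..b, t ^ 2 * g t ^ k) -
        (∫ t in a..b, t * g t ^ k) ^ 2) * (∫ t in a..b, g t ^ (k + 2)) ^ k) :
    ∃ c : ℝ, 0 < c ∧ ((∀ s ∈ Ioo a b, g s = c * (b - s)) ∨ ∀ s ∈ Ioo a b, g s = c * (s - a)) :=
  OneEq898.one_dim_eq_of k
    (fun hb _ h1 h2 h3 h4 h5 => dec_eq k hk hb h1 h2 h3 h4 h5)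
    (fun hab hc _ h1 h2 h3 h4 => tent_eq k hk hab hc h1 h2 h3 h4)
    (fun hab _ h1 h2 => rearr' k hk hab h1 h2)
    hab hconc hpos hM heq

end Vale.Agent.P254.Perm
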