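import Vale.Agent.P254.Perm.Defs

/-! Symmetric integrals: `sym_mean`, `sym_sq`. -/

open MeasureTheory Set

namespace Vale.Agent.P254.Perm

namespace SymInt

/-- A linear involution preserves Lebesgue measure. -/
theorem mp_of_inv {n : ℕ} (T : (Fin n → ℝ) →ₗ[ℝ] (Fin n → ℝ)) (hT : ∀ x, T (T x) = x) :
    MeasurePreserving T (volume : Measure (Fin n → ℝ)) volume := by
  have h1 : LinearMap.det T * LinearMap.det T = 1 := by
    rw [← LinearMap.det_comp]
    have : T.comp T = LinearMap.id := LinearMap.ext fun x => hT x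
    rw [this, LinearMap.det_id]
  have h0 : LinearMap.det T ≠ 0 := by
    intro h
    rw [h] at h1
    simp at h1
  have h2 : |(LinearMap.det T)⁻¹| = 1 := by
    have h3 : |LinearMap.det T| * |LinearMap.det T| = 1 := by
      rw [← abs_mul, h1, abs_one]
    have h4 := abs_nonneg (LinearMap.det T)
    have h5 : |LinearMap.det T| = 1 := by nlinarith
    rw [abs_inv, h5, inv_one]
  refine ⟨(LinearMap.continuous_of_finiteDimensional T).measurable, ?_⟩
  rw [Measure.map_linearMap_addHaar_eq_smul_addHaar volume h0, h2, ENNReal.ofReal_one, one_smul]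

/-- Change of variables by a linear involution which preserves `K`. -/
theorem int_inv {n : ℕ} (T : (Fin n → ℝ) →ₗ[ℝ] (Fin n → ℝ)) (hT : ∀ x, T (T x) = x)
    {K : Set (Fin n → ℝ)} (hK : ∀ x ∈ K, T x ∈ K) (f : (Fin n → ℝ) → ℝ) :
    ∫ x in K, f (T x) = ∫ x in K, f x := by
  have hmp := mp_of_inv T hT
  have hc : Continuous T := LinearMap.continuous_of_finiteDimensional T
  let e : (Fin n → ℝ) ≃ᵐ (Fin n → ℝ) :=
    { toFun := T
      invFun := T
      left_inv := hT
      right_inv := hT
      measurable_toFun := hc.measurable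
      measurable_invFun := hc.measurable }
  have hpre : T ⁻¹' K = K := by
    ext x
    constructor
    · intro hx
      have := hK _ hx
      rwa [hT] at this
    · exact fun hx => hK x hx
  have h := hmp.setIntegral_preimage_emb e.measurableEmbedding f K
  rw [hpre] at h
  exact h

/-- The reflection which exchanges `x i` and `-(x₁ + ⋯ + xₙ)`. -/
def refl {n : ℕ} (i : Fin n) : (Fin n → ℝ) →ₗ[ℝ] (Fin n → ℝ) where
  toFun x := Function.update x i (-∑ j, x j)
  map_add' x y := by
    ext k
    by_cases hk : k = i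
    · subst hk
      simp only [Pi.add_apply, Function.update_self, Finset.sum_add_distrib, neg_add]
    · simp only [Pi.add_apply, Function.update_of_ne hk]
  map_smul' c x := by
    ext k
    by_cases hk : k = i
    · subst hk
      simp only [Pi.smul_apply, Function.update_self, RingHom.id_apply, smul_eq_mul,
        ← Finset.mul_sum, mul_neg]
    · simp only [Pi.smul_apply, Function.update_of_ne hk, RingHom.id_apply]

theorem refl_apply {n : ℕ} (i : Fin n) (x : Fin n → ℝ) :
    refl i x = Function.update x i (-∑ j, x j) := rfl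

theorem refl_inv {n : ℕ} (i : Fin n) (x : Fin n → ℝ) : refl i (refl i x) = x := by
  rw [refl_apply, refl_apply]
  have h : ∑ j, Function.update x i (-∑ j, x j) j = -x i := by
    rw [Finset.sum_update_of_mem (Finset.mem_univ i)]
    have h2 := Finset.sum_erase_add Finset.univ x (Finset.mem_univ i)
    rw [Finset.sdiff_singleton_eq_erase]
    linarith
  rw [h, neg_neg, Function.update_idem, Function.update_eq_self]

/-- The transposition of two coordinates. -/
def tr {n : ℕ} (i j : Fin n) : (Fin n → ℝ) →ₗ[ℝ] (Fin n → ℝ) where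
  toFun x k := x (Equiv.swap i j k)
  map_add' x y := by
    ext k
    simp only [Pi.add_apply]
  map_smul' c x := by
    ext k
    simp only [Pi.smul_apply, RingHom.id_apply]

theorem tr_inv {n : ℕ} (i j : Fin n) (x : Fin n → ℝ) : tr i j (tr i j x) = x := by
  ext k
  change x (Equiv.swap i j (Equiv.swap i j k)) = x k
  rw [Equiv.swap_apply_self]

theorem int_tr {n : ℕ} {K : Set (Fin n → ℝ)} (hs : Sym K) (i j : Fin n) (f : ℝ → ℝ) :
    ∫ x in K, f (x i) = ∫ x in K, f (x j) := by
  have h := int_inv (tr i j) (tr_inv i j) (K := K) (fun x hx => hs.1 (Equiv.swap i j) x hx)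
    (fun x => f (x i))
  rw [← h]
  refine integral_congr_ae (Filter.Eventually.of_forall fun x => ?_)
  change f (x (Equiv.swap i j i)) = f (x j)
  rw [Equiv.swap_apply_left]

end SymInt

theorem sym_mean {n : ℕ} {K : Set (Fin n → ℝ)} (hK : IsCompact K) (hs : Sym K) (i : Fin n) :
    ∫ x in K, x i = 0 := by
  have hint : ∀ j : Fin n, Integrable (fun x : Fin n → ℝ => x j) (volume.restrict K) :=
    fun j => (continuous_apply j).continuousOn.integrableOn_compact hK
  have h := SymInt.int_inv (SymInt.refl i) (SymInt.refl_inv i) (K := K)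
    (fun x hx => hs.2 i x hx) (fun x => x i)
  have h1 : ∀ x : Fin n → ℝ, SymInt.refl i x i = -∑ j, x j := by
    intro x
    rw [SymInt.refl_apply, Function.update_self]
  simp only [h1] at h
  rw [integral_neg, integral_finsetSum _ fun j _ => hint j] at h
  have h2 : ∀ j ∈ Finset.univ, ∫ x in K, x j = ∫ x in K, x i :=
    fun j _ => SymInt.int_tr hs j i (fun t => t)
  rw [Finset.sum_congr rfl h2, Finset.sum_const, Finset.card_univ, Fintype.card_fin,
    nsmul_eq_mul] at h
  have h3 : ((n : ℝ) + 1) * ∫ x in K, x i = 0 := by linarith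
  rcases mul_eq_zero.1 h3 with h4 | h4
  · have : (0 : ℝ) ≤ n := Nat.cast_nonneg n
    linarith
  · exact h4

theorem sym_sq {n : ℕ} {K : Set (Fin n → ℝ)} (hs : Sym K) (i j : Fin n) :
    ∫ x in K, x i ^ 2 = ∫ x in K, x j ^ 2 :=
  SymInt.int_tr hs i j (fun t => t ^ 2)

end Vale.Agent.P254.Perm
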