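import Vale.Agent.P254.Perm.Defs2

open MeasureTheory Set

namespace Vale.Agent.P254.Perm

/-- A compact convex subset of `ℝ¹` with positive volume is a simplex. -/
theorem simplex_of_one {K : Set (Fin 1 → ℝ)} (hc : Convex ℝ K) (hK : IsCompact K)
    (hvol : 0 < (volume K).toReal) : IsSimplex K := by
  have hne : K.Nonempty := by
    by_contra h
    rw [not_nonempty_iff_eq_empty] at h
    rw [h] at hvol
    simp at hvol
  have hcont : Continuous (fun x : Fin 1 → ℝ => x 0) := continuous_apply 0
  obtain ⟨p, hp, hpm⟩ := hK.exists_isMinOn hne hcont.continuousOn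
  obtain ⟨q, hq, hqm⟩ := hK.exists_isMaxOn hne hcont.continuousOn
  have hext : ∀ x y : Fin 1 → ℝ, x 0 = y 0 → x = y := fun x y h => by
    funext i
    rw [Subsingleton.elim i 0]
    exact h
  have hpq : p ≠ q := by
    rintro rfl
    have hsub : K ⊆ {p} := fun x hx => by
      have h1 : p 0 ≤ x 0 := hpm hx
      have h2 : x 0 ≤ p 0 := hqm hx
      exact hext x p (le_antisymm h2 h1)
    have h0 : volume K = 0 := measure_mono_null hsub (measure_singleton p)
    rw [h0] at hvol
    simp at hvol
  refine ⟨![p, q], affineIndependent_of_ne ℝ hpq, ?_⟩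
  have hr : range ![p, q] = {p, q} := by
    rw [Matrix.range_cons, Matrix.range_cons, Matrix.range_empty, union_empty]
    rfl
  rw [hr, convexHull_pair]
  refine Subset.antisymm (fun x hx => ?_) (hc.segment_subset hp hq)
  have h1 : p 0 ≤ x 0 := hpm hx
  have h2 : x 0 ≤ q 0 := hqm hx
  have h3 : p 0 < q 0 := lt_of_le_of_ne (h1.trans h2) fun h => hpq (hext p q h)
  have h4 : 0 < q 0 - p 0 := sub_pos.2 h3
  refine ⟨(q 0 - x 0) / (q 0 - p 0), (x 0 - p 0) / (q 0 - p 0), div_nonneg (by linarith) h4.le,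
    div_nonneg (by linarith) h4.le, ?_, ?_⟩
  · rw [← add_div]
    rw [show q 0 - x 0 + (x 0 - p 0) = q 0 - p 0 by ring]
    exact div_self h4.ne'
  · apply hext
    simp only [Pi.add_apply, Pi.smul_apply, smul_eq_mul]
    field_simp
    ring

/-- [Q4] -/
theorem eq_one : EqBd 1 := fun _ hc hK _ hvol _ _ => simplex_of_one hc hK hvol

end Vale.Agent.P254.Perm
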