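import Vale.Agent.P254.Perm.Defs

/-!
P254/Perm: the induction step `Bd m → Bd (m + 1)` (from the statement about slices).
-/

open MeasureTheory Set

namespace Vale.Agent.P254.Perm

/-- the shear `x ↦ (x 0, x_{i+1} + x 0 / (m + 1))` -/
noncomputable def shear (m : ℕ) : (Fin (m + 1) → ℝ) ≃ₜ ℝ × (Fin m → ℝ) where
  toFun x := (x 0, fun i => x i.succ + x 0 / (m + 1))
  invFun p := Fin.cons p.1 (fun i => p.2 i - p.1 / (m + 1))
  left_inv x := by
    funext j
    refine Fin.cases ?_ (fun i => ?_) j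
    · simp
    · simp
  right_inv p := by
    ext1
    · simp
    · funext i; simp
  continuous_toFun := by fun_prop
  continuous_invFun := by
    refine continuous_pi fun j => ?_
    refine Fin.cases ?_ (fun i => ?_) j
    · simpa using continuous_fst
    · simp only [Fin.cons_succ]; fun_prop

@[simp] theorem shear_fst (m : ℕ) (x : Fin (m + 1) → ℝ) : (shear m x).1 = x 0 := rfl

@[simp] theorem shear_snd (m : ℕ) (x : Fin (m + 1) → ℝ) (i : Fin m) :
    (shear m x).2 i = x i.succ + x 0 / (m + 1) := rfl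

theorem shear_symm_zero (m : ℕ) (p : ℝ × (Fin m → ℝ)) : (shear m).symm p 0 = p.1 := rfl

theorem shear_symm_succ (m : ℕ) (p : ℝ × (Fin m → ℝ)) (i : Fin m) :
    (shear m).symm p i.succ = p.2 i - p.1 / (m + 1) := rfl

theorem mp_shear (m : ℕ) : MeasurePreserving (shear m) volume volume := by
  have h1 : MeasurePreserving (MeasurableEquiv.piFinSuccAbove (fun _ : Fin (m + 1) => ℝ) 0)
      volume volume := volume_preserving_piFinSuccAbove (fun _ : Fin (m + 1) => ℝ) 0
  have h2 : MeasurePreserving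
      (fun p : ℝ × (Fin m → ℝ) => (p.1, (p.2 + fun _ => p.1 / ((m : ℝ) + 1))))
      (volume.prod volume) (volume.prod volume) := by
    refine MeasurePreserving.skew_product (f := id)
      (g := fun (s : ℝ) (z : Fin m → ℝ) => z + fun _ => s / ((m : ℝ) + 1))
      (MeasurePreserving.id _) ?_ ?_
    · exact Continuous.measurable (by fun_prop)
    · exact Filter.Eventually.of_forall fun s =>
        (measurePreserving_add_right (volume : Measure (Fin m → ℝ)) _).map_eq
  have h3 := h2.comp h1
  exact h3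

theorem symm_affine (m : ℕ) (p q : ℝ × (Fin m → ℝ)) (a b : ℝ) :
    (shear m).symm (a • p + b • q) = a • (shear m).symm p + b • (shear m).symm q := by
  funext j
  refine Fin.cases ?_ (fun i => ?_) j
  · simp [shear_symm_zero]
  · simp only [shear_symm_succ, Pi.add_apply, Pi.smul_apply, smul_eq_mul, Prod.fst_add,
      Prod.snd_add, Prod.smul_fst, Prod.smul_snd]
    ring

theorem gam_succ (m : ℕ) (hm : 1 ≤ m) :
    gam m * kap m = gam (m + 1) * (1 - 1 / ((m : ℝ) + 1) ^ 2) ^ m := by
  have hm' : (0 : ℝ) < m := by exact_mod_cast hm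
  have e1 : (1 : ℝ) - 1 / ((m : ℝ) + 1) ^ 2 = (m * (m + 2)) / ((m : ℝ) + 1) ^ 2 := by
    field_simp
    ring
  rw [e1, div_pow, mul_pow]
  unfold gam kap
  rw [Nat.factorial_succ]
  push_cast
  have a1 : ((m : ℝ) + 1 + 1) = (m : ℝ) + 2 := by ring
  have a2 : ((m : ℝ) + 1 + 2) = (m : ℝ) + 3 := by ring
  rw [a1, a2, mul_pow ((m : ℝ) + 1) _ 2]
  have b1 : ((m : ℝ) + 1) ^ (2 * m) = (((m : ℝ) + 1) ^ m) ^ 2 := by rw [mul_comm, pow_mul]
  have b2 : (((m : ℝ) + 1) ^ 2) ^ m = (((m : ℝ) + 1) ^ m) ^ 2 := by rw [← pow_mul, ← pow_mul, mul_comm]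
  have b3 : ((m : ℝ) + 2) ^ (2 * (m + 1)) = (((m : ℝ) + 2) ^ m) ^ 2 * ((m : ℝ) + 2) ^ 2 := by
    rw [← pow_mul, ← pow_add]; congr 1; ring
  rw [b1, b2, b3, pow_succ ((m : ℝ) + 3) m, pow_succ ((m : ℝ) + 1) m,
    show ((m : ℝ) + 1) ^ (m + 3) = ((m : ℝ) + 1) ^ m * ((m : ℝ) + 1) ^ 3 from pow_add _ _ _]
  have c1 : ((m : ℝ) + 1) ^ m ≠ 0 := by positivity
  have c2 : ((m : ℝ) + 2) ^ m ≠ 0 := by positivity
  have c3 : ((m : ℝ) + 3) ^ m ≠ 0 := by positivity
  have c4 : (m : ℝ) ^ m ≠ 0 := by positivity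
  field_simp

/-- the induction step, from the statements `slices`, `sym_mean`, `sym_sq` -/
theorem bd_succ_of (m : ℕ) (hm : 1 ≤ m)
    (hsl : ∀ L : Set (ℝ × (Fin m → ℝ)), Convex ℝ L → IsCompact L →
      (∀ s, Sym {y | (s, y) ∈ L}) → ∀ i : Fin m,
        (∫ p in L, p.2 i) = 0 ∧ (∫ p in L, p.1 * p.2 i) = 0 ∧
        (∫ p in L, p.2 i ^ 2) ^ m *
          ((volume L).toReal * (∫ p in L, p.1 ^ 2) - (∫ p in L, p.1) ^ 2) ≤
          gam m * kap m * (volume L).toReal ^ (m + 4))
    (hmean : ∀ K : Set (Fin (m + 1) → ℝ), IsCompact K → Sym K → ∀ i, ∫ x in K, x i = 0)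
    (hsq : ∀ K : Set (Fin (m + 1) → ℝ), Sym K → ∀ i j, ∫ x in K, x i ^ 2 = ∫ x in K, x j ^ 2) :
    Bd (m + 1) := by
  intro K hc hK hs i₀
  have hm' : (0 : ℝ) < m := by exact_mod_cast hm
  rw [hsq K hs i₀ 0]
  set i : Fin m := ⟨0, hm⟩ with hi
  set L : Set (ℝ × (Fin m → ℝ)) := {p | (shear m).symm p ∈ K} with hLdef
  have hpre : (shear m) ⁻¹' L = K := by
    ext x
    simp [hLdef]
  have hLimg : L = (shear m) '' K := by
    rw [Homeomorph.image_eq_preimage_symm]; rfl
  have hLc : Convex ℝ L := by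
    intro p hp q hq a b ha hb hab
    show (shear m).symm (a • p + b • q) ∈ K
    rw [symm_affine]
    exact hc hp hq ha hb hab
  have hLK : IsCompact L := by
    rw [hLimg]; exact hK.image (shear m).continuous
  have hLs : ∀ s, Sym {y | (s, y) ∈ L} := by
    intro s
    constructor
    · intro σ y hy
      -- extend the permutation by fixing 0
      have h1 := hs.1 (Equiv.Perm.decomposeFin.symm (0, σ)) _ hy
      show (shear m).symm (s, fun i => y (σ i)) ∈ K
      convert h1 using 1
      funext j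
      refine Fin.cases ?_ (fun k => ?_) j
      · rw [shear_symm_zero]
        simp [shear_symm_zero]
      · rw [shear_symm_succ]
        rw [Equiv.Perm.decomposeFin_symm_apply_succ]
        simp [shear_symm_succ]
    · intro k y hy
      have h1 := hs.2 k.succ _ hy
      show (shear m).symm (s, Function.update y k (-∑ j, y j)) ∈ K
      convert h1 using 1
      funext j
      refine Fin.cases ?_ (fun l => ?_) j
      · rw [shear_symm_zero, Function.update_of_ne (Fin.succ_ne_zero k).symm, shear_symm_zero]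
      · rw [shear_symm_succ]
        dsimp only
        by_cases hlk : l = k
        · subst hlk
          rw [Function.update_self, Function.update_self, Fin.sum_univ_succ, shear_symm_zero]
          simp only [shear_symm_succ, Finset.sum_sub_distrib, Finset.sum_const, Finset.card_univ,
            Fintype.card_fin, nsmul_eq_mul]
          field_simp
          ring
        · rw [Function.update_of_ne hlk, Function.update_of_ne (fun h => hlk (Fin.succ_injective _ h)),
            shear_symm_succ]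
  obtain ⟨-, h2, h3⟩ := hsl L hLc hLK hLs i
  have tr : ∀ φ : ℝ × (Fin m → ℝ) → ℝ, ∫ p in L, φ p = ∫ x in K, φ (shear m x) := by
    intro φ
    rw [← (mp_shear m).setIntegral_preimage_emb (shear m).measurableEmbedding φ L, hpre]
  have hvol : volume L = volume K := by
    rw [← hpre, (mp_shear m).measure_preimage hLK.measurableSet.nullMeasurableSet]
  have hint : ∀ φ : (Fin (m + 1) → ℝ) → ℝ, Continuous φ → IntegrableOn φ K := fun φ hφ =>
    hφ.continuousOn.integrableOn_compact hK
  set W : ℝ := ∫ x in K, x 0 ^ 2 with hW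
  set v : ℝ := (volume K).toReal with hv
  have e0 : ∫ p in L, p.1 = 0 := by
    rw [tr]
    simpa using hmean K hK hs 0
  have e1 : ∫ p in L, p.1 ^ 2 = W := by rw [tr]; rfl
  have e2 : ∫ x in K, x 0 * x i.succ = -W / (m + 1) := by
    rw [tr] at h2
    have : ∫ x in K, (shear m x).1 * (shear m x).2 i =
        (∫ x in K, x 0 * x i.succ) + (∫ x in K, x 0 ^ 2) / (m + 1) := by
      rw [← integral_div, ← integral_add]
      · refine integral_congr_ae (Filter.Eventually.of_forall fun x => ?_)
        simp only [shear_fst, shear_snd]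
        ring
      · exact hint _ (by fun_prop)
      · exact hint _ (by fun_prop)
    rw [this, ← hW] at h2
    have : (m : ℝ) + 1 ≠ 0 := by positivity
    field_simp
    field_simp at h2
    linarith
  have e3 : ∫ p in L, p.2 i ^ 2 = W * (1 - 1 / ((m : ℝ) + 1) ^ 2) := by
    rw [tr]
    have : ∫ x in K, (shear m x).2 i ^ 2 = (∫ x in K, x i.succ ^ 2) +
        (2 / ((m : ℝ) + 1)) * (∫ x in K, x 0 * x i.succ) +
        (1 / ((m : ℝ) + 1) ^ 2) * (∫ x in K, x 0 ^ 2) := by
      rw [← integral_const_mul, ← integral_const_mul, ← integral_add, ← integral_add]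
      · refine integral_congr_ae (Filter.Eventually.of_forall fun x => ?_)
        have hm1 : (m : ℝ) + 1 ≠ 0 := by positivity
        simp only [shear_snd]
        field_simp
        ring
      · exact hint _ (by fun_prop)
      · exact hint _ (by fun_prop)
      · exact hint _ (by fun_prop)
      · exact hint _ (by fun_prop)
    rw [this, hsq K hs i.succ 0, ← hW, e2]
    have : (m : ℝ) + 1 ≠ 0 := by positivity
    field_simp
    ring
  rw [e0, e1, e3, hvol, ← hv, gam_succ m hm, mul_pow] at h3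
  have hlam : (0 : ℝ) < (1 - 1 / ((m : ℝ) + 1) ^ 2) ^ m := by
    apply pow_pos
    have : (1 : ℝ) < ((m : ℝ) + 1) ^ 2 := by nlinarith
    rw [sub_pos, div_lt_one (by positivity)]
    exact this
  have hv0 : 0 ≤ v := ENNReal.toReal_nonneg
  have h4 : W ^ (m + 1) * v ≤ gam (m + 1) * v ^ (m + 4) := by
    have h5 : (W ^ (m + 1) * v) * (1 - 1 / ((m : ℝ) + 1) ^ 2) ^ m ≤
        (gam (m + 1) * v ^ (m + 4)) * (1 - 1 / ((m : ℝ) + 1) ^ 2) ^ m := by
      calc _ = W ^ m * (1 - 1 / ((m : ℝ) + 1) ^ 2) ^ m * (v * W - 0 ^ 2) := by ring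
        _ ≤ _ := h3
        _ = _ := by ring
    exact le_of_mul_le_mul_right h5 hlam
  rcases hv0.eq_or_lt with h0 | h0
  · have hK0 : volume K = 0 := by
      rcases (ENNReal.toReal_eq_zero_iff _).1 h0.symm with h | h
      · exact h
      · exact absurd h hK.measure_lt_top.ne
    have hW0 : W = 0 := by
      rw [hW, Measure.restrict_eq_zero.2 hK0, integral_zero_measure]
    rw [hW0, ← h0]
    simp
  · have h6 : gam (m + 1) * v ^ (m + 4) = gam (m + 1) * v ^ (m + 1 + 2) * v := by ring
    rw [h6] at h4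
    exact le_of_mul_le_mul_right h4 h0

end Vale.Agent.P254.Perm
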