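import Vale.Agent.P254.Perm.SlicesCore
import Vale.Agent.P254.Perm.OneDim
import Vale.Agent.P254.Perm.Sec956
import Vale.Agent.P254.Perm.SymInt

/-!
P254, permutation invariant bodies: the second moments of a body in `ℝ × ℝ^m` with symmetric
slices.
-/

open MeasureTheory Set

namespace Vale.Agent.P254.Perm

/-- [S2] -/
theorem slices (m : ℕ) (hm : 1 ≤ m) {L : Set (ℝ × (Fin m → ℝ))} (hc : Convex ℝ L)
    (hL : IsCompact L) (hs : ∀ s, Sym {y | (s, y) ∈ L}) (hB : Bd m) (i : Fin m) :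
    (∫ p in L, p.2 i) = 0 ∧ (∫ p in L, p.1 * p.2 i) = 0 ∧
      (∫ p in L, p.2 i ^ 2) ^ m *
        ((volume L).toReal * (∫ p in L, p.1 ^ 2) - (∫ p in L, p.1) ^ 2) ≤
        gam m * kap m * (volume L).toReal ^ (m + 4) :=
  slices_of hm (sec m hm) (one_dim m hm) sym_mean hc hL hs hB i

end Vale.Agent.P254.Perm
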