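import Vale.Agent.P254.Perm.BdOne
import Vale.Agent.P254.Perm.BdSucc
import Vale.Agent.P254.Perm.Slices

/-!
P254, permutation invariant bodies: the bound for the second moment in all dimensions.
-/

open MeasureTheory Set

namespace Vale.Agent.P254.Perm

/-- [B3] -/
theorem bd_succ (m : ℕ) (hm : 1 ≤ m) (hB : Bd m) : Bd (m + 1) :=
  bd_succ_of m hm (fun _ a b c i => slices m hm a b c hB i) (fun _ a b i => sym_mean a b i)
    (fun _ a i j => sym_sq a i j)

theorem bd_all (m : ℕ) (hm : 1 ≤ m) : Bd m := by
  induction m, hm using Nat.le_induction with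
  | base => exact bd_one
  | succ m hm ih => exact bd_succ m hm ih

end Vale.Agent.P254.Perm
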