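import Vale.Agent.P254.Perm.Defs
import Mathlib.Analysis.Convex.Continuous
import Mathlib.Analysis.Convex.Deriv

/-!
P254, permutation invariant bodies: the one-dimensional inequality for decreasing concave
functions. The proof uses right derivatives only.
-/

open MeasureTheory Set Filter Topology

namespace Vale.Agent.P254.Perm

/-- elementary inequality -/
theorem elem (k : ℕ) (hk : 1 ≤ k) {h : ℝ} (h0 : 0 ≤ h) (h1 : (k : ℝ) * h ≤ 4) :
    (1 - k * h / 4) ^ 2 * (1 + h) ^ (k + 1) ≤ 1 + (k + 1) * h := by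
  have hk0 : (1 : ℝ) ≤ k := by exact_mod_cast hk
  have hpos : ∀ x ∈ Icc 0 h, 0 < 1 + ((k : ℝ) + 1) * x := fun x hx => by
    have := hx.1
    positivity
  have key := image_le_of_deriv_right_le_deriv_boundary
    (f := fun x => (1 - k * x / 4) ^ 2 * (1 + x) ^ (k + 1) / (1 + (k + 1) * x))
    (f' := fun x => ((2 * (1 - k * x / 4) * (-(k / 4)) * (1 + x) ^ (k + 1) +
      (1 - k * x / 4) ^ 2 * ((k + 1) * (1 + x) ^ k)) * (1 + (k + 1) * x) -
      (1 - k * x / 4) ^ 2 * (1 + x) ^ (k + 1) * (k + 1)) / (1 + (k + 1) * x) ^ 2)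
    (a := 0) (b := h) ?_ ?_
    (B := fun _ => 1) (B' := fun _ => 0) (by simp) continuousOn_const
    (fun x _ => hasDerivWithinAt_const _ _ _) ?_ (right_mem_Icc.2 h0)
  · rwa [div_le_one (hpos h (right_mem_Icc.2 h0))] at key
  · refine ContinuousOn.div (by fun_prop) (by fun_prop) fun x hx => (hpos x hx).ne'
  · intro x hx
    have h2 : HasDerivAt (fun x : ℝ => 1 - k * x / 4) (-(k / 4)) x := by
      have := (((hasDerivAt_id x).const_mul (k : ℝ)).div_const 4).const_sub 1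
      simpa using this
    have h3 : HasDerivAt (fun x : ℝ => 1 + x) 1 x := by
      simpa using (hasDerivAt_id x).const_add 1
    have h4 : HasDerivAt (fun x : ℝ => 1 + ((k : ℝ) + 1) * x) (k + 1) x := by
      simpa using ((hasDerivAt_id x).const_mul ((k : ℝ) + 1)).const_add 1
    have h5 := ((h2.pow 2).mul (h3.pow (k + 1))).div h4 (hpos x (Ico_subset_Icc_self hx)).ne'
    refine HasDerivAt.hasDerivWithinAt (h5.congr_deriv ?_)
    simp only [Pi.pow_apply, Pi.mul_apply, Nat.cast_add, Nat.cast_one, Nat.cast_ofNat, Nat.add_one_sub_one, pow_one, mul_one]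
  · intro x hx
    have hx0 := hx.1
    have hkx : (k : ℝ) * x ≤ 4 := by nlinarith [hx.2]
    refine div_nonpos_of_nonpos_of_nonneg ?_ (by positivity)
    have h6 : (2 * (1 - k * x / 4) * (-(k / 4)) * (1 + x) ^ (k + 1) +
      (1 - k * x / 4) ^ 2 * ((k + 1) * (1 + x) ^ k)) * (1 + (k + 1) * x) -
      (1 - k * x / 4) ^ 2 * (1 + x) ^ (k + 1) * (k + 1) =
      -((1 - k * x / 4) * (1 + x) ^ k * (k / 4) *
        (2 - 2 * k * x + (k + 1) * (k + 2) * x ^ 2)) := by ring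
    rw [h6]
    have h7 : 0 ≤ 1 - (k : ℝ) * x / 4 := by linarith
    have h8 : 0 ≤ 2 - 2 * (k : ℝ) * x + (k + 1) * (k + 2) * x ^ 2 := by
      nlinarith [sq_nonneg ((k : ℝ) * x - 1), mul_nonneg (by positivity : (0 : ℝ) ≤ k) (sq_nonneg x),
        sq_nonneg x]
    have h9 : 0 ≤ 1 + x := by linarith
    exact neg_nonpos.2 (mul_nonneg (by positivity) h8)

/-- A function whose right derivative is nonpositive and which is bounded from below by a function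
with limit zero is nonnegative. -/
theorem nonneg_of_rd {b s : ℝ} (hs : s ∈ Ioo 0 b) {φ ψ : ℝ → ℝ} (hc : ContinuousOn φ (Ioo 0 b))
    (hd : ∀ s ∈ Ioo 0 b, ∃ d ≤ 0, HasDerivWithinAt φ d (Ici s) s)
    (hψ : ∀ t ∈ Ioo 0 b, ψ t ≤ φ t) (hl : Tendsto ψ (𝓝[<] b) (𝓝 0)) : 0 ≤ φ s := by
  have hd' : ∀ s, ∃ d, s ∈ Ioo 0 b → (d ≤ 0 ∧ HasDerivWithinAt φ d (Ici s) s) := by
    intro s
    by_cases h : s ∈ Ioo 0 b
    · obtain ⟨d, h1, h2⟩ := hd s h
      exact ⟨d, fun _ => ⟨h1, h2⟩⟩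
    · exact ⟨0, fun h' => absurd h' h⟩
  choose d hd' using hd'
  refine le_of_tendsto hl ?_
  have h1 : Ioo s b ∈ 𝓝[<] b := Ioo_mem_nhdsLT hs.2
  filter_upwards [h1] with t ht
  have hsub : Icc s t ⊆ Ioo 0 b := fun x hx => ⟨hs.1.trans_le hx.1, hx.2.trans_lt ht.2⟩
  have h2 := image_le_of_deriv_right_le_deriv_boundary (f := φ) (f' := d) (a := s) (b := t)
    (hc.mono hsub) (fun x hx => (hd' x (hsub (Ico_subset_Icc_self hx))).2)
    (B := fun _ => φ s) (B' := fun _ => 0) le_rfl continuousOn_const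
    (fun x _ => hasDerivWithinAt_const _ _ _)
    (fun x hx => (hd' x (hsub (Ico_subset_Icc_self hx))).1)
    (right_mem_Icc.2 ht.1.le)
  exact (hψ t ⟨hs.1.trans ht.1, ht.2⟩).trans h2

section Core

variable {b : ℝ} {g : ℝ → ℝ}

/-- The tail integrals. -/
noncomputable def F (b : ℝ) (g : ℝ → ℝ) (j m : ℕ) (s : ℝ) : ℝ := ∫ t in s..b, t ^ j * g t ^ m

theorem anti_pow (hanti : AntitoneOn g (Icc 0 b)) (hnn : ∀ s ∈ Icc 0 b, 0 ≤ g s) (m : ℕ) :
    AntitoneOn (fun t => g t ^ m) (Icc 0 b) := by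
  intro x hx y hy hxy
  exact pow_le_pow_left₀ (hnn y hy) (hanti hx hy hxy) m

theorem ii_pow (hanti : AntitoneOn g (Icc 0 b)) (hnn : ∀ s ∈ Icc 0 b, 0 ≤ g s) (j m : ℕ)
    {s t : ℝ} (hs : s ∈ Icc 0 b) (ht : t ∈ Icc 0 b) :
    IntervalIntegrable (fun t => t ^ j * g t ^ m) volume s t := by
  have h1 : IntervalIntegrable (fun t => g t ^ m) volume s t := by
    apply AntitoneOn.intervalIntegrable
    exact (anti_pow hanti hnn m).mono (uIcc_subset_Icc hs ht)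
  exact h1.continuousOn_mul ((continuous_pow j).continuousOn)

theorem cont_at (hconc : ConcaveOn ℝ (Icc 0 b) g) {s : ℝ} (hs : s ∈ Ioo 0 b) :
    ContinuousAt g s := by
  have h1 : ContinuousOn g (interior (Icc 0 b)) := hconc.continuousOn_interior
  rw [interior_Icc] at h1
  exact h1.continuousAt (Ioo_mem_nhds hs.1 hs.2)

theorem cont_on (hconc : ConcaveOn ℝ (Icc 0 b) g) : ContinuousOn g (Ioo 0 b) := fun _ hs =>
  (cont_at hconc hs).continuousWithinAt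

theorem F_deriv (hconc : ConcaveOn ℝ (Icc 0 b) g) (hanti : AntitoneOn g (Icc 0 b))
    (hnn : ∀ s ∈ Icc 0 b, 0 ≤ g s) (j m : ℕ) {s : ℝ} (hs : s ∈ Ioo 0 b) :
    HasDerivAt (F b g j m) (-(s ^ j * g s ^ m)) s := by
  have hb : 0 ≤ b := hs.1.le.trans hs.2.le
  have hc : ContinuousOn (fun t => t ^ j * g t ^ m) (Ioo 0 b) :=
    ((continuous_pow j).continuousOn).mul ((cont_on hconc).pow m)
  exact intervalIntegral.integral_hasDerivAt_left
    (ii_pow hanti hnn j m ⟨hs.1.le, hs.2.le⟩ ⟨hb, le_rfl⟩)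
    (hc.stronglyMeasurableAtFilter isOpen_Ioo s hs) (hc.continuousAt (Ioo_mem_nhds hs.1 hs.2))

theorem F_cont (hb : 0 ≤ b) (hanti : AntitoneOn g (Icc 0 b))
    (hnn : ∀ s ∈ Icc 0 b, 0 ≤ g s) (j m : ℕ) : ContinuousOn (F b g j m) (Icc 0 b) := by
  have h1 : IntervalIntegrable (fun t => t ^ j * g t ^ m) volume 0 b :=
    ii_pow hanti hnn j m ⟨le_rfl, hb⟩ ⟨hb, le_rfl⟩
  have h2 := intervalIntegral.continuousOn_primitive_interval_left
    (f := fun t => t ^ j * g t ^ m) (a := 0) (b := b) (μ := volume)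
    (by rw [uIcc_of_le hb]; exact (intervalIntegrable_iff_integrableOn_Icc_of_le hb (by finiteness)).1 h1)
  rwa [uIcc_of_le hb] at h2

theorem F_tend (hb : 0 < b) (hanti : AntitoneOn g (Icc 0 b))
    (hnn : ∀ s ∈ Icc 0 b, 0 ≤ g s) (j m : ℕ) : Tendsto (F b g j m) (𝓝[<] b) (𝓝 0) := by
  have h1 := (F_cont hb.le hanti hnn j m) b ⟨hb.le, le_rfl⟩
  have h2 : F b g j m b = 0 := by simp [F]
  rw [ContinuousWithinAt, h2] at h1
  refine h1.mono_left ?_
  have : Ioo 0 b ∈ 𝓝[<] b := Ioo_mem_nhdsLT hb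
  refine nhdsWithin_le_iff.2 ?_
  exact mem_of_superset this Ioo_subset_Icc_self

theorem F_nonneg (hnn : ∀ s ∈ Icc 0 b, 0 ≤ g s) (j m : ℕ) {s : ℝ} (hs : s ∈ Icc 0 b) :
    0 ≤ F b g j m s :=
  intervalIntegral.integral_nonneg hs.2 fun t ht =>
    mul_nonneg (pow_nonneg (hs.1.trans ht.1) _) (pow_nonneg (hnn t ⟨hs.1.trans ht.1, ht.2⟩) _)

theorem F_pos (hanti : AntitoneOn g (Icc 0 b))
    (hnn : ∀ s ∈ Icc 0 b, 0 ≤ g s) (hp : ∀ s ∈ Ioo 0 b, 0 < g s) (m : ℕ) {s : ℝ}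
    (hs : s ∈ Ioo 0 b) : 0 < F b g 0 m s := by
  have hb : 0 ≤ b := hs.1.le.trans hs.2.le
  refine intervalIntegral.intervalIntegral_pos_of_pos_on
    (ii_pow hanti hnn 0 m ⟨hs.1.le, hs.2.le⟩ ⟨hb, le_rfl⟩) (fun t ht => ?_) hs.2
  have := hp t ⟨hs.1.trans ht.1, ht.2⟩
  positivity

/-- Right derivative and tangent line. -/
theorem g_deriv (hconc : ConcaveOn ℝ (Icc 0 b) g) (hanti : AntitoneOn g (Icc 0 b))
    {s : ℝ} (hs : s ∈ Ioo 0 b) :
    ∃ l : ℝ, 0 ≤ l ∧ HasDerivWithinAt g (-l) (Ici s) s ∧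
      ∀ t ∈ Icc s b, g t ≤ g s - l * (t - s) := by
  have hsi : s ∈ interior (Icc 0 b) := by rwa [interior_Icc]
  have hcv : ConvexOn ℝ (Icc 0 b) (fun x => -g x) := hconc.neg
  have h1 := hcv.hasDerivWithinAt_rightDeriv_of_mem_interior hsi
  set l := derivWithin (fun x => -g x) (Ioi s) s with hl
  have hsI : s ∈ Icc 0 b := ⟨hs.1.le, hs.2.le⟩
  have htan : ∀ t ∈ Icc s b, g t ≤ g s - l * (t - s) := by
    intro t ht
    rcases ht.1.eq_or_lt with rfl | hst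
    · simp
    have h2 := hcv.le_slope_of_hasDerivWithinAt_Ioi hsI ⟨hsI.1.trans ht.1, ht.2⟩ hst h1
    rw [slope_def_field, le_div_iff₀ (sub_pos.2 hst)] at h2
    linarith
  have hl0 : 0 ≤ l := by
    have h3 : Tendsto (slope (fun x => -g x) s) (𝓝[>] s) (𝓝 l) := by
      have := hasDerivWithinAt_iff_tendsto_slope.1 h1
      simpa using this
    refine ge_of_tendsto h3 ?_
    have : Ioo s b ∈ 𝓝[>] s := Ioo_mem_nhdsGT hs.2
    filter_upwards [this] with t ht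
    rw [slope_def_field]
    have h4 : g t ≤ g s := hanti hsI ⟨hsI.1.trans ht.1.le, ht.2.le⟩ ht.1.le
    exact div_nonneg (by linarith) (sub_pos.2 ht.1).le
  refine ⟨l, hl0, ?_, htan⟩
  have h5 : HasDerivWithinAt g (-l) (Ioi s) s := by
    have h6 : HasDerivWithinAt (fun x => -(-g x)) (-l) (Ioi s) s := HasDerivWithinAt.fun_neg h1
    simpa only [neg_neg] using h6
  exact hasDerivWithinAt_Ioi_iff_Ici.1 h5

theorem E_ineq (hanti : AntitoneOn g (Icc 0 b)) (hnn : ∀ s ∈ Icc 0 b, 0 ≤ g s) (k : ℕ) {s l : ℝ}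
    (hs : s ∈ Ioo 0 b) (hl : 0 ≤ l) (htan : ∀ t ∈ Icc s b, g t ≤ g s - l * (t - s)) :
    (k + 1) * l * F b g 0 k s ≤ g s ^ (k + 1) := by
  have hb : 0 ≤ b := hs.1.le.trans hs.2.le
  have h1 : F b g 0 k s ≤ ∫ t in s..b, (g s - l * (t - s)) ^ k := by
    refine intervalIntegral.integral_mono_on hs.2.le
      (ii_pow hanti hnn 0 k ⟨hs.1.le, hs.2.le⟩ ⟨hb, le_rfl⟩) ?_ fun t ht => ?_
    · exact (by fun_prop : Continuous fun t => (g s - l * (t - s)) ^ k).intervalIntegrable _ _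
    · rw [pow_zero, one_mul]
      exact pow_le_pow_left₀ (hnn t ⟨hs.1.le.trans ht.1, ht.2⟩) (htan t ht) k
  have h2 : ∫ t in s..b, (k + 1) * l * (g s - l * (t - s)) ^ k =
      -(g s - l * (b - s)) ^ (k + 1) - -(g s - l * (s - s)) ^ (k + 1) := by
    refine intervalIntegral.integral_eq_sub_of_hasDerivAt
      (f := fun t => -(g s - l * (t - s)) ^ (k + 1)) (fun t _ => ?_) ?_
    · have h3 : HasDerivAt (fun t => g s - l * (t - s)) (-(l * 1)) t :=
        (((hasDerivAt_id t).sub_const s).const_mul l).const_sub (g s)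
      have h4 := (h3.pow (k + 1)).neg
      refine h4.congr_deriv ?_
      simp only [Nat.add_sub_cancel, Nat.cast_add, Nat.cast_one]
      ring
    · exact (by fun_prop : Continuous fun t =>
        (k + 1) * l * (g s - l * (t - s)) ^ k).intervalIntegrable _ _
  rw [intervalIntegral.integral_const_mul] at h2
  have h5 : 0 ≤ (g s - l * (b - s)) ^ (k + 1) :=
    pow_nonneg ((hnn b ⟨hb, le_rfl⟩).trans (htan b ⟨hs.2.le, le_rfl⟩)) _
  have h6 : (k + 1) * l * F b g 0 k s ≤ (k + 1) * l * ∫ t in s..b, (g s - l * (t - s)) ^ k :=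
    mul_le_mul_of_nonneg_left h1 (by positivity)
  rw [h2] at h6
  simp only [sub_self, mul_zero, sub_zero] at h6
  linarith

theorem X_nonneg (hanti : AntitoneOn g (Icc 0 b)) (hnn : ∀ s ∈ Icc 0 b, 0 ≤ g s) (k : ℕ) {s : ℝ}
    (hs : s ∈ Ioo 0 b) : F b g 0 (k + 2) s ≤ F b g 0 k s * g s ^ 2 := by
  have hb : 0 ≤ b := hs.1.le.trans hs.2.le
  have hi := ii_pow hanti hnn 0 k ⟨hs.1.le, hs.2.le⟩ ⟨hb, le_rfl⟩
  have h1 : F b g 0 (k + 2) s ≤ ∫ t in s..b, t ^ 0 * g t ^ k * g s ^ 2 := by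
    refine intervalIntegral.integral_mono_on hs.2.le
      (ii_pow hanti hnn 0 (k + 2) ⟨hs.1.le, hs.2.le⟩ ⟨hb, le_rfl⟩) (hi.mul_const _) fun t ht => ?_
    have ht' : t ∈ Icc 0 b := ⟨hs.1.le.trans ht.1, ht.2⟩
    have h2 : g t ^ 2 ≤ g s ^ 2 :=
      pow_le_pow_left₀ (hnn t ht') (hanti ⟨hs.1.le, hs.2.le⟩ ht' ht.1) 2
    have h3 : 0 ≤ g t ^ k := pow_nonneg (hnn t ht') k
    calc t ^ 0 * g t ^ (k + 2) = g t ^ k * g t ^ 2 := by ring
      _ ≤ g t ^ k * g s ^ 2 := mul_le_mul_of_nonneg_left h2 h3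
      _ = _ := by ring
  rwa [intervalIntegral.integral_mul_const] at h1

theorem P_le (hanti : AntitoneOn g (Icc 0 b)) (hnn : ∀ s ∈ Icc 0 b, 0 ≤ g s) (m : ℕ) {s : ℝ}
    (hs : s ∈ Ioo 0 b) : F b g 0 m s ≤ (b - s) * g s ^ m := by
  have hb : 0 ≤ b := hs.1.le.trans hs.2.le
  have h1 : F b g 0 m s ≤ ∫ _ in s..b, g s ^ m := by
    refine intervalIntegral.integral_mono_on hs.2.le
      (ii_pow hanti hnn 0 m ⟨hs.1.le, hs.2.le⟩ ⟨hb, le_rfl⟩)
      intervalIntegrable_const fun t ht => ?_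
    have ht' : t ∈ Icc 0 b := ⟨hs.1.le.trans ht.1, ht.2⟩
    rw [pow_zero, one_mul]
    exact pow_le_pow_left₀ (hnn t ht') (hanti ⟨hs.1.le, hs.2.le⟩ ht' ht.1) m
  rwa [intervalIntegral.integral_const, smul_eq_mul] at h1

theorem G_ineq (hconc : ConcaveOn ℝ (Icc 0 b) g) (hanti : AntitoneOn g (Icc 0 b))
    (hnn : ∀ s ∈ Icc 0 b, 0 ≤ g s) (hp : ∀ s ∈ Ioo 0 b, 0 < g s) (k : ℕ) {s : ℝ}
    (hs : s ∈ Ioo 0 b) :
    (k + 1) * g s ^ 2 * F b g 0 k s ≤ (k + 3) * F b g 0 (k + 2) s := by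
  have hb : 0 < b := hs.1.trans hs.2
  have h := nonneg_of_rd (b := b) (s := s) hs
    (φ := fun s => (k + 3) * F b g 0 (k + 2) s - (k + 1) * (g s ^ 2 * F b g 0 k s))
    (ψ := fun t => -((k + 1) * (g s ^ 2 + g 0 ^ 2) * F b g 0 k t)) ?_ ?_ ?_ ?_
  · linarith
  · have hF : ∀ j m, ContinuousOn (F b g j m) (Ioo 0 b) := fun j m =>
      (F_cont hb.le hanti hnn j m).mono Ioo_subset_Icc_self
    exact (continuousOn_const.mul (hF _ _)).sub
      (continuousOn_const.mul (((cont_on hconc).pow 2).mul (hF _ _)))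
  · intro s hs
    obtain ⟨l, hl0, hl, htan⟩ := g_deriv hconc hanti hs
    have hE := E_ineq hanti hnn k hs hl0 htan
    have hP := (F_deriv hconc hanti hnn 0 (k + 2) hs).hasDerivWithinAt (s := Ici s)
    have hM := (F_deriv hconc hanti hnn 0 k hs).hasDerivWithinAt (s := Ici s)
    refine ⟨_, ?_, (hP.const_mul ((k : ℝ) + 3)).sub (((hl.pow 2).mul hM).const_mul ((k : ℝ) + 1))⟩
    have hg := hp s hs
    simp only [pow_zero, one_mul, Nat.cast_ofNat, Nat.add_one_sub_one, pow_one, Pi.pow_apply]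
    have h7 : ((k : ℝ) + 3) * -g s ^ (k + 2) -
        (k + 1) * (2 * g s * -l * F b g 0 k s + g s ^ 2 * -g s ^ k) =
        -(2 * g s * (g s ^ (k + 1) - (k + 1) * l * F b g 0 k s)) := by ring
    rw [h7]
    exact neg_nonpos.2 (mul_nonneg (by positivity) (sub_nonneg.2 hE))
  · intro t ht
    have h0 : 0 ≤ F b g 0 (k + 2) t := F_nonneg hnn 0 _ ⟨ht.1.le, ht.2.le⟩
    have h1 : 0 ≤ F b g 0 k t := F_nonneg hnn 0 _ ⟨ht.1.le, ht.2.le⟩
    have h2 : g t ^ 2 ≤ g 0 ^ 2 :=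
      pow_le_pow_left₀ (hnn t ⟨ht.1.le, ht.2.le⟩)
        (hanti ⟨le_rfl, hb.le⟩ ⟨ht.1.le, ht.2.le⟩ ht.1.le) 2
    have h3 : g t ^ 2 * F b g 0 k t ≤ (g s ^ 2 + g 0 ^ 2) * F b g 0 k t :=
      mul_le_mul_of_nonneg_right (by nlinarith [sq_nonneg (g s)]) h1
    have h4 : (0 : ℝ) ≤ k := Nat.cast_nonneg k
    nlinarith [mul_le_mul_of_nonneg_left h3 (by positivity : (0 : ℝ) ≤ (k : ℝ) + 1),
      mul_nonneg (by positivity : (0 : ℝ) ≤ (k : ℝ) + 3) h0]
  · have := (F_tend hb hanti hnn 0 k).const_mul ((k + 1) * (g s ^ 2 + g 0 ^ 2))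
    simpa using this.neg

theorem S_nonneg (hnn : ∀ s ∈ Icc 0 b, 0 ≤ g s) (hanti : AntitoneOn g (Icc 0 b)) (k : ℕ) {s : ℝ}
    (hs : s ∈ Ioo 0 b) : 0 ≤ F b g 1 k s - s * F b g 0 k s := by
  have hb : 0 ≤ b := hs.1.le.trans hs.2.le
  have h1 : s * F b g 0 k s ≤ F b g 1 k s := by
    rw [F, ← intervalIntegral.integral_const_mul]
    refine intervalIntegral.integral_mono_on hs.2.le
      ((ii_pow hanti hnn 0 k ⟨hs.1.le, hs.2.le⟩ ⟨hb, le_rfl⟩).const_mul _)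
      (ii_pow hanti hnn 1 k ⟨hs.1.le, hs.2.le⟩ ⟨hb, le_rfl⟩) fun t ht => ?_
    have ht' : t ∈ Icc 0 b := ⟨hs.1.le.trans ht.1, ht.2⟩
    rw [pow_zero, one_mul, pow_one]
    exact mul_le_mul_of_nonneg_right ht.1 (pow_nonneg (hnn t ht') k)
  linarith

/-- the algebra in the proof of `Q_ineq` -/
theorem Q_alg (k : ℕ) {s γ l M P A : ℝ} (hγ : 0 < γ) (hM : 0 ≤ M) (hl : 0 ≤ l)
    (hE : (k + 1) * l * M ≤ γ ^ (k + 1)) (hX : P ≤ M * γ ^ 2)
    (hG : (k + 1) * γ ^ 2 * M ≤ (k + 3) * P) :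
    (((k + 1) * (k + 4) * (2 * M * (-γ ^ k) * γ ^ 2 + M ^ 2 * (2 * γ * (-l))) -
        4 * (k + 2) * ((-(s * γ ^ k) - (M + s * (-γ ^ k))) * γ ^ (k + 2) +
          (A - s * M) * ((k + 2) * γ ^ (k + 1) * (-l))) -
        k * (k + 3) * (-γ ^ k * P + M * (-γ ^ (k + 2)))) * γ ^ (k + 2) -
      ((k + 1) * (k + 4) * (M ^ 2 * γ ^ 2) - 4 * (k + 2) * ((A - s * M) * γ ^ (k + 2)) -
        k * (k + 3) * (M * P)) * ((k + 2) * γ ^ (k + 1) * (-l))) / (γ ^ (k + 2)) ^ 2 ≤ 0 := by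
  have hk : (0 : ℝ) ≤ k := Nat.cast_nonneg k
  refine div_nonpos_of_nonpos_of_nonneg ?_ (by positivity)
  have h1 : ((k + 1) * (k + 4) * (2 * M * (-γ ^ k) * γ ^ 2 + M ^ 2 * (2 * γ * (-l))) -
        4 * (k + 2) * ((-(s * γ ^ k) - (M + s * (-γ ^ k))) * γ ^ (k + 2) +
          (A - s * M) * ((k + 2) * γ ^ (k + 1) * (-l))) -
        k * (k + 3) * (-γ ^ k * P + M * (-γ ^ (k + 2)))) * γ ^ (k + 2) -
      ((k + 1) * (k + 4) * (M ^ 2 * γ ^ 2) - 4 * (k + 2) * ((A - s * M) * γ ^ (k + 2)) -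
        k * (k + 3) * (M * P)) * ((k + 2) * γ ^ (k + 1) * (-l)) =
      γ ^ (k + 1) * k * ((k + 3) * (M * γ ^ 2 - P) * ((k + 2) * l * M - γ ^ (k + 1)) -
        2 * l * M ^ 2 * γ ^ 2) := by ring
  rw [h1]
  have h2 : (k + 3) * (M * γ ^ 2 - P) * ((k + 2) * l * M - γ ^ (k + 1)) ≤
      (k + 3) * (M * γ ^ 2 - P) * (l * M) := by
    refine mul_le_mul_of_nonneg_left ?_ (mul_nonneg (by positivity) (sub_nonneg.2 hX))
    linarith
  have h3 : (k + 3) * (M * γ ^ 2 - P) * (l * M) ≤ 2 * l * M ^ 2 * γ ^ 2 := by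
    have h4 : (k + 3) * (M * γ ^ 2 - P) ≤ 2 * M * γ ^ 2 := by linarith
    have h5 := mul_le_mul_of_nonneg_right h4 (mul_nonneg hl hM)
    linarith
  refine mul_nonpos_of_nonneg_of_nonpos (by positivity) ?_
  linarith

theorem Q_ineq (hconc : ConcaveOn ℝ (Icc 0 b) g) (hanti : AntitoneOn g (Icc 0 b))
    (hnn : ∀ s ∈ Icc 0 b, 0 ≤ g s) (hp : ∀ s ∈ Ioo 0 b, 0 < g s) (k : ℕ) {s : ℝ}
    (hs : s ∈ Ioo 0 b) :
    4 * (k + 2) * ((F b g 1 k s - s * F b g 0 k s) * g s ^ (k + 2)) +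
        k * (k + 3) * (F b g 0 k s * F b g 0 (k + 2) s) ≤
      (k + 1) * (k + 4) * (F b g 0 k s ^ 2 * g s ^ 2) := by
  have hb : 0 < b := hs.1.trans hs.2
  have hk : (0 : ℝ) ≤ k := Nat.cast_nonneg k
  have h := nonneg_of_rd (b := b) (s := s) hs
    (φ := fun s => ((k + 1) * (k + 4) * (F b g 0 k s ^ 2 * g s ^ 2) -
      4 * (k + 2) * ((F b g 1 k s - s * F b g 0 k s) * g s ^ (k + 2)) -
        k * (k + 3) * (F b g 0 k s * F b g 0 (k + 2) s)) / g s ^ (k + 2))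
    (ψ := fun t => -(4 * (k + 2) * (F b g 1 k t - t * F b g 0 k t) +
      k * (k + 3) * (F b g 0 k t * (b - t)))) ?_ ?_ ?_ ?_
  · rw [le_div_iff₀ (pow_pos (hp s hs) _), zero_mul] at h
    linarith
  · have hF : ∀ j m, ContinuousOn (F b g j m) (Ioo 0 b) := fun j m =>
      (F_cont hb.le hanti hnn j m).mono Ioo_subset_Icc_self
    have hg := cont_on hconc
    refine ContinuousOn.div ?_ (hg.pow _) fun x hx => (pow_pos (hp x hx) _).ne'
    exact ((continuousOn_const.mul (((hF _ _).pow 2).mul (hg.pow 2))).sub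
      (continuousOn_const.mul (((hF _ _).sub (continuousOn_id.mul (hF _ _))).mul
        (hg.pow _)))).sub (continuousOn_const.mul ((hF _ _).mul (hF _ _)))
  · intro s hs
    obtain ⟨l, hl0, hl, htan⟩ := g_deriv hconc hanti hs
    have hE := E_ineq hanti hnn k hs hl0 htan
    have hX := X_nonneg hanti hnn k hs
    have hG := G_ineq hconc hanti hnn hp k hs
    have hgp := hp s hs
    have hM0 := F_nonneg (b := b) (g := g) hnn 0 k ⟨hs.1.le, hs.2.le⟩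
    have hP := (F_deriv hconc hanti hnn 0 (k + 2) hs).hasDerivWithinAt (s := Ici s)
    have hM := (F_deriv hconc hanti hnn 0 k hs).hasDerivWithinAt (s := Ici s)
    have hA := (F_deriv hconc hanti hnn 1 k hs).hasDerivWithinAt (s := Ici s)
    have hid := hasDerivWithinAt_id s (Ici s)
    have hd1 := ((hM.pow 2).mul (hl.pow 2)).const_mul (((k : ℝ) + 1) * (k + 4))
    have hd2 := ((hA.sub (hid.mul hM)).mul (hl.pow (k + 2))).const_mul (4 * ((k : ℝ) + 2))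
    have hd3 := (hM.mul hP).const_mul ((k : ℝ) * (k + 3))
    have hd := ((hd1.sub hd2).sub hd3).div (hl.pow (k + 2)) (pow_pos hgp _).ne'
    refine ⟨_, ?_, hd⟩
    have := Q_alg k (s := s) (A := F b g 1 k s) hgp hM0 hl0 hE hX hG
    refine le_trans (le_of_eq ?_) this
    simp only [pow_zero, one_mul, pow_one, Pi.pow_apply, Pi.mul_apply, Pi.sub_apply, id]
    push_cast
    ring_nf
  · intro t ht
    have ht' : t ∈ Icc 0 b := ⟨ht.1.le, ht.2.le⟩
    have hP := P_le hanti hnn (k + 2) ht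
    have hM0 := F_nonneg (b := b) (g := g) hnn 0 k ht'
    have hgp := pow_pos (hp t ht) (k + 2)
    rw [le_div_iff₀ hgp]
    have h1 : F b g 0 k t * F b g 0 (k + 2) t ≤ F b g 0 k t * ((b - t) * g t ^ (k + 2)) :=
      mul_le_mul_of_nonneg_left hP hM0
    have h2 := mul_le_mul_of_nonneg_left h1 (by positivity : (0 : ℝ) ≤ k * (k + 3))
    have h3 : 0 ≤ ((k : ℝ) + 1) * (k + 4) * (F b g 0 k t ^ 2 * g t ^ 2) := by positivity
    linarith
  · have h1 := F_tend hb hanti hnn 1 k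
    have h0 := F_tend hb hanti hnn 0 k
    have hid : Tendsto (fun t : ℝ => t) (𝓝[<] b) (𝓝 b) :=
      tendsto_id.mono_left nhdsWithin_le_nhds
    have h2 := ((h1.sub (hid.mul h0)).const_mul (4 * ((k : ℝ) + 2))).add
      ((h0.mul (hid.const_sub b)).const_mul ((k : ℝ) * (k + 3)))
    simpa using h2.neg

theorem kap_nonneg (k : ℕ) : 0 ≤ kap k := by
  unfold kap
  positivity

/-- the algebra behind the last step -/
theorem last_alg (k : ℕ) (hk : 1 ≤ k) {γ M P S : ℝ} (hγ : 0 < γ) (hM : 0 < M) (hP : 0 < P)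
    (hS : 0 ≤ S) (hG : (k + 1) * γ ^ 2 * M ≤ (k + 3) * P)
    (hQ : 4 * (k + 2) * (S * γ ^ (k + 2)) + k * (k + 3) * (M * P) ≤
      (k + 1) * (k + 4) * (M ^ 2 * γ ^ 2)) :
    γ ^ k * (S / M) ^ 2 * P ^ (k + 1) ≤
      kap k * γ ^ k * M ^ (k + 2) * ((k + 3) * P - k * γ ^ 2 * M) := by
  have hk0 : (1 : ℝ) ≤ k := by exact_mod_cast hk
  obtain ⟨u, hu⟩ : ∃ u, u = (k + 3) * P / ((k + 1) * M * γ ^ 2) := ⟨_, rfl⟩
  obtain ⟨β, hβ⟩ : ∃ β, β = (k + 2) * S * γ ^ k / ((k + 1) * M ^ 2) := ⟨_, rfl⟩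
  have hPu : P = (k + 1) * M * γ ^ 2 * u / (k + 3) := by
    rw [hu]; field_simp
  have hSβ : S = (k + 1) * M ^ 2 * β / ((k + 2) * γ ^ k) := by
    rw [hβ]; field_simp
  have hu1 : 1 ≤ u := by
    rw [hu, one_le_div (by positivity)]
    linarith
  have hβ0 : 0 ≤ β := by rw [hβ]; positivity
  have hQ' : 4 * β + k * u ≤ k + 4 := by
    have h1 : 4 * (k + 2) * (S * γ ^ (k + 2)) + k * (k + 3) * (M * P) =
        (k + 1) * M ^ 2 * γ ^ 2 * (4 * β + k * u) := by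
      rw [hPu, hSβ]
      field_simp
      ring
    rw [h1] at hQ
    have h2 : (k + 1) * (k + 4) * (M ^ 2 * γ ^ 2) = (k + 1) * M ^ 2 * γ ^ 2 * (k + 4) := by ring
    rw [h2] at hQ
    exact le_of_mul_le_mul_left hQ (by positivity)
  have hE := elem k hk (h := u - 1) (by linarith) (by linarith)
  have h3 : β ^ 2 * u ^ (k + 1) ≤ (k + 1) * u - k := by
    have h4 : β ^ 2 ≤ (1 - k * (u - 1) / 4) ^ 2 := pow_le_pow_left₀ hβ0 (by linarith) 2
    have h5 : (1 : ℝ) + (u - 1) = u := by ring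
    rw [h5] at hE
    calc β ^ 2 * u ^ (k + 1) ≤ (1 - k * (u - 1) / 4) ^ 2 * u ^ (k + 1) :=
          mul_le_mul_of_nonneg_right h4 (by positivity)
      _ ≤ _ := hE
      _ = _ := by ring
  have h6 : γ ^ k * (S / M) ^ 2 * P ^ (k + 1) =
      kap k * M ^ (k + 3) * γ ^ (k + 2) * (β ^ 2 * u ^ (k + 1)) := by
    rw [hSβ, hPu, kap]
    simp only [div_pow, mul_pow]
    field_simp
    ring
  have h7 : kap k * γ ^ k * M ^ (k + 2) * ((k + 3) * P - k * γ ^ 2 * M) =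
      kap k * M ^ (k + 3) * γ ^ (k + 2) * ((k + 1) * u - k) := by
    rw [hPu]
    field_simp
    ring
  rw [h6, h7]
  exact mul_le_mul_of_nonneg_left h3
    (mul_nonneg (mul_nonneg (kap_nonneg k) (by positivity)) (by positivity))

theorem var_tail (hconc : ConcaveOn ℝ (Icc 0 b) g) (hanti : AntitoneOn g (Icc 0 b))
    (hnn : ∀ s ∈ Icc 0 b, 0 ≤ g s) (hp : ∀ s ∈ Ioo 0 b, 0 < g s) (k : ℕ) (hk : 1 ≤ k) {s : ℝ}
    (hs : s ∈ Ioo 0 b) :
    (F b g 0 k s * F b g 2 k s - F b g 1 k s ^ 2) * F b g 0 (k + 2) s ^ k ≤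
      kap k * F b g 0 k s ^ (k + 4) := by
  have hb : 0 < b := hs.1.trans hs.2
  obtain ⟨j, rfl⟩ : ∃ j, k = j + 1 := ⟨k - 1, by omega⟩
  have hpM : ∀ s ∈ Ioo 0 b, 0 < F b g 0 (j + 1) s := fun s hs => F_pos hanti hnn hp _ hs
  have hpP : ∀ s ∈ Ioo 0 b, 0 < F b g 0 (j + 1 + 2) s := fun s hs => F_pos hanti hnn hp _ hs
  have h := nonneg_of_rd (b := b) (s := s) hs
    (φ := fun s => kap (j + 1) * (F b g 0 (j + 1) s ^ (j + 4) / F b g 0 (j + 1 + 2) s ^ (j + 1)) -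
      (F b g 2 (j + 1) s - F b g 1 (j + 1) s ^ 2 / F b g 0 (j + 1) s))
    (ψ := fun t => -F b g 2 (j + 1) t) ?_ ?_ ?_ ?_
  · have hM := hpM s hs
    have hP := hpP s hs
    have h1 := mul_nonneg h (mul_pos hM (pow_pos hP (j + 1))).le
    have h2 : (kap (j + 1) * (F b g 0 (j + 1) s ^ (j + 4) / F b g 0 (j + 1 + 2) s ^ (j + 1)) -
      (F b g 2 (j + 1) s - F b g 1 (j + 1) s ^ 2 / F b g 0 (j + 1) s)) *
      (F b g 0 (j + 1) s * F b g 0 (j + 1 + 2) s ^ (j + 1)) =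
      kap (j + 1) * F b g 0 (j + 1) s ^ (j + 1 + 4) -
      (F b g 0 (j + 1) s * F b g 2 (j + 1) s - F b g 1 (j + 1) s ^ 2) *
        F b g 0 (j + 1 + 2) s ^ (j + 1) := by
      field_simp
      ring
    rw [h2] at h1
    linarith
  · have hF : ∀ j m, ContinuousOn (F b g j m) (Ioo 0 b) := fun j m =>
      (F_cont hb.le hanti hnn j m).mono Ioo_subset_Icc_self
    refine (continuousOn_const.mul (((hF _ _).pow _).div ((hF _ _).pow _) fun x hx =>
      (pow_pos (hpP x hx) _).ne')).sub ((hF _ _).sub (((hF _ _).pow 2).div (hF _ _) fun x hx =>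
      (hpM x hx).ne'))
  · intro s hs
    have hG := G_ineq hconc hanti hnn hp (j + 1) hs
    have hQ := Q_ineq hconc hanti hnn hp (j + 1) hs
    have hS := S_nonneg hnn hanti (j + 1) hs
    have hM0 := hpM s hs
    have hP0 := hpP s hs
    have hγ := hp s hs
    have hP := F_deriv hconc hanti hnn 0 (j + 1 + 2) hs
    have hM := F_deriv hconc hanti hnn 0 (j + 1) hs
    have hA := F_deriv hconc hanti hnn 1 (j + 1) hs
    have hB := F_deriv hconc hanti hnn 2 (j + 1) hs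
    have hd1 := ((hM.pow (j + 4)).div (hP.pow (j + 1)) (pow_pos hP0 _).ne').const_mul (kap (j + 1))
    have hd2 := hB.sub ((hA.pow 2).div hM hM0.ne')
    have hd := (hd1.sub hd2).hasDerivWithinAt (s := Ici s)
    refine ⟨_, ?_, hd⟩
    have hlast := last_alg (j + 1) hk hγ hM0 hP0 hS hG hQ
    simp only [pow_zero, one_mul, pow_one, Pi.pow_apply, Nat.cast_ofNat, Nat.add_one_sub_one]
    generalize F b g 0 (j + 1) s = M at *
    generalize F b g 0 (j + 1 + 2) s = P at *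
    generalize F b g 1 (j + 1) s = A at *
    generalize g s = γ at *
    have h1 : kap (j + 1) * ((((j + 4 : ℕ) : ℝ) * M ^ (j + 3) * -γ ^ (j + 1) * P ^ (j + 1) -
        M ^ (j + 4) * (((j + 1 : ℕ) : ℝ) * P ^ j * -γ ^ (j + 1 + 2))) /
          (P ^ (j + 1)) ^ 2) -
        (-(s ^ 2 * γ ^ (j + 1)) - (2 * A * -(s * γ ^ (j + 1)) * M - A ^ 2 * -γ ^ (j + 1)) / M ^ 2) =
        (γ ^ (j + 1) * ((A - s * M) / M) ^ 2 * P ^ (j + 1 + 1) -
          kap (j + 1) * γ ^ (j + 1) * M ^ (j + 1 + 2) * ((((j + 1 : ℕ) : ℝ) + 3) * P -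
            ((j + 1 : ℕ) : ℝ) * γ ^ 2 * M)) / P ^ (j + 1 + 1) := by
      push_cast
      field_simp
      ring
    refine le_trans (le_of_eq ?_) (div_nonpos_of_nonpos_of_nonneg (sub_nonpos.2 hlast)
      (pow_pos hP0 (j + 1 + 1)).le)
    rw [← h1]
  · intro t ht
    have hM := hpM t ht
    have hP := hpP t ht
    have h1 : 0 ≤ kap (j + 1) * (F b g 0 (j + 1) t ^ (j + 4) / F b g 0 (j + 1 + 2) t ^ (j + 1)) :=
      mul_nonneg (kap_nonneg _) (by positivity)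
    have h2 : 0 ≤ F b g 1 (j + 1) t ^ 2 / F b g 0 (j + 1) t := by positivity
    linarith
  · simpa using (F_tend hb hanti hnn 2 (j + 1)).neg

end Core

/-- [A4] -/
theorem dec_concave (k : ℕ) (hk : 1 ≤ k) {b : ℝ} (hb : 0 ≤ b) {g : ℝ → ℝ}
    (hconc : ConcaveOn ℝ (Icc 0 b) g) (hanti : AntitoneOn g (Icc 0 b))
    (hpos : ∀ s ∈ Icc 0 b, 0 ≤ g s) :
    ((∫ t in (0 : ℝ)..b, g t ^ k) * (∫ t in (0 : ℝ)..b, t ^ 2 * g t ^ k) -
        (∫ t in (0 : ℝ)..b, t * g t ^ k) ^ 2) * (∫ t in (0 : ℝ)..b, g t ^ (k + 2)) ^ k ≤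
      kap k * (∫ t in (0 : ℝ)..b, g t ^ k) ^ (k + 4) := by
  have e0 : ∀ m, ∫ t in (0 : ℝ)..b, g t ^ m = F b g 0 m 0 := fun m => by simp [F]
  have e1 : ∫ t in (0 : ℝ)..b, t * g t ^ k = F b g 1 k 0 := by simp [F]
  have e2 : ∫ t in (0 : ℝ)..b, t ^ 2 * g t ^ k = F b g 2 k 0 := by simp [F]
  rw [e0, e0, e1, e2]
  rcases hb.eq_or_lt with rfl | hb
  · simp [F]
  by_cases hz : ∀ s ∈ Ioo 0 b, 0 < g s
  · have hl : ∀ j m, Tendsto (F b g j m) (𝓝[>] 0) (𝓝 (F b g j m 0)) := fun j m => by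
      have h1 := (F_cont hb.le hanti hpos j m) 0 ⟨le_rfl, hb.le⟩
      refine h1.tendsto.mono_left ?_
      refine nhdsWithin_le_iff.2 ?_
      exact mem_of_superset (Ioo_mem_nhdsGT hb) Ioo_subset_Icc_self
    have hL := (((hl 0 k).mul (hl 2 k)).sub ((hl 1 k).pow 2)).mul ((hl 0 (k + 2)).pow k)
    have hR := ((hl 0 k).pow (k + 4)).const_mul (kap k)
    refine le_of_tendsto_of_tendsto hL hR ?_
    filter_upwards [Ioo_mem_nhdsGT hb] with s hs
    exact var_tail hconc hanti hpos hz k hk hs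
  · push Not at hz
    obtain ⟨s, hs, hgs⟩ := hz
    have hgs : g s = 0 := le_antisymm hgs (hpos s ⟨hs.1.le, hs.2.le⟩)
    have hgz : ∀ t ∈ Icc 0 b, g t = 0 := by
      intro t ht
      refine le_antisymm ?_ (hpos t ht)
      rcases le_or_gt s t with h | h
      · exact (hanti ⟨hs.1.le, hs.2.le⟩ ht h).trans hgs.le
      · have hbt : b - t ≠ 0 := (by linarith [hs.2] : 0 < b - t).ne'
        have w1 : 0 ≤ (b - s) / (b - t) := div_nonneg (by linarith [hs.2]) (by linarith [hs.2])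
        have w2 : 0 ≤ (s - t) / (b - t) := div_nonneg (by linarith) (by linarith [hs.2])
        have w3 : (b - s) / (b - t) + (s - t) / (b - t) = 1 := by
          field_simp
          ring
        have h3 := hconc.2 ht (right_mem_Icc.2 hb.le) w1 w2 w3
        have h4 : ((b - s) / (b - t)) • t + ((s - t) / (b - t)) • b = s := by
          simp only [smul_eq_mul]
          field_simp
          ring
        rw [h4, hgs, smul_eq_mul, smul_eq_mul] at h3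
        have h5 : 0 ≤ (s - t) / (b - t) * g b :=
          mul_nonneg (div_nonneg (by linarith) (by linarith [hs.2])) (hpos b ⟨hb.le, le_rfl⟩)
        have h6 : 0 < (b - s) / (b - t) := div_pos (by linarith [hs.2]) (by linarith [hs.2])
        by_contra hcon
        push Not at hcon
        have := mul_pos h6 hcon
        linarith
    have hF : ∀ j m, 1 ≤ m → F b g j m 0 = 0 := by
      intro j m hm
      rw [F]
      have : ∫ t in (0 : ℝ)..b, t ^ j * g t ^ m = ∫ t in (0 : ℝ)..b, 0 := by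
        refine intervalIntegral.integral_congr fun t ht => ?_
        rw [uIcc_of_le hb.le] at ht
        simp only [hgz t ht]
        rw [zero_pow (by omega), mul_zero]
      rw [this]
      simp
    rw [hF 0 k hk, hF 1 k hk]
    simp

end Vale.Agent.P254.Perm
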