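import Vale.Agent.P254.Perm.Defs
import Mathlib.Analysis.Convex.Deriv
import Mathlib.Analysis.Calculus.Deriv.MeanValue
import Mathlib.MeasureTheory.Integral.IntervalIntegral.FundThmCalculus
import Mathlib.MeasureTheory.Integral.DominatedConvergence

/-!
P254, permutation invariant bodies, leaf A1 (first half): the tail inequality
`(k+1) g(s)² ∫_s^b g^k ≤ (k+3) ∫_s^b g^(k+2)` for a decreasing positive concave function `g`.
-/

open MeasureTheory Set

namespace Vale.Agent.P254.Perm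

/-- Derivative of a tail `∫_s^b f`. -/
theorem hasDerivAt_tail {b : ℝ} {f : ℝ → ℝ} (hf : ContinuousOn f (Icc 0 b)) {s : ℝ}
    (hs : s ∈ Ioo 0 b) : HasDerivAt (fun u => ∫ t in u..b, f t) (-f s) s := by
  have hi : IntervalIntegrable f volume s b := by
    apply ContinuousOn.intervalIntegrable
    rw [uIcc_of_le hs.2.le]
    exact hf.mono (Icc_subset_Icc hs.1.le le_rfl)
  have ho : ContinuousOn f (Ioo 0 b) := hf.mono Ioo_subset_Icc_self
  exact intervalIntegral.integral_hasDerivAt_left hi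
    (ho.stronglyMeasurableAtFilter isOpen_Ioo s hs) (ho.continuousAt (Ioo_mem_nhds hs.1 hs.2))

/-- Continuity of a tail. -/
theorem continuousOn_tail {b : ℝ} (hb : 0 ≤ b) {f : ℝ → ℝ} (hf : ContinuousOn f (Icc 0 b)) :
    ContinuousOn (fun u => ∫ t in u..b, f t) (Icc 0 b) := by
  have h := intervalIntegral.continuousOn_primitive_interval_left (f := f) (a := 0) (b := b)
    (μ := volume) (by rw [uIcc_of_le hb]; exact hf.integrableOn_Icc)
  rwa [uIcc_of_le hb] at h

theorem deriv_anti {b : ℝ} {g g' : ℝ → ℝ}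
    (hd : ∀ s ∈ Ioo 0 b, HasDerivAt g (g' s) s) (hconc : ConcaveOn ℝ (Icc 0 b) g)
    {s t : ℝ} (hs : s ∈ Ioo 0 b) (ht : t ∈ Ioo 0 b) (hst : s ≤ t) : g' t ≤ g' s := by
  rcases hst.eq_or_lt with rfl | h
  · exact le_rfl
  · exact (hconc.le_slope_of_hasDerivAt (Ioo_subset_Icc_self hs) (Ioo_subset_Icc_self ht) h
      (hd t ht)).trans (hconc.slope_le_of_hasDerivAt (Ioo_subset_Icc_self hs)
      (Ioo_subset_Icc_self ht) h (hd s hs))

theorem deriv_nonpos {b : ℝ} {g g' : ℝ → ℝ}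
    (hd : ∀ s ∈ Ioo 0 b, HasDerivAt g (g' s) s) (hanti : AntitoneOn g (Icc 0 b))
    {s : ℝ} (hs : s ∈ Ioo 0 b) : g' s ≤ 0 := by
  by_contra hcon
  push Not at hcon
  have h := (hd s hs)
  have h2 : ∀ᶠ u in nhdsWithin s (Ioi s), g s < g u := by
    have := h.hasDerivWithinAt (s := Ioi s)
    rw [hasDerivWithinAt_iff_tendsto_slope] at this
    have h3 := this.eventually (lt_mem_nhds hcon)
    rw [show Ioi s \ {s} = Ioi s from by
      ext u; simp] at h3
    filter_upwards [h3, self_mem_nhdsWithin] with u hu hus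
    rw [slope_def_field] at hu
    have : 0 < u - s := sub_pos.2 hus
    have h4 := mul_pos hu this
    rw [div_mul_cancel₀ _ this.ne'] at h4
    linarith
  have h3 : ∀ᶠ u in nhdsWithin s (Ioi s), u ∈ Ioo s b := Ioo_mem_nhdsGT hs.2
  obtain ⟨u, hu1, hu2⟩ := (h2.and h3).exists
  have := hanti (Ioo_subset_Icc_self hs) ⟨(hs.1.trans hu2.1).le, hu2.2.le⟩ hu2.1.le
  linarith

/-- The key inequality: `(k+1) (-g'(s)) ∫_s^b g^k ≤ g(s)^(k+1)`. -/
theorem key_G (k : ℕ) {b : ℝ} {g g' : ℝ → ℝ} (hc : ContinuousOn g (Icc 0 b))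
    (hd : ∀ s ∈ Ioo 0 b, HasDerivAt g (g' s) s) (hconc : ConcaveOn ℝ (Icc 0 b) g)
    (hpos : ∀ s ∈ Icc 0 b, 0 < g s) {s : ℝ} (hs : s ∈ Ioo 0 b) :
    (k + 1) * (-g' s) * (∫ t in s..b, g t ^ k) ≤ g s ^ (k + 1) := by
  have hb : 0 ≤ b := (hs.1.trans hs.2).le
  have hck : ContinuousOn (fun t => g t ^ k) (Icc 0 b) := hc.pow k
  have hsub : Icc s b ⊆ Icc 0 b := Icc_subset_Icc hs.1.le le_rfl
  have hH : AntitoneOn (fun u => g u ^ (k + 1) - (k + 1) * (-g' s) * ∫ t in u..b, g t ^ k)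
      (Icc s b) := by
    apply antitoneOn_of_deriv_nonpos (convex_Icc _ _)
    · exact ((hc.pow _).sub ((continuousOn_tail hb hck).const_mul _)).mono hsub
    · rw [interior_Icc]
      intro u hu
      have hu' : u ∈ Ioo 0 b := ⟨hs.1.trans hu.1, hu.2⟩
      exact (((hd u hu').pow (k + 1)).sub
        ((hasDerivAt_tail hck hu').const_mul _)).differentiableAt.differentiableWithinAt
    · rw [interior_Icc]
      intro u hu
      have hu' : u ∈ Ioo 0 b := ⟨hs.1.trans hu.1, hu.2⟩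
      have h1 : HasDerivAt (fun u => g u ^ (k + 1) - (k + 1) * (-g' s) * ∫ t in u..b, g t ^ k)
          (((k + 1 : ℕ) : ℝ) * g u ^ (k + 1 - 1) * g' u - (k + 1) * (-g' s) * (-(g u ^ k))) u :=
        ((hd u hu').pow (k + 1)).sub ((hasDerivAt_tail hck hu').const_mul _)
      rw [h1.deriv]
      have h2 := deriv_anti hd hconc hs hu' hu.1.le
      have h3 : 0 ≤ (k + 1 : ℝ) * g u ^ k :=
        mul_nonneg (by positivity) (pow_nonneg (hpos u (hsub (Ioo_subset_Icc_self hu))).le _)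
      have h4 := mul_nonneg h3 (sub_nonneg.2 h2)
      rw [show (k + 1 - 1 : ℕ) = k from rfl]
      push_cast
      nlinarith [h4]
  have h := hH (left_mem_Icc.2 hs.2.le) (right_mem_Icc.2 hs.2.le) hs.2.le
  simp only [intervalIntegral.integral_same, mul_zero, sub_zero] at h
  have h5 : 0 ≤ g b ^ (k + 1) := pow_nonneg (hpos b (right_mem_Icc.2 hb)).le _
  linarith

/-- [A1] -/
theorem tail_G (k : ℕ) {b : ℝ} {g g' : ℝ → ℝ} (hc : ContinuousOn g (Icc 0 b))
    (hd : ∀ s ∈ Ioo 0 b, HasDerivAt g (g' s) s) (hconc : ConcaveOn ℝ (Icc 0 b) g)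
    (hanti : AntitoneOn g (Icc 0 b)) (hpos : ∀ s ∈ Icc 0 b, 0 < g s) {s : ℝ} (hs : s ∈ Icc 0 b) :
    (k + 1) * g s ^ 2 * (∫ t in s..b, g t ^ k) ≤ (k + 3) * ∫ t in s..b, g t ^ (k + 2) := by
  have hb : 0 ≤ b := hs.1.trans hs.2
  have hck : ContinuousOn (fun t => g t ^ k) (Icc 0 b) := hc.pow k
  have hck2 : ContinuousOn (fun t => g t ^ (k + 2)) (Icc 0 b) := hc.pow _
  have hF : AntitoneOn (fun u => (k + 3) * (∫ t in u..b, g t ^ (k + 2)) -
      (k + 1) * (g u ^ 2 * ∫ t in u..b, g t ^ k)) (Icc 0 b) := by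
    apply antitoneOn_of_deriv_nonpos (convex_Icc _ _)
    · exact ((continuousOn_tail hb hck2).const_mul _).sub
        (((hc.pow 2).mul (continuousOn_tail hb hck)).const_mul _)
    · rw [interior_Icc]
      intro u hu
      exact (((hasDerivAt_tail hck2 hu).const_mul _).sub
        ((((hd u hu).pow 2).mul (hasDerivAt_tail hck hu)).const_mul
          _)).differentiableAt.differentiableWithinAt
    · rw [interior_Icc]
      intro u hu
      have h1 : HasDerivAt (fun u => (k + 3 : ℝ) * (∫ t in u..b, g t ^ (k + 2)) -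
          (k + 1) * (g u ^ 2 * ∫ t in u..b, g t ^ k))
          ((k + 3) * (-(g u ^ (k + 2))) - (k + 1) * (((2 : ℕ) : ℝ) * g u ^ (2 - 1) * g' u *
            (∫ t in u..b, g t ^ k) + g u ^ 2 * (-(g u ^ k)))) u :=
        ((hasDerivAt_tail hck2 hu).const_mul _).sub
        ((((hd u hu).pow 2).mul (hasDerivAt_tail hck hu)).const_mul _)
      rw [h1.deriv]
      have h2 := key_G k hc hd hconc hpos hu
      have h3 : 0 < g u := hpos u (Ioo_subset_Icc_self hu)
      have h4 := mul_nonneg h3.le (sub_nonneg.2 h2)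
      have h5 : g u ^ (k + 2) = g u * g u ^ (k + 1) := by ring
      have h6 : g u ^ 2 * g u ^ k = g u ^ (k + 2) := by ring
      have h7 : (g u) ^ (2 - 1) = g u := by norm_num
      rw [h7]
      push_cast
      nlinarith [h4, h5, h6]
  have h := hF hs (right_mem_Icc.2 hb) hs.2
  simp only [intervalIntegral.integral_same, mul_zero, sub_zero] at h
  linarith

end Vale.Agent.P254.Perm
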