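import Vale.Agent.P254.Perm.Defs

open MeasureTheory Set

namespace Vale.Agent.P254.Perm

namespace TQ408

theorem hasDerivAt_tail {b : ℝ} {f : ℝ → ℝ} (hf : ContinuousOn f (Icc 0 b)) {s : ℝ}
    (hs : s ∈ Ioo 0 b) : HasDerivAt (fun s => ∫ t in s..b, f t) (-f s) s := by
  have hn : Icc 0 b ∈ nhds s := Icc_mem_nhds hs.1 hs.2
  refine intervalIntegral.integral_hasDerivAt_left ?_ ?_ (hf.continuousAt hn)
  · refine ContinuousOn.intervalIntegrable (hf.mono ?_)
    rw [uIcc_of_le hs.2.le]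
    exact Icc_subset_Icc_left hs.1.le
  · exact (hf.mono Ioo_subset_Icc_self).stronglyMeasurableAtFilter isOpen_Ioo s hs

theorem continuousOn_tail {b : ℝ} {f : ℝ → ℝ} (hf : ContinuousOn f (Icc 0 b)) (hb : 0 ≤ b) :
    ContinuousOn (fun s => ∫ t in s..b, f t) (Icc 0 b) := by
  have h := intervalIntegral.continuousOn_primitive_interval_left (μ := volume) (f := f) (a := 0)
    (b := b) (by rw [uIcc_of_le hb]; exact hf.integrableOn_Icc)
  rwa [uIcc_of_le hb] at h

theorem integrable_tail {b : ℝ} {f : ℝ → ℝ} (hf : ContinuousOn f (Icc 0 b)) {s : ℝ}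
    (hs : s ∈ Icc 0 b) : IntervalIntegrable f volume s b := by
  refine ContinuousOn.intervalIntegrable (hf.mono ?_)
  rw [uIcc_of_le hs.2]
  exact Icc_subset_Icc_left hs.1

theorem tail_S {b : ℝ} {f : ℝ → ℝ} (hf : ContinuousOn f (Icc 0 b)) {s : ℝ}
    (hs : s ∈ Icc 0 b) :
    (∫ t in s..b, (t - s) * f t) = (∫ t in s..b, t * f t) - s * ∫ t in s..b, f t := by
  have h1 := integrable_tail hf hs
  have h2 : IntervalIntegrable (fun t => t * f t) volume s b :=
    integrable_tail (continuousOn_id.mul hf) hs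
  rw [← intervalIntegral.integral_const_mul, ← intervalIntegral.integral_sub h2 (h1.const_mul s)]
  refine intervalIntegral.integral_congr fun t _ => ?_
  ring

/-- supporting line -/
theorem line {b : ℝ} {g g' : ℝ → ℝ}
    (hd : ∀ s ∈ Ioo 0 b, HasDerivAt g (g' s) s) (hconc : ConcaveOn ℝ (Icc 0 b) g)
    {s t : ℝ} (hs : s ∈ Ioo 0 b) (ht : t ∈ Icc s b) : g t ≤ g s + g' s * (t - s) := by
  rcases ht.1.eq_or_lt with rfl | hst
  · simp
  have h := hconc.slope_le_of_hasDerivAt (Ioo_subset_Icc_self hs) ⟨hs.1.le.trans ht.1, ht.2⟩ hst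
    (hd s hs)
  rw [slope_def_field, div_le_iff₀ (sub_pos.2 hst)] at h
  linarith

theorem int_lin (k : ℕ) (s b c l : ℝ) :
    ((k : ℝ) + 1) * l * (∫ t in s..b, (c - l * (t - s)) ^ k) =
      c ^ (k + 1) - (c - l * (b - s)) ^ (k + 1) := by
  have h : ∀ t ∈ uIcc s b, HasDerivAt (fun t => -((c - l * (t - s)) ^ (k + 1)))
      (((k : ℝ) + 1) * l * (c - l * (t - s)) ^ k) t := by
    intro t _
    have h1 : HasDerivAt (fun t => c - l * (t - s)) (-l) t := by
      have := (((hasDerivAt_id t).sub_const s).const_mul l).const_sub c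
      simpa using this
    have h2 := (h1.pow (k + 1)).neg
    refine h2.congr_deriv ?_
    simp only [Nat.add_sub_cancel]
    push_cast
    ring
  have h3 := intervalIntegral.integral_eq_sub_of_hasDerivAt h
    (Continuous.intervalIntegrable (by fun_prop) _ _)
  rw [intervalIntegral.integral_const_mul] at h3
  rw [h3]
  simp
  ring

/-- `(k+1) l M <= g ^ (k+1)` -/
theorem tail_T (k : ℕ) {b : ℝ} {g g' : ℝ → ℝ} (hc : ContinuousOn g (Icc 0 b))
    (hd : ∀ s ∈ Ioo 0 b, HasDerivAt g (g' s) s) (hconc : ConcaveOn ℝ (Icc 0 b) g)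
    (hanti : AntitoneOn g (Icc 0 b)) (hpos : ∀ s ∈ Icc 0 b, 0 < g s) {s : ℝ} (hs : s ∈ Ioo 0 b) :
    ((k : ℝ) + 1) * (-g' s) * (∫ t in s..b, g t ^ k) ≤ g s ^ (k + 1) := by
  have hb : b ∈ Icc 0 b := ⟨hs.1.le.trans hs.2.le, le_rfl⟩
  have hl : 0 ≤ -g' s := by
    have h0 : g' s ≤ 0 := by
      have h1 := (hd s hs).hasDerivWithinAt (s := Icc 0 b)
      have h2 := hanti.derivWithin_nonpos (x := s)
      have h3 : derivWithin g (Icc 0 b) s = g' s :=
        h1.derivWithin (uniqueDiffWithinAt_of_mem_nhds (Icc_mem_nhds hs.1 hs.2))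
      rwa [h3] at h2
    linarith
  have h1 : (∫ t in s..b, g t ^ k) ≤ ∫ t in s..b, (g s - (-g' s) * (t - s)) ^ k := by
    refine intervalIntegral.integral_mono_on hs.2.le
      (integrable_tail (hc.pow k) (Ioo_subset_Icc_self hs))
      (Continuous.intervalIntegrable (by fun_prop) _ _) fun t ht => ?_
    refine pow_le_pow_left₀ (hpos t ⟨hs.1.le.trans ht.1, ht.2⟩).le ?_ k
    have := line hd hconc hs ht
    linarith
  have h2 := int_lin k s b (g s) (-g' s)
  have h3 : 0 ≤ (g s - (-g' s) * (b - s)) ^ (k + 1) := by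
    refine pow_nonneg ?_ _
    have := line hd hconc hs ⟨hs.2.le, le_rfl⟩
    have := hpos b hb
    linarith
  calc ((k : ℝ) + 1) * (-g' s) * (∫ t in s..b, g t ^ k)
      ≤ ((k : ℝ) + 1) * (-g' s) * ∫ t in s..b, (g s - (-g' s) * (t - s)) ^ k :=
        mul_le_mul_of_nonneg_left h1 (by positivity)
    _ ≤ g s ^ (k + 1) := by rw [h2]; linarith

theorem deriv_nonpos {b : ℝ} {g g' : ℝ → ℝ}
    (hd : ∀ s ∈ Ioo 0 b, HasDerivAt g (g' s) s)
    (hanti : AntitoneOn g (Icc 0 b)) {s : ℝ} (hs : s ∈ Ioo 0 b) : 0 ≤ -g' s := by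
  have h1 := (hd s hs).hasDerivWithinAt (s := Icc 0 b)
  have h2 := hanti.derivWithin_nonpos (x := s)
  have h3 : derivWithin g (Icc 0 b) s = g' s :=
    h1.derivWithin (uniqueDiffWithinAt_of_mem_nhds (Icc_mem_nhds hs.1 hs.2))
  rw [h3] at h2
  linarith

theorem tail_G' (k : ℕ) {b : ℝ} {g g' : ℝ → ℝ} (hc : ContinuousOn g (Icc 0 b))
    (hd : ∀ s ∈ Ioo 0 b, HasDerivAt g (g' s) s) (hconc : ConcaveOn ℝ (Icc 0 b) g)
    (hanti : AntitoneOn g (Icc 0 b)) (hpos : ∀ s ∈ Icc 0 b, 0 < g s) {s : ℝ} (hs : s ∈ Icc 0 b) :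
    (k + 1) * g s ^ 2 * (∫ t in s..b, g t ^ k) ≤ (k + 3) * ∫ t in s..b, g t ^ (k + 2) := by
  have hb : 0 ≤ b := hs.1.trans hs.2
  have hF : AntitoneOn (fun s => (k + 3) * (∫ t in s..b, g t ^ (k + 2)) -
      (k + 1) * (g s ^ 2 * (∫ t in s..b, g t ^ k))) (Icc 0 b) := by
    have hD : ∀ s ∈ Ioo 0 b, HasDerivAt (fun s => (k + 3) * (∫ t in s..b, g t ^ (k + 2)) -
        (k + 1) * (g s ^ 2 * (∫ t in s..b, g t ^ k)))
        ((k + 3) * (-(g s ^ (k + 2))) - (k + 1) * (2 * g s * g' s * (∫ t in s..b, g t ^ k) +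
          g s ^ 2 * (-(g s ^ k)))) s := by
      intro s hs
      have h1 := hasDerivAt_tail (hc.pow (k + 2)) hs
      have h2 := hasDerivAt_tail (hc.pow k) hs
      have h3 := (hd s hs).pow 2
      refine ((h1.const_mul ((k : ℝ) + 3)).sub ((h3.mul h2).const_mul ((k : ℝ) + 1))).congr_deriv ?_
      simp
    refine antitoneOn_of_deriv_nonpos (convex_Icc 0 b) ?_ ?_ ?_
    · exact (continuousOn_const.mul (continuousOn_tail (hc.pow (k + 2)) hb)).sub
        (continuousOn_const.mul ((hc.pow 2).mul (continuousOn_tail (hc.pow k) hb)))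
    · rw [interior_Icc]
      exact fun s hs => (hD s hs).differentiableAt.differentiableWithinAt
    · rw [interior_Icc]
      intro s hs
      rw [(hD s hs).deriv]
      have hg := hpos s (Ioo_subset_Icc_self hs)
      have hT := mul_le_mul_of_nonneg_left (tail_T k hc hd hconc hanti hpos hs) hg.le
      have e1 : g s ^ (k + 2) = g s * g s ^ (k + 1) := by ring
      have e2 : g s ^ 2 * (-(g s ^ k)) = - (g s * g s ^ (k + 1)) := by ring
      rw [e2, e1]
      nlinarith [hT]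
  have h := hF hs ⟨hb, le_rfl⟩ hs.2
  simp at h
  linarith

theorem key (k M Y τ : ℝ) (hk : 0 ≤ k) (hM : 0 ≤ M) (hY : 0 ≤ Y) (hY2 : (k + 3) * Y ≤ 2 * M)
    (hτ : 0 ≤ τ) (hτ1 : (k + 1) * τ ≤ 1) :
    -(k + 3) * Y - 2 * τ * M + (k + 2) * (k + 3) * τ * Y ≤ 0 := by
  rcases le_total ((k + 2) * τ) 1 with h | h
  · have h1 : 0 ≤ (k + 3) * Y * (1 - (k + 2) * τ) :=
      mul_nonneg (mul_nonneg (by linarith) hY) (by linarith)
    have h2 : 0 ≤ τ * M := mul_nonneg hτ hM
    nlinarith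
  · have h1 : 0 ≤ (2 * M - (k + 3) * Y) * ((k + 2) * τ - 1) :=
      mul_nonneg (by linarith) (by linarith)
    have h2 : 0 ≤ M * (1 - (k + 1) * τ) := mul_nonneg hM (by linarith)
    nlinarith

end TQ408

open TQ408 in
/-- [A1] -/
theorem tail_Q (k : ℕ) {b : ℝ} {g g' : ℝ → ℝ} (hc : ContinuousOn g (Icc 0 b))
    (hd : ∀ s ∈ Ioo 0 b, HasDerivAt g (g' s) s) (hconc : ConcaveOn ℝ (Icc 0 b) g)
    (hanti : AntitoneOn g (Icc 0 b)) (hpos : ∀ s ∈ Icc 0 b, 0 < g s) {s : ℝ} (hs : s ∈ Icc 0 b) :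
    4 * (k + 2) * (∫ t in s..b, (t - s) * g t ^ k) * g s ^ (k + 2) +
        k * (k + 3) * (∫ t in s..b, g t ^ k) * (∫ t in s..b, g t ^ (k + 2)) ≤
      (k + 1) * (k + 4) * (∫ t in s..b, g t ^ k) ^ 2 * g s ^ 2 := by
  have hb : 0 ≤ b := hs.1.trans hs.2
  have hne : ∀ s ∈ Icc 0 b, g s ≠ 0 := fun s hs => (hpos s hs).ne'
  have hcu : ContinuousOn (fun s => (g s)⁻¹) (Icc 0 b) := hc.inv₀ hne
  have hck := hc.pow k
  have hck2 := hc.pow (k + 2)
  have hctk : ContinuousOn (fun t => t * g t ^ k) (Icc 0 b) := continuousOn_id.mul hck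
  set F : ℝ → ℝ := fun s => ((k : ℝ) + 1) * (k + 4) * ((∫ t in s..b, g t ^ k) ^ 2 * (g s)⁻¹ ^ k) -
    4 * (k + 2) * ((∫ t in s..b, t * g t ^ k) - s * ∫ t in s..b, g t ^ k) -
    k * (k + 3) * ((∫ t in s..b, g t ^ k) * (∫ t in s..b, g t ^ (k + 2)) * (g s)⁻¹ ^ (k + 2))
    with hFdef
  have hF : AntitoneOn F (Icc 0 b) := by
    have hD : ∀ s ∈ Ioo 0 b, HasDerivAt F
        (((k : ℝ) + 1) * (k + 4) * (2 * (∫ t in s..b, g t ^ k) * (-(g s ^ k)) * (g s)⁻¹ ^ k +
            (∫ t in s..b, g t ^ k) ^ 2 * (k * (-g' s) * (g s)⁻¹ ^ (k + 1))) -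
          4 * (k + 2) * (-(s * g s ^ k) - (1 * (∫ t in s..b, g t ^ k) + s * (-(g s ^ k)))) -
          k * (k + 3) * ((-(g s ^ k) * (∫ t in s..b, g t ^ (k + 2)) +
            (∫ t in s..b, g t ^ k) * (-(g s ^ (k + 2)))) * (g s)⁻¹ ^ (k + 2) +
            (∫ t in s..b, g t ^ k) * (∫ t in s..b, g t ^ (k + 2)) *
              ((k + 2) * (-g' s) * (g s)⁻¹ ^ (k + 3)))) s := by
      intro s hs
      have hg := hne s (Ioo_subset_Icc_self hs)
      have h1 := hasDerivAt_tail hck hs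
      have h2 := hasDerivAt_tail hck2 hs
      have h3 := hasDerivAt_tail hctk hs
      have hu : HasDerivAt (fun s => (g s)⁻¹) ((-g' s) * (g s)⁻¹ ^ 2) s := by
        refine ((hd s hs).inv hg).congr_deriv ?_
        field_simp
      have hu1 : HasDerivAt (fun s => (g s)⁻¹ ^ k) (k * (-g' s) * (g s)⁻¹ ^ (k + 1)) s := by
        refine (hu.pow k).congr_deriv ?_
        rcases k with _ | k
        · simp
        · simp only [Nat.add_sub_cancel]
          ring
      have hu2 : HasDerivAt (fun s => (g s)⁻¹ ^ (k + 2))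
          ((k + 2) * (-g' s) * (g s)⁻¹ ^ (k + 3)) s := by
        refine (hu.pow (k + 2)).congr_deriv ?_
        have : k + 2 - 1 = k + 1 := rfl
        rw [this]
        push_cast
        ring
      have hM2 : HasDerivAt (fun s => (∫ t in s..b, g t ^ k) ^ 2)
          (2 * (∫ t in s..b, g t ^ k) * (-(g s ^ k))) s := by
        refine (h1.pow 2).congr_deriv ?_
        simp
      exact (((hM2.mul hu1).const_mul (((k : ℝ) + 1) * (k + 4))).sub
        ((h3.sub ((hasDerivAt_id s).mul h1)).const_mul (4 * ((k : ℝ) + 2)))).sub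
          (((h1.mul h2).mul hu2).const_mul ((k : ℝ) * (k + 3)))
    refine antitoneOn_of_deriv_nonpos (convex_Icc 0 b) ?_ ?_ ?_
    · have c1 := continuousOn_tail hck hb
      have c2 := continuousOn_tail hck2 hb
      have c3 := continuousOn_tail hctk hb
      exact ((continuousOn_const.mul ((c1.pow 2).mul (hcu.pow k))).sub
        (continuousOn_const.mul (c3.sub (continuousOn_id.mul c1)))).sub
          (continuousOn_const.mul ((c1.mul c2).mul (hcu.pow (k + 2))))
    · rw [interior_Icc]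
      exact fun s hs => (hD s hs).differentiableAt.differentiableWithinAt
    · rw [interior_Icc]
      intro s hs
      rw [(hD s hs).deriv]
      have hs' := Ioo_subset_Icc_self hs
      have hg := hpos s hs'
      have hT := tail_T k hc hd hconc hanti hpos hs
      have hl := deriv_nonpos hd hanti hs
      have hG := tail_G' k hc hd hconc hanti hpos hs'
      have hM0 : 0 ≤ ∫ t in s..b, g t ^ k :=
        intervalIntegral.integral_nonneg hs.2.le fun t ht =>
          (pow_pos (hpos t ⟨hs.1.le.trans ht.1, ht.2⟩) k).le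
      have hPM : (∫ t in s..b, g t ^ (k + 2)) ≤ g s ^ 2 * ∫ t in s..b, g t ^ k := by
        rw [← intervalIntegral.integral_const_mul]
        refine intervalIntegral.integral_mono_on hs.2.le (integrable_tail hck2 hs')
          ((integrable_tail hck hs').const_mul _) fun t ht => ?_
        have ht' : t ∈ Icc 0 b := ⟨hs.1.le.trans ht.1, ht.2⟩
        have h1 := hanti hs' ht' ht.1
        have h2 := (hpos t ht').le
        calc g t ^ (k + 2) = g t ^ 2 * g t ^ k := by ring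
          _ ≤ g s ^ 2 * g t ^ k :=
            mul_le_mul_of_nonneg_right (pow_le_pow_left₀ h2 h1 2) (pow_nonneg h2 k)
      generalize (∫ t in s..b, g t ^ k) = M at *
      generalize (∫ t in s..b, g t ^ (k + 2)) = P at *
      have hu0 : 0 < (g s)⁻¹ := inv_pos.2 hg
      have hgu : g s * (g s)⁻¹ = 1 := mul_inv_cancel₀ hg.ne'
      generalize (g s)⁻¹ = u at *
      generalize g s = v at *
      generalize -g' s = l at *
      have e1 : v ^ k * u ^ k = 1 := by rw [← mul_pow, hgu, one_pow]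
      have e2 : v ^ (k + 2) * u ^ (k + 2) = 1 := by rw [← mul_pow, hgu, one_pow]
      have e3 : v ^ k * u ^ (k + 2) = u ^ 2 := by rw [pow_add, ← mul_assoc, e1, one_mul]
      have e4 : v ^ (k + 1) * u ^ (k + 1) = 1 := by rw [← mul_pow, hgu, one_pow]
      have e5 : v ^ 2 * u ^ 2 = 1 := by rw [← mul_pow, hgu, one_pow]
      have hk := key k M (M - P * u ^ 2) (l * M * u ^ (k + 1)) (Nat.cast_nonneg k) hM0 ?_ ?_ ?_ ?_
      · have hfin := mul_nonpos_of_nonneg_of_nonpos (Nat.cast_nonneg (α := ℝ) k) hk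
        refine le_of_eq_of_le ?_ hfin
        have e6 : u ^ (k + 3) = u ^ (k + 1) * u ^ 2 := by ring
        have e7 : (-(v ^ k) * P + M * (-(v ^ (k + 2)))) * u ^ (k + 2) = - P * u ^ 2 - M := by
          linear_combination (-P) * e3 - M * e2
        have e8 : 2 * M * (-(v ^ k)) * u ^ k = - 2 * M := by
          linear_combination (-2 * M) * e1
        rw [e7, e8, e6]
        ring
      · have := mul_le_mul_of_nonneg_right hPM (sq_nonneg u)
        have h2 : v ^ 2 * M * u ^ 2 = M := by linear_combination M * e5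
        linarith
      · have := mul_le_mul_of_nonneg_right hG (sq_nonneg u)
        have h2 : (k + 1) * v ^ 2 * M * u ^ 2 = (k + 1) * M := by
          linear_combination ((k : ℝ) + 1) * M * e5
        nlinarith
      · positivity
      · have := mul_le_mul_of_nonneg_right hT (pow_nonneg hu0.le (k + 1))
        rw [e4] at this
        linarith
  have h := hF hs ⟨hb, le_rfl⟩ hs.2
  have hFb : F b = 0 := by simp [hFdef]
  rw [hFb] at h
  have hg := hpos s hs
  have h2 := mul_nonneg h (pow_pos hg (k + 2)).le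
  have hgu : g s * (g s)⁻¹ = 1 := mul_inv_cancel₀ hg.ne'
  have hS := tail_S (f := fun t => g t ^ k) hck hs
  rw [hS]
  simp only [hFdef] at h2
  have e1 : (g s)⁻¹ ^ k * g s ^ (k + 2) = g s ^ 2 := by
    rw [pow_add, ← mul_assoc, ← mul_pow, mul_comm (g s)⁻¹, hgu, one_pow, one_mul]
  have e2 : (g s)⁻¹ ^ (k + 2) * g s ^ (k + 2) = 1 := by
    rw [← mul_pow, mul_comm (g s)⁻¹, hgu, one_pow]
  generalize (∫ t in s..b, g t ^ k) = M at *
  generalize (∫ t in s..b, g t ^ (k + 2)) = P at *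
  generalize (∫ t in s..b, t * g t ^ k) = Q at *
  have e3 : (((k : ℝ) + 1) * (k + 4) * (M ^ 2 * (g s)⁻¹ ^ k) - 4 * (k + 2) * (Q - s * M) -
      k * (k + 3) * (M * P * (g s)⁻¹ ^ (k + 2))) * g s ^ (k + 2) =
      (k + 1) * (k + 4) * M ^ 2 * g s ^ 2 - (4 * (k + 2) * (Q - s * M) * g s ^ (k + 2) +
        k * (k + 3) * M * P) := by
    linear_combination ((k : ℝ) + 1) * (k + 4) * M ^ 2 * e1 - (k : ℝ) * (k + 3) * (M * P) * e2
  rw [e3] at h2
  linarith

end Vale.Agent.P254.Perm
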