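import Vale.Agent.P254.Perm.Elem
import Vale.Agent.P254.Perm.TailG
import Vale.Agent.P254.Perm.TailQ

/-!
P254, permutation invariant bodies: the one-dimensional inequality for decreasing concave functions
with a derivative (leaf `dec_C1`).
-/

open MeasureTheory Set Filter Topology

namespace Vale.Agent.P254.Perm

/-- The pointwise inequality behind `dec_C1`. -/
theorem decC_key (k : ℕ) (hk : 1 ≤ k) {G M P S : ℝ} (hG : 0 < G) (hM : 0 < M) (_hP : 0 < P)
    (hS : 0 ≤ S) (h1 : ((k : ℝ) + 1) * G ^ 2 * M ≤ (k + 3) * P)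
    (h2 : 4 * ((k : ℝ) + 2) * S * G ^ (k + 2) + k * (k + 3) * M * P ≤
      (k + 1) * (k + 4) * M ^ 2 * G ^ 2) :
    S ^ 2 * P ^ (k + 1) ≤ kap k * M ^ (k + 4) * ((k + 3) * P - k * G ^ 2 * M) := by
  have hk0 : (0 : ℝ) ≤ k := Nat.cast_nonneg k
  have hk1 : (0 : ℝ) < (k : ℝ) + 1 := by positivity
  have hk2 : (0 : ℝ) < (k : ℝ) + 2 := by positivity
  have hk3 : (0 : ℝ) < (k : ℝ) + 3 := by positivity
  obtain ⟨h, hh⟩ : ∃ h : ℝ, P = (k + 1) * M * G ^ 2 * (1 + h) / (k + 3) := by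
    refine ⟨(k + 3) * P / ((k + 1) * M * G ^ 2) - 1, ?_⟩
    field_simp
    ring
  obtain ⟨β, hβ⟩ : ∃ β : ℝ, S = β * (k + 1) * M ^ 2 / ((k + 2) * G ^ k) := by
    refine ⟨(k + 2) * S * G ^ k / ((k + 1) * M ^ 2), ?_⟩
    field_simp
  have hh0 : 0 ≤ h := by
    by_contra hcon
    push Not at hcon
    have e : ((k : ℝ) + 3) * P = (k + 1) * M * G ^ 2 * (1 + h) := by rw [hh]; field_simp
    have : 0 < -h * ((k + 1) * M * G ^ 2) := by
      have : 0 < -h := by linarith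
      positivity
    nlinarith
  have hβ0 : 0 ≤ β := by
    have e : β = (k + 2) * S * G ^ k / ((k + 1) * M ^ 2) := by
      rw [hβ]; field_simp
    rw [e]; positivity
  have hQ : 4 * β + k * (1 + h) ≤ k + 4 := by
    have e1 : 4 * ((k : ℝ) + 2) * S * G ^ (k + 2) = 4 * β * ((k + 1) * M ^ 2 * G ^ 2) := by
      rw [hβ, pow_add]; field_simp
    have e2 : (k : ℝ) * (k + 3) * M * P = k * (1 + h) * ((k + 1) * M ^ 2 * G ^ 2) := by
      rw [hh]; field_simp
    rw [e1, e2] at h2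
    have e3 : ((k : ℝ) + 1) * (k + 4) * M ^ 2 * G ^ 2 = (k + 4) * ((k + 1) * M ^ 2 * G ^ 2) := by
      ring
    rw [e3] at h2
    have hp : 0 < ((k : ℝ) + 1) * M ^ 2 * G ^ 2 := by positivity
    nlinarith
  have hkh : (k : ℝ) * h ≤ 4 := by nlinarith
  have he := elem k hk hh0 hkh
  have hb2 : β ^ 2 ≤ (1 - k * h / 4) ^ 2 := by
    apply pow_le_pow_left₀ hβ0
    nlinarith
  have hfin : β ^ 2 * (1 + h) ^ (k + 1) ≤ 1 + (k + 1) * h :=
    (mul_le_mul_of_nonneg_right hb2 (by positivity)).trans he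
  have eL : S ^ 2 * P ^ (k + 1) = kap k * M ^ (k + 5) * G ^ 2 * (β ^ 2 * (1 + h) ^ (k + 1)) := by
    rw [hβ, hh, kap]
    simp only [div_pow, mul_pow]
    field_simp
    ring
  have eR : kap k * M ^ (k + 4) * ((k + 3) * P - k * G ^ 2 * M) =
      kap k * M ^ (k + 5) * G ^ 2 * (1 + (k + 1) * h) := by
    have : ((k : ℝ) + 3) * P = (k + 1) * M * G ^ 2 * (1 + h) := by rw [hh]; field_simp
    rw [this]
    ring
  rw [eL, eR]
  apply mul_le_mul_of_nonneg_left hfin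
  have : 0 ≤ kap k := by unfold kap; positivity
  positivity

/-- Derivative of an integral with variable lower end. -/
theorem decC_deriv {f : ℝ → ℝ} (hf : Continuous f) (b s : ℝ) :
    HasDerivAt (fun s => ∫ t in s..b, f t) (-f s) s :=
  intervalIntegral.integral_hasDerivAt_left (hf.intervalIntegrable _ _)
    (hf.stronglyMeasurableAtFilter _ _) hf.continuousAt

/-- The statement for a globally continuous function. -/
theorem decC_cont (k : ℕ) (hk : 1 ≤ k) {b : ℝ} (hb : 0 < b) {g g' : ℝ → ℝ} (hc : Continuous g)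
    (hd : ∀ s ∈ Ioo 0 b, HasDerivAt g (g' s) s) (hconc : ConcaveOn ℝ (Icc 0 b) g)
    (hanti : AntitoneOn g (Icc 0 b)) (hpos : ∀ s ∈ Icc 0 b, 0 < g s) :
    ((∫ t in (0 : ℝ)..b, g t ^ k) * (∫ t in (0 : ℝ)..b, t ^ 2 * g t ^ k) -
        (∫ t in (0 : ℝ)..b, t * g t ^ k) ^ 2) * (∫ t in (0 : ℝ)..b, g t ^ (k + 2)) ^ k ≤
      kap k * (∫ t in (0 : ℝ)..b, g t ^ k) ^ (k + 4) := by
  have c0 : Continuous fun t => g t ^ k := hc.pow k
  have c1 : Continuous fun t => t * g t ^ k := continuous_id.mul c0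
  have c2 : Continuous fun t => t ^ 2 * g t ^ k := (continuous_id.pow 2).mul c0
  have c3 : Continuous fun t => g t ^ (k + 2) := hc.pow _
  set M : ℝ → ℝ := fun s => ∫ t in s..b, g t ^ k with hM
  set T : ℝ → ℝ := fun s => ∫ t in s..b, t * g t ^ k with hT
  set U : ℝ → ℝ := fun s => ∫ t in s..b, t ^ 2 * g t ^ k with hU
  set P : ℝ → ℝ := fun s => ∫ t in s..b, g t ^ (k + 2) with hP
  have dM : ∀ s, HasDerivAt M (-(g s ^ k)) s := fun s => decC_deriv c0 b s
  have dT : ∀ s, HasDerivAt T (-(s * g s ^ k)) s := fun s => decC_deriv c1 b s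
  have dU : ∀ s, HasDerivAt U (-(s ^ 2 * g s ^ k)) s := fun s => decC_deriv c2 b s
  have dP : ∀ s, HasDerivAt P (-(g s ^ (k + 2))) s := fun s => decC_deriv c3 b s
  set S : ℝ → ℝ := fun s => T s - s * M s with hS
  set R : ℝ → ℝ := fun s => U s - 2 * s * T s + s ^ 2 * M s with hR
  have dS : ∀ s, HasDerivAt S (-(M s)) s := by
    intro s
    have h1 := (dT s).sub ((hasDerivAt_id s).mul (dM s))
    have h2 : -(s * g s ^ k) - (1 * M s + id s * -(g s ^ k)) = -(M s) := by simp only [id]; ring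
    rw [h2] at h1
    exact h1
  have dR : ∀ s, HasDerivAt R (-2 * S s) s := by
    intro s
    have h1 := ((dU s).sub (((hasDerivAt_id s).const_mul 2).mul (dT s))).add
      (((hasDerivAt_id s).pow 2).mul (dM s))
    refine (h1.congr_deriv ?_)
    simp only [hS, id]
    push_cast
    simp
    ring
  have hMpos : ∀ s, 0 ≤ s → s < b → 0 < M s := by
    intro s h0 h1
    apply intervalIntegral.intervalIntegral_pos_of_pos_on (c0.intervalIntegrable _ _) _ h1
    intro t ht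
    exact pow_pos (hpos t ⟨h0.trans ht.1.le, ht.2.le⟩) _
  have hPpos : ∀ s, 0 ≤ s → s < b → 0 < P s := by
    intro s h0 h1
    apply intervalIntegral.intervalIntegral_pos_of_pos_on (c3.intervalIntegrable _ _) _ h1
    intro t ht
    exact pow_pos (hpos t ⟨h0.trans ht.1.le, ht.2.le⟩) _
  have hSeq : ∀ s, S s = ∫ t in s..b, (t - s) * g t ^ k := by
    intro s
    have e : (∫ t in s..b, (t - s) * g t ^ k) = ∫ t in s..b, (t * g t ^ k - s * g t ^ k) := by
      congr 1; ext t; ring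
    rw [e, intervalIntegral.integral_sub (c1.intervalIntegrable _ _)
      ((c0.const_mul s).intervalIntegrable _ _), intervalIntegral.integral_const_mul]
  have hS0 : ∀ s, 0 ≤ s → s < b → 0 ≤ S s := by
    intro s h0 h1
    rw [hSeq]
    apply intervalIntegral.integral_nonneg h1.le
    intro t ht
    exact mul_nonneg (by linarith [ht.1]) (pow_nonneg (hpos t ⟨h0.trans ht.1, ht.2⟩).le _)
  set Φ : ℝ → ℝ := fun s => kap k * (M s ^ (k + 3) / P s ^ k) + S s ^ 2 / M s - R s with hΦ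
  have dΦ : ∀ s, 0 ≤ s → s < b → HasDerivAt Φ
      (kap k * ((((k + 3 : ℕ) : ℝ) * M s ^ (k + 2) * (-(g s ^ k)) * P s ^ k -
        M s ^ (k + 3) * ((k : ℝ) * P s ^ (k - 1) * (-(g s ^ (k + 2))))) / (P s ^ k) ^ 2) +
        (((2 : ℕ) : ℝ) * S s ^ (2 - 1) * (-(M s)) * M s - S s ^ 2 * (-(g s ^ k))) / (M s) ^ 2 -
        (-2 * S s)) s := by
    intro s h0 h1
    have hm := hMpos s h0 h1
    have hp := hPpos s h0 h1
    have a1 := (((dM s).pow (k + 3)).div ((dP s).pow k) (pow_pos hp k).ne').const_mul (kap k)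
    have a2 := ((dS s).pow 2).div (dM s) hm.ne'
    exact (a1.add a2).sub (dR s)
  have hneg : ∀ s, 0 < s → s < b →
      (kap k * ((((k + 3 : ℕ) : ℝ) * M s ^ (k + 2) * (-(g s ^ k)) * P s ^ k -
        M s ^ (k + 3) * ((k : ℝ) * P s ^ (k - 1) * (-(g s ^ (k + 2))))) / (P s ^ k) ^ 2) +
        (((2 : ℕ) : ℝ) * S s ^ (2 - 1) * (-(M s)) * M s - S s ^ 2 * (-(g s ^ k))) / (M s) ^ 2 -
        (-2 * S s)) ≤ 0 := by
    intro s h0 h1
    have hm := hMpos s h0.le h1
    have hp := hPpos s h0.le h1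
    have hs : s ∈ Icc 0 b := ⟨h0.le, h1.le⟩
    have hg := hpos s hs
    have hG := tail_G k hc.continuousOn hd hconc hanti hpos hs
    have hQ := tail_Q k hc.continuousOn hd hconc hanti hpos hs
    rw [← hSeq] at hQ
    have key := decC_key k hk hg hm hp (hS0 s h0.le h1) hG hQ
    obtain ⟨j, rfl⟩ : ∃ j, k = j + 1 := ⟨k - 1, by omega⟩
    have e : (kap (j + 1) * ((((j + 1 + 3 : ℕ) : ℝ) * M s ^ (j + 1 + 2) * (-(g s ^ (j + 1))) *
          P s ^ (j + 1) - M s ^ (j + 1 + 3) * (((j + 1 : ℕ) : ℝ) * P s ^ (j + 1 - 1) *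
            (-(g s ^ (j + 1 + 2))))) / (P s ^ (j + 1)) ^ 2) +
        (((2 : ℕ) : ℝ) * S s ^ (2 - 1) * (-(M s)) * M s - S s ^ 2 * (-(g s ^ (j + 1)))) /
          (M s) ^ 2 - (-2 * S s)) =
        g s ^ (j + 1) / (M s ^ 2 * P s ^ (j + 1 + 1)) * (S s ^ 2 * P s ^ (j + 1 + 1) -
          kap (j + 1) * M s ^ (j + 1 + 4) * ((((j + 1 : ℕ) : ℝ) + 3) * P s -
            ((j + 1 : ℕ) : ℝ) * g s ^ 2 * M s)) := by
      simp only [Nat.add_sub_cancel]
      push_cast
      field_simp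
      ring
    rw [e]
    apply mul_nonpos_of_nonneg_of_nonpos (by positivity)
    linarith
  -- `Φ` is antitone
  have hmono : ∀ c, 0 < c → c < b → Φ c ≤ Φ 0 := by
    intro c h0 h1
    have hanti' : AntitoneOn Φ (Icc 0 c) := by
      apply antitoneOn_of_deriv_nonpos (convex_Icc 0 c)
      · intro s hs
        exact (dΦ s hs.1 (hs.2.trans_lt h1)).continuousAt.continuousWithinAt
      · intro s hs
        rw [interior_Icc] at hs
        exact (dΦ s hs.1.le (hs.2.trans h1)).differentiableAt.differentiableWithinAt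
      · intro s hs
        rw [interior_Icc] at hs
        rw [(dΦ s hs.1.le (hs.2.trans h1)).deriv]
        exact hneg s hs.1 (hs.2.trans h1)
    exact hanti' ⟨le_rfl, h0.le⟩ ⟨h0.le, le_rfl⟩ h0.le
  have hkap : 0 ≤ kap k := by unfold kap; positivity
  have hlow : ∀ c, 0 < c → c < b → -R c ≤ Φ 0 := by
    intro c h0 h1
    refine le_trans ?_ (hmono c h0 h1)
    have hm := hMpos c h0.le h1
    have hp := hPpos c h0.le h1
    have a1 : 0 ≤ kap k * (M c ^ (k + 3) / P c ^ k) := by positivity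
    have a2 : 0 ≤ S c ^ 2 / M c := by positivity
    simp only [hΦ]
    linarith
  have hRb : R b = 0 := by
    simp [hR, hU, hT, hM]
  have hlim : 0 ≤ Φ 0 := by
    have ht : Tendsto (fun c => -R c) (𝓝[<] b) (𝓝 (-R b)) :=
      ((dR b).continuousAt.neg).tendsto.mono_left nhdsWithin_le_nhds
    rw [hRb, neg_zero] at ht
    apply le_of_tendsto ht
    filter_upwards [Ioo_mem_nhdsLT hb] with c hc
    exact hlow c hc.1 hc.2
  have hm := hMpos 0 le_rfl hb
  have hp := hPpos 0 le_rfl hb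
  have e0 : S 0 = T 0 := by simp [hS]
  have e1 : R 0 = U 0 := by simp [hR]
  simp only [hΦ, e0, e1] at hlim
  show (M 0 * U 0 - T 0 ^ 2) * P 0 ^ k ≤ kap k * M 0 ^ (k + 4)
  have h3 : 0 ≤ (kap k * (M 0 ^ (k + 3) / P 0 ^ k) + T 0 ^ 2 / M 0 - U 0) * (M 0 * P 0 ^ k) :=
    mul_nonneg hlim (by positivity)
  have h4 : (kap k * (M 0 ^ (k + 3) / P 0 ^ k) + T 0 ^ 2 / M 0 - U 0) * (M 0 * P 0 ^ k) =
      kap k * M 0 ^ (k + 4) - (M 0 * U 0 - T 0 ^ 2) * P 0 ^ k := by
    field_simp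
    ring
  linarith

/-- [A3] the one-dimensional inequality for decreasing concave functions with a derivative -/
theorem dec_C1 (k : ℕ) (hk : 1 ≤ k) {b : ℝ} (hb : 0 < b) {g g' : ℝ → ℝ}
    (hc : ContinuousOn g (Icc 0 b))
    (hd : ∀ s ∈ Ioo 0 b, HasDerivAt g (g' s) s) (hconc : ConcaveOn ℝ (Icc 0 b) g)
    (hanti : AntitoneOn g (Icc 0 b)) (hpos : ∀ s ∈ Icc 0 b, 0 < g s) :
    ((∫ t in (0 : ℝ)..b, g t ^ k) * (∫ t in (0 : ℝ)..b, t ^ 2 * g t ^ k) -
        (∫ t in (0 : ℝ)..b, t * g t ^ k) ^ 2) * (∫ t in (0 : ℝ)..b, g t ^ (k + 2)) ^ k ≤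
      kap k * (∫ t in (0 : ℝ)..b, g t ^ k) ^ (k + 4) := by
  set G : ℝ → ℝ := IccExtend hb.le (domRestrict (Icc 0 b) g) with hG
  have hGc : Continuous G := (continuousOn_iff_continuous_domRestrict.1 hc).Icc_extend'
  have hGe : ∀ s ∈ Icc 0 b, G s = g s := by
    intro s hs
    rw [hG, IccExtend_of_mem _ _ hs]
    rfl
  have hcongr : ∀ F : ℝ → ℝ → ℝ, (∫ t in (0 : ℝ)..b, F t (g t)) = ∫ t in (0 : ℝ)..b, F t (G t) := by
    intro F
    apply intervalIntegral.integral_congr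
    intro t ht
    rw [uIcc_of_le hb.le] at ht
    simp only [hGe t ht]
  have h := decC_cont k hk hb (g := G) (g' := g') hGc ?_ ?_ ?_ ?_
  · rw [hcongr fun _ y => y ^ k, hcongr fun t y => t ^ 2 * y ^ k, hcongr fun t y => t * y ^ k,
      hcongr fun _ y => y ^ (k + 2)]
    exact h
  · intro s hs
    apply (hd s hs).congr_of_eventuallyEq
    filter_upwards [Ioo_mem_nhds hs.1 hs.2] with t ht
    exact hGe t ⟨ht.1.le, ht.2.le⟩
  · exact hconc.congr fun s hs => (hGe s hs).symm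
  · exact hanti.congr fun s hs => (hGe s hs).symm
  · intro s hs
    rw [hGe s hs]
    exact hpos s hs

end Vale.Agent.P254.Perm
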