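import Vale.Agent.P254.Perm.Defs

/-! # P254/Perm, leaf A2 -/

open MeasureTheory Set Filter
open scoped Topology

namespace Vale.Agent.P254.Perm

/-! ## the elementary inequality -/

theorem elem (k : ℕ) (hk : 1 ≤ k) {h : ℝ} (h0 : 0 ≤ h) (h1 : (k : ℝ) * h ≤ 4) :
    (1 - k * h / 4) ^ 2 * (1 + h) ^ (k + 1) ≤ 1 + (k + 1) * h := by
  have hk0 : (0 : ℝ) < k := by exact_mod_cast hk
  replace h1 : (k : ℝ) * h / 4 ≤ 1 := by linarith
  rcases eq_or_lt_of_le h1 with he | hlt
  · rw [he]
    have : 0 ≤ 1 + ((k : ℝ) + 1) * h := by positivity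
    simpa using this
  -- the function `φ`
  set φ : ℝ → ℝ := fun y => Real.log (1 + (k + 1) * y) - (k + 1) * Real.log (1 + y)
    - 2 * Real.log (1 - k * y / 4) with hφ
  have hpos : ∀ y ∈ Icc 0 h, 0 < 1 - k * y / 4 := fun y hy => by
    have : (k : ℝ) * y / 4 ≤ k * h / 4 := by
      have := mul_le_mul_of_nonneg_left hy.2 hk0.le
      linarith
    linarith
  have hder : ∀ y ∈ Icc 0 h, HasDerivAt φ ((k + 1) / (1 + (k + 1) * y) - (k + 1) * (1 / (1 + y))
      - 2 * (-(k / 4) / (1 - k * y / 4))) y := fun y hy => by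
    have p1 : 0 < 1 + ((k : ℝ) + 1) * y := by have := hy.1; positivity
    have p2 : 0 < 1 + y := by have := hy.1; positivity
    have p3 := hpos y hy
    have d1 : HasDerivAt (fun y : ℝ => 1 + ((k : ℝ) + 1) * y) ((k : ℝ) + 1) y := by
      simpa using ((hasDerivAt_id y).const_mul ((k : ℝ) + 1)).const_add 1
    have d2 : HasDerivAt (fun y : ℝ => 1 + y) 1 y := by
      simpa using (hasDerivAt_id y).const_add 1
    have d3 : HasDerivAt (fun y : ℝ => 1 - (k : ℝ) * y / 4) (-((k : ℝ) / 4)) y := by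
      have := (((hasDerivAt_id y).const_mul (k : ℝ)).div_const 4).const_sub 1
      simpa using this
    exact ((d1.log p1.ne').sub ((d2.log p2.ne').const_mul _)).sub ((d3.log p3.ne').const_mul 2)
  have hmono : MonotoneOn φ (Icc 0 h) := by
    refine monotoneOn_of_deriv_nonneg (convex_Icc 0 h)
      (fun y hy => (hder y hy).continuousAt.continuousWithinAt)
      (fun y hy => (hder y (interior_subset hy)).differentiableAt.differentiableWithinAt) ?_
    intro y hy
    have hy' := interior_subset hy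
    rw [(hder y hy').deriv]
    have p1 : 0 < 1 + ((k : ℝ) + 1) * y := by have := hy'.1; positivity
    have p2 : 0 < 1 + y := by have := hy'.1; positivity
    have p3 := hpos y hy'
    have e : (k + 1) / (1 + (k + 1) * y) - (k + 1) * (1 / (1 + y))
      - 2 * (-(k / 4) / (1 - k * y / 4)) = (k / 2) * (1 - k * y + (k + 1) * (1 + k / 2) * y ^ 2)
        / ((1 + (k + 1) * y) * (1 + y) * (1 - k * y / 4)) := by
      have p4 : (4 : ℝ) - k * y ≠ 0 := by
        intro h4
        rw [show (1 : ℝ) - k * y / 4 = (4 - k * y) / 4 by ring, h4] at p3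
        simp at p3
      rw [show (1 : ℝ) - k * y / 4 = (4 - k * y) / 4 by ring]
      field_simp
      ring
    rw [e]
    have hq : 0 ≤ 1 - (k : ℝ) * y + (k + 1) * (1 + k / 2) * y ^ 2 := by
      nlinarith [sq_nonneg (1 - (k : ℝ) * y / 2), sq_nonneg y, mul_nonneg hk0.le (sq_nonneg y),
        mul_nonneg (mul_nonneg hk0.le hk0.le) (sq_nonneg y)]
    positivity
  have h2 := hmono (left_mem_Icc.2 h0) (right_mem_Icc.2 h0) h0
  have h3 : φ 0 = 0 := by simp [hφ]
  rw [h3] at h2
  have p1 : 0 < 1 + ((k : ℝ) + 1) * h := by positivity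
  have p2 : 0 < 1 + h := by positivity
  have p3 := hpos h (right_mem_Icc.2 h0)
  rw [← Real.log_le_log_iff (by positivity) p1, Real.log_mul (by positivity) (by positivity),
    Real.log_pow, Real.log_pow]
  simp only [hφ] at h2
  push_cast
  linarith

end Vale.Agent.P254.Perm
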