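import Vale.Agent.P254.Perm.DecC912
import Vale.Agent.P254.Perm.TailG
import Vale.Agent.P254.Perm.TailQ
import Vale.Agent.P254.Perm.Elem

open MeasureTheory Set

namespace Vale.Agent.P254.Perm.D912

/-- [A3] -/
theorem dec_C1 (k : ℕ) (hk : 1 ≤ k) {b : ℝ} (hb : 0 < b) {g g' : ℝ → ℝ}
    (hc : ContinuousOn g (Icc 0 b))
    (hd : ∀ s ∈ Ioo 0 b, HasDerivAt g (g' s) s) (hconc : ConcaveOn ℝ (Icc 0 b) g)
    (hanti : AntitoneOn g (Icc 0 b)) (hpos : ∀ s ∈ Icc 0 b, 0 < g s) :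
    ((∫ t in (0 : ℝ)..b, g t ^ k) * (∫ t in (0 : ℝ)..b, t ^ 2 * g t ^ k) -
        (∫ t in (0 : ℝ)..b, t * g t ^ k) ^ 2) * (∫ t in (0 : ℝ)..b, g t ^ (k + 2)) ^ k ≤
      kap k * (∫ t in (0 : ℝ)..b, g t ^ k) ^ (k + 4) :=
  dec_C1_of k hk hb hc hpos (fun _ h0 h1 => elem k hk h0 h1)
    (fun _ hs => tail_G k hc hd hconc hanti hpos hs)
    (fun _ hs => tail_Q k hc hd hconc hanti hpos hs)

end Vale.Agent.P254.Perm.D912
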