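import Vale.Agent.P254.Perm.Elem
import Vale.Agent.P254.Perm.TailG
import Vale.Agent.P254.Perm.TailQ

/-!
P254, bodies invariant under the permutations: the one-dimensional inequality for a continuous
positive function, from the tail inequalities (helper461).
-/

open MeasureTheory Set

namespace Vale.Agent.P254.Perm

namespace D461

/-- Pointwise form of the differential inequality. -/
theorem dec_pt (k : ℕ) (hk : 1 ≤ k)
    (he : ∀ h : ℝ, 0 ≤ h → (k : ℝ) * h ≤ 4 →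
      (1 - k * h / 4) ^ 2 * (1 + h) ^ (k + 1) ≤ 1 + (k + 1) * h)
    {M P S g : ℝ} (hM : 0 < M) (hS : 0 ≤ S) (hg : 0 < g)
    (hG : (k + 1) * g ^ 2 * M ≤ (k + 3) * P)
    (hQ : 4 * (k + 2) * S * g ^ (k + 2) + k * (k + 3) * M * P ≤ (k + 1) * (k + 4) * M ^ 2 * g ^ 2) :
    S ^ 2 * P ^ (k + 1) ≤ kap k * M ^ (k + 4) * ((k + 3) * P - k * g ^ 2 * M) := by
  have hk0 : (0 : ℝ) < k := by exact_mod_cast hk
  have hg2 : 0 < g ^ 2 := by positivity
  have hgk : 0 < g ^ k := by positivity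
  -- the variables `h` and `β`
  obtain ⟨h, hh⟩ : ∃ h : ℝ, h = (k + 3) * P / ((k + 1) * M * g ^ 2) - 1 := ⟨_, rfl⟩
  obtain ⟨β, hβ⟩ : ∃ β : ℝ, β = (k + 2) * S * g ^ k / ((k + 1) * M ^ 2) := ⟨_, rfl⟩
  have hPe : P = (k + 1) * (1 + h) * (M * g ^ 2) / (k + 3) := by
    rw [hh]; field_simp; ring
  have hSe : S = β * ((k + 1) * M ^ 2) / ((k + 2) * g ^ k) := by
    rw [hβ]; field_simp
  have hh0 : 0 ≤ h := by
    rw [hh, sub_nonneg, one_le_div (by positivity)]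
    linarith
  have hβ0 : 0 ≤ β := by rw [hβ]; positivity
  have h1 : β ≤ 1 - k * h / 4 := by
    have e1 : 4 * (k + 2) * S * g ^ (k + 2) = 4 * β * ((k + 1) * M ^ 2 * g ^ 2) := by
      rw [hSe, pow_add]; field_simp
    have e2 : k * (k + 3) * M * P = k * (1 + h) * ((k + 1) * M ^ 2 * g ^ 2) := by
      rw [hPe]; field_simp
    rw [e1, e2] at hQ
    have e3 : (4 * β + k * (1 + h)) * ((k + 1) * M ^ 2 * g ^ 2) ≤
        (k + 4) * ((k + 1) * M ^ 2 * g ^ 2) := by linarith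
    have e4 := le_of_mul_le_mul_right e3 (by positivity)
    linarith
  have hkh : (k : ℝ) * h ≤ 4 := by linarith
  have h2 : β ^ 2 * (1 + h) ^ (k + 1) ≤ 1 + (k + 1) * h := by
    refine le_trans ?_ (he h hh0 hkh)
    refine mul_le_mul_of_nonneg_right ?_ (by positivity)
    exact pow_le_pow_left₀ hβ0 h1 2
  have e5 : S ^ 2 * P ^ (k + 1) = (β ^ 2 * (1 + h) ^ (k + 1)) *
      ((k + 1) ^ (k + 3) * M ^ (k + 5) * g ^ 2 / ((k + 2) ^ 2 * (k + 3) ^ (k + 1))) := by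
    rw [hSe, hPe, div_pow, div_pow, mul_pow, mul_pow, mul_pow, mul_pow, mul_pow]
    field_simp
    ring
  have e6 : kap k * M ^ (k + 4) * ((k + 3) * P - k * g ^ 2 * M) = (1 + (k + 1) * h) *
      ((k + 1) ^ (k + 3) * M ^ (k + 5) * g ^ 2 / ((k + 2) ^ 2 * (k + 3) ^ (k + 1))) := by
    rw [kap, hPe]
    field_simp
    ring
  rw [e5, e6]
  exact mul_le_mul_of_nonneg_right h2 (by positivity)

theorem hasDerivAt_tail {f : ℝ → ℝ} (hf : Continuous f) (b s : ℝ) :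
    HasDerivAt (fun s => ∫ t in s..b, f t) (-f s) s := by
  have h := (hf.integral_hasStrictDerivAt b s).hasDerivAt.neg
  refine h.congr_of_eventuallyEq (Filter.Eventually.of_forall fun x => ?_)
  exact intervalIntegral.integral_symm b x

/-- The inequality for a globally defined continuous function. -/
theorem dec_cont (k : ℕ) (hk : 1 ≤ k) {b : ℝ} (hb : 0 < b) {G : ℝ → ℝ} (hc : Continuous G)
    (hpos : ∀ s ∈ Icc 0 b, 0 < G s)
    (he : ∀ h : ℝ, 0 ≤ h → (k : ℝ) * h ≤ 4 →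
      (1 - k * h / 4) ^ 2 * (1 + h) ^ (k + 1) ≤ 1 + (k + 1) * h)
    (tG : ∀ s ∈ Icc 0 b, (k + 1) * G s ^ 2 * (∫ t in s..b, G t ^ k) ≤
      (k + 3) * ∫ t in s..b, G t ^ (k + 2))
    (tQ : ∀ s ∈ Icc 0 b, 4 * (k + 2) * (∫ t in s..b, (t - s) * G t ^ k) * G s ^ (k + 2) +
        k * (k + 3) * (∫ t in s..b, G t ^ k) * (∫ t in s..b, G t ^ (k + 2)) ≤
      (k + 1) * (k + 4) * (∫ t in s..b, G t ^ k) ^ 2 * G s ^ 2) :
    ((∫ t in (0 : ℝ)..b, G t ^ k) * (∫ t in (0 : ℝ)..b, t ^ 2 * G t ^ k) -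
        (∫ t in (0 : ℝ)..b, t * G t ^ k) ^ 2) * (∫ t in (0 : ℝ)..b, G t ^ (k + 2)) ^ k ≤
      kap k * (∫ t in (0 : ℝ)..b, G t ^ k) ^ (k + 4) := by
  set M : ℝ → ℝ := fun s => ∫ t in s..b, G t ^ k with hM
  set P : ℝ → ℝ := fun s => ∫ t in s..b, G t ^ (k + 2) with hP
  set A : ℝ → ℝ := fun s => ∫ t in s..b, t * G t ^ k with hA
  set B : ℝ → ℝ := fun s => ∫ t in s..b, t ^ 2 * G t ^ k with hB
  have dM : ∀ s, HasDerivAt M (-(G s ^ k)) s := fun s => hasDerivAt_tail (by fun_prop) b s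
  have dP : ∀ s, HasDerivAt P (-(G s ^ (k + 2))) s := fun s => hasDerivAt_tail (by fun_prop) b s
  have dA : ∀ s, HasDerivAt A (-(s * G s ^ k)) s := fun s => hasDerivAt_tail (by fun_prop) b s
  have dB : ∀ s, HasDerivAt B (-(s ^ 2 * G s ^ k)) s := fun s => hasDerivAt_tail (by fun_prop) b s
  have pos : ∀ (m : ℕ) (s : ℝ), 0 ≤ s → s < b → 0 < ∫ t in s..b, G t ^ m := by
    intro m s hs0 hsb
    refine intervalIntegral.intervalIntegral_pos_of_pos_on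
      ((hc.pow m).intervalIntegrable _ _) (fun x hx => ?_) hsb
    exact pow_pos (hpos x ⟨hs0.trans hx.1.le, hx.2.le⟩) m
  have hMp : ∀ s, 0 ≤ s → s < b → 0 < M s := pos k
  have hPp : ∀ s, 0 ≤ s → s < b → 0 < P s := pos (k + 2)
  have hS : ∀ s, (∫ t in s..b, (t - s) * G t ^ k) = A s - s * M s := by
    intro s
    have e : ∀ t, (t - s) * G t ^ k = t * G t ^ k - s * G t ^ k := fun t => by ring
    simp only [e]
    rw [intervalIntegral.integral_sub, intervalIntegral.integral_const_mul]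
    · exact (by fun_prop : Continuous fun t => t * G t ^ k).intervalIntegrable _ _
    · exact (by fun_prop : Continuous fun t => s * G t ^ k).intervalIntegrable _ _
  have hS0 : ∀ s, 0 ≤ s → s < b → 0 ≤ A s - s * M s := by
    intro s hs0 hsb
    rw [← hS]
    refine intervalIntegral.integral_nonneg hsb.le fun t ht => ?_
    exact mul_nonneg (sub_nonneg.2 ht.1) (pow_nonneg (hpos t ⟨hs0.trans ht.1, ht.2⟩).le k)
  set Φ : ℝ → ℝ := fun s => kap k * (M s ^ (k + 3) / P s ^ k) - (B s - A s ^ 2 / M s) with hΦ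
  have dΦ : ∀ s, 0 ≤ s → s < b → ∃ d, HasDerivAt Φ d s ∧ d ≤ 0 := by
    intro s hs0 hsb
    have h1 := hMp s hs0 hsb
    have h2 := hPp s hs0 hsb
    have h3 : HasDerivAt (fun s => M s ^ (k + 3)) (((k + 3 : ℕ) : ℝ) * M s ^ (k + 2) *
        -(G s ^ k)) s := by
      simpa using (dM s).fun_pow (k + 3)
    have h4 : HasDerivAt (fun s => P s ^ k) ((k : ℝ) * P s ^ (k - 1) * -(G s ^ (k + 2))) s := by
      simpa using (dP s).fun_pow k
    have h5 := (h3.fun_div h4 (by positivity)).const_mul (kap k)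
    have h6 := ((dA s).fun_pow 2).fun_div (dM s) h1.ne'
    have h7 := h5.fun_sub ((dB s).fun_sub h6)
    refine ⟨_, h7, ?_⟩
    have hg : 0 < G s := hpos s ⟨hs0, hsb.le⟩
    have key := dec_pt k hk he (M := M s) (P := P s) (S := A s - s * M s) (g := G s) h1
      (hS0 s hs0 hsb) hg (tG s ⟨hs0, hsb.le⟩) (by
        have := tQ s ⟨hs0, hsb.le⟩
        rwa [hS] at this)
    obtain ⟨j, rfl⟩ : ∃ j, k = j + 1 := ⟨k - 1, by omega⟩
    have e1 : kap (j + 1) * ((((j + 1 + 3 : ℕ) : ℝ) * M s ^ (j + 1 + 2) * -(G s ^ (j + 1)) *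
        P s ^ (j + 1) - M s ^ (j + 1 + 3) * (((j + 1 : ℕ) : ℝ) * P s ^ (j + 1 - 1) *
          -(G s ^ (j + 1 + 2)))) / (P s ^ (j + 1)) ^ 2) =
        -(G s ^ (j + 1) * (kap (j + 1) * M s ^ (j + 1 + 2) *
          ((((j + 1 : ℕ) : ℝ) + 3) * P s - ((j + 1 : ℕ) : ℝ) * G s ^ 2 * M s) /
            P s ^ (j + 1 + 1))) := by
      rw [Nat.add_sub_cancel]
      push_cast
      field_simp
      ring
    have e2 : -(s ^ 2 * G s ^ (j + 1)) - (((2 : ℕ) : ℝ) * A s ^ (2 - 1) * -(s * G s ^ (j + 1)) *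
        M s - A s ^ 2 * -(G s ^ (j + 1))) / M s ^ 2 =
        -(G s ^ (j + 1) * ((A s - s * M s) ^ 2 / M s ^ 2)) := by
      push_cast
      field_simp
      ring
    have e3 : (A s - s * M s) ^ 2 / M s ^ 2 ≤ kap (j + 1) * M s ^ (j + 1 + 2) *
        ((((j + 1 : ℕ) : ℝ) + 3) * P s - ((j + 1 : ℕ) : ℝ) * G s ^ 2 * M s) /
          P s ^ (j + 1 + 1) := by
      rw [div_le_div_iff₀ (by positivity) (by positivity)]
      calc (A s - s * M s) ^ 2 * P s ^ (j + 1 + 1) ≤ _ := key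
        _ = _ := by ring
    have e4 := mul_le_mul_of_nonneg_left e3 (pow_pos hg (j + 1)).le
    refine le_trans (le_of_eq ?_) (sub_nonpos.2 e4)
    have e5 : ∀ a b c d : ℝ, a = -c → b = -d → a - b = d - c := by
      intro a b c d h h'
      rw [h, h']
      ring
    exact e5 _ _ _ _ e1 e2
  have anti : ∀ s, 0 ≤ s → s < b → Φ s ≤ Φ 0 := by
    intro s hs0 hsb
    have hd : ∀ x ∈ Icc 0 s, ∃ d, HasDerivAt Φ d x ∧ d ≤ 0 := fun x hx =>
      dΦ x hx.1 (hx.2.trans_lt hsb)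
    have hanti : AntitoneOn Φ (Icc 0 s) := by
      refine antitoneOn_of_deriv_nonpos (convex_Icc 0 s) (fun x hx => ?_) (fun x hx => ?_)
        (fun x hx => ?_)
      · obtain ⟨d, h1, -⟩ := hd x hx
        exact h1.continuousAt.continuousWithinAt
      · rw [interior_Icc] at hx
        obtain ⟨d, h1, -⟩ := hd x (Ioo_subset_Icc_self hx)
        exact h1.differentiableAt.differentiableWithinAt
      · rw [interior_Icc] at hx
        obtain ⟨d, h1, h2⟩ := hd x (Ioo_subset_Icc_self hx)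
        rw [h1.deriv]
        exact h2
    exact hanti ⟨le_rfl, hs0⟩ ⟨hs0, le_rfl⟩ hs0
  have kap0 : 0 ≤ kap k := by unfold kap; positivity
  have low : ∀ s, 0 ≤ s → s < b → -B s ≤ Φ 0 := by
    intro s hs0 hsb
    refine le_trans ?_ (anti s hs0 hsb)
    have h1 := hMp s hs0 hsb
    have h2 := hPp s hs0 hsb
    have h3 : 0 ≤ kap k * (M s ^ (k + 3) / P s ^ k) := by positivity
    have h4 : 0 ≤ A s ^ 2 / M s := by positivity
    show -B s ≤ kap k * (M s ^ (k + 3) / P s ^ k) - (B s - A s ^ 2 / M s)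
    linarith
  have hΦ0 : 0 ≤ Φ 0 := by
    have h1 : Filter.Tendsto (fun s => -B s) (nhdsWithin b (Iio b)) (nhds (-B b)) :=
      ((dB b).continuousAt.neg).tendsto.mono_left nhdsWithin_le_nhds
    have h2 : B b = 0 := intervalIntegral.integral_same
    rw [h2, neg_zero] at h1
    refine le_of_tendsto h1 ?_
    filter_upwards [Ioo_mem_nhdsLT hb] with s hs
    exact low s hs.1.le hs.2
  have h1 := hMp 0 le_rfl hb
  have h2 := hPp 0 le_rfl hb
  have h3 : 0 ≤ (kap k * (M 0 ^ (k + 3) / P 0 ^ k) - (B 0 - A 0 ^ 2 / M 0)) *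
      (M 0 * P 0 ^ k) := mul_nonneg hΦ0 (by positivity)
  have h4 : (kap k * (M 0 ^ (k + 3) / P 0 ^ k) - (B 0 - A 0 ^ 2 / M 0)) *
      (M 0 * P 0 ^ k) = kap k * M 0 ^ (k + 4) - (M 0 * B 0 - A 0 ^ 2) * P 0 ^ k := by
    field_simp
    ring
  rw [h4] at h3
  linarith

/-- The inequality for a function which is continuous on `[0, b]`. -/
theorem dec_C0 (k : ℕ) (hk : 1 ≤ k) {b : ℝ} (hb : 0 < b) {g : ℝ → ℝ}
    (hc : ContinuousOn g (Icc 0 b)) (hpos : ∀ s ∈ Icc 0 b, 0 < g s)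
    (he : ∀ h : ℝ, 0 ≤ h → (k : ℝ) * h ≤ 4 →
      (1 - k * h / 4) ^ 2 * (1 + h) ^ (k + 1) ≤ 1 + (k + 1) * h)
    (tG : ∀ s ∈ Icc 0 b, (k + 1) * g s ^ 2 * (∫ t in s..b, g t ^ k) ≤
      (k + 3) * ∫ t in s..b, g t ^ (k + 2))
    (tQ : ∀ s ∈ Icc 0 b, 4 * (k + 2) * (∫ t in s..b, (t - s) * g t ^ k) * g s ^ (k + 2) +
        k * (k + 3) * (∫ t in s..b, g t ^ k) * (∫ t in s..b, g t ^ (k + 2)) ≤
      (k + 1) * (k + 4) * (∫ t in s..b, g t ^ k) ^ 2 * g s ^ 2) :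
    ((∫ t in (0 : ℝ)..b, g t ^ k) * (∫ t in (0 : ℝ)..b, t ^ 2 * g t ^ k) -
        (∫ t in (0 : ℝ)..b, t * g t ^ k) ^ 2) * (∫ t in (0 : ℝ)..b, g t ^ (k + 2)) ^ k ≤
      kap k * (∫ t in (0 : ℝ)..b, g t ^ k) ^ (k + 4) := by
  set G : ℝ → ℝ := IccExtend hb.le (fun x : Icc (0 : ℝ) b => g x) with hG
  have hcG : Continuous G := (continuousOn_iff_continuous_domRestrict.1 hc).Icc_extend'
  have eG : ∀ s ∈ Icc 0 b, G s = g s := fun s hs => by
    rw [hG, IccExtend_of_mem hb.le _ hs]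
  have eI : ∀ (F : ℝ → ℝ → ℝ) (s : ℝ), s ∈ Icc 0 b →
      (∫ t in s..b, F t (G t)) = ∫ t in s..b, F t (g t) := by
    intro F s hs
    refine intervalIntegral.integral_congr fun t ht => ?_
    rw [uIcc_of_le hs.2] at ht
    show F t (G t) = F t (g t)
    rw [eG t ⟨hs.1.trans ht.1, ht.2⟩]
  have h0 : (0 : ℝ) ∈ Icc 0 b := ⟨le_rfl, hb.le⟩
  have key := dec_cont k hk hb hcG (fun s hs => by rw [eG s hs]; exact hpos s hs) he
    (fun s hs => by
      rw [eI (fun _ y => y ^ k) s hs, eI (fun _ y => y ^ (k + 2)) s hs, eG s hs]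
      exact tG s hs)
    (fun s hs => by
      rw [eI (fun t y => (t - s) * y ^ k) s hs, eI (fun _ y => y ^ k) s hs,
        eI (fun _ y => y ^ (k + 2)) s hs, eG s hs]
      exact tQ s hs)
  rw [eI (fun _ y => y ^ k) 0 h0, eI (fun _ y => y ^ (k + 2)) 0 h0,
    eI (fun t y => t ^ 2 * y ^ k) 0 h0, eI (fun t y => t * y ^ k) 0 h0] at key
  exact key

/-- [A3] -/
theorem dec_C1 (k : ℕ) (hk : 1 ≤ k) {b : ℝ} (hb : 0 < b) {g g' : ℝ → ℝ}
    (hc : ContinuousOn g (Icc 0 b))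
    (hd : ∀ s ∈ Ioo 0 b, HasDerivAt g (g' s) s) (hconc : ConcaveOn ℝ (Icc 0 b) g)
    (hanti : AntitoneOn g (Icc 0 b)) (hpos : ∀ s ∈ Icc 0 b, 0 < g s) :
    ((∫ t in (0 : ℝ)..b, g t ^ k) * (∫ t in (0 : ℝ)..b, t ^ 2 * g t ^ k) -
        (∫ t in (0 : ℝ)..b, t * g t ^ k) ^ 2) * (∫ t in (0 : ℝ)..b, g t ^ (k + 2)) ^ k ≤
      kap k * (∫ t in (0 : ℝ)..b, g t ^ k) ^ (k + 4) :=
  dec_C0 k hk hb hc hpos (fun _ h0 h1 => elem k hk h0 h1)
    (fun _ hs => tail_G k hc hd hconc hanti hpos hs)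
    (fun _ hs => tail_Q k hc hd hconc hanti hpos hs)

end D461

end Vale.Agent.P254.Perm
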