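import Vale.Agent.P254.Perm.TailQ673

open MeasureTheory Set Filter Topology

namespace Vale.Agent.P254.Perm.H673

/-- `D(s) = ∫ (t - s)^2 g^k` -/
theorem D_der (k : ℕ) {b : ℝ} {g : ℝ → ℝ} (hc : ContinuousOn g (Icc 0 b)) {s : ℝ}
    (hs : s ∈ Ioo 0 b) :
    HasDerivAt (fun s => (∫ t in s..b, t ^ 2 * g t ^ k) - 2 * s * (∫ t in s..b, t * g t ^ k) +
      s ^ 2 * ∫ t in s..b, g t ^ k)
      (-2 * ((∫ t in s..b, t * g t ^ k) - s * ∫ t in s..b, g t ^ k)) s := by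
  have h0 := tail_der (f := fun t => t ^ 2 * g t ^ k) ((continuousOn_id.pow 2).mul (hc.pow k)) hs
  have h1 := tail_der (f := fun t => t * g t ^ k) (continuousOn_id.mul (hc.pow k)) hs
  have h2 := tail_der (hc.pow k) hs
  have h3 := ((hasDerivAt_id s).const_mul 2).mul h1
  have h4 := ((hasDerivAt_id s).pow 2).mul h2
  refine ((h0.sub h3).add h4).congr_deriv ?_
  simp only [Pi.pow_apply, id]
  push_cast
  ring

/-- the pointwise inequality (iii) -/
theorem alg_C (k : ℕ) (hk : 1 ≤ k)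
    (elem : ∀ h : ℝ, 0 ≤ h → (k : ℝ) * h ≤ 4 →
      (1 - k * h / 4) ^ 2 * (1 + h) ^ (k + 1) ≤ 1 + (k + 1) * h)
    {m p s g : ℝ} (hm : 0 < m) (hp : 0 < p) (hg : 0 < g) (hs : 0 ≤ s)
    (hG : (k + 1) * g ^ 2 * m ≤ (k + 3) * p)
    (hQ : 4 * (k + 2) * s * g ^ (k + 2) + k * (k + 3) * m * p ≤
      (k + 1) * (k + 4) * m ^ 2 * g ^ 2) :
    (s / m) ^ 2 * p ^ k ≤ kap k * m ^ (k + 2) * ((k + 3) - k * g ^ 2 * m / p) := by
  have k1 : (0 : ℝ) < k := by exact_mod_cast hk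
  have hq : 0 < (k + 1) * m * g ^ 2 := by positivity
  obtain ⟨h, hh⟩ : ∃ h : ℝ, h = (k + 3) * p / ((k + 1) * m * g ^ 2) - 1 := ⟨_, rfl⟩
  obtain ⟨β, hβ⟩ : ∃ β : ℝ, β = (k + 2) * s * g ^ k / ((k + 1) * m ^ 2) := ⟨_, rfl⟩
  have h1 : 0 ≤ h := by
    rw [hh, sub_nonneg, one_le_div hq]
    linarith
  have hβ0 : 0 ≤ β := by rw [hβ]; positivity
  have e1 : (k + 3) * p = (k + 1) * m * g ^ 2 * (1 + h) := by
    rw [hh]; field_simp; ring
  have e2 : (k + 2) * s * g ^ k = β * ((k + 1) * m ^ 2) := by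
    rw [hβ]; field_simp
  have h2 : β ≤ 1 - k * h / 4 := by
    have e3 : 4 * (k + 2) * s * g ^ (k + 2) + k * (k + 3) * m * p =
        ((k + 1) * m ^ 2 * g ^ 2) * (4 * β + k * (1 + h)) := by
      have : 4 * (k + 2) * s * g ^ (k + 2) = 4 * g ^ 2 * ((k + 2) * s * g ^ k) := by ring
      rw [this, e2]
      have : (k : ℝ) * (k + 3) * m * p = k * m * ((k + 3) * p) := by ring
      rw [this, e1]
      ring
    rw [e3] at hQ
    have e4 : (k + 1) * (k + 4) * m ^ 2 * g ^ 2 = ((k + 1) * m ^ 2 * g ^ 2) * (k + 4) := by ring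
    rw [e4] at hQ
    have := le_of_mul_le_mul_left hQ (by positivity)
    linarith
  have h3 : (k : ℝ) * h ≤ 4 := by linarith
  have h4 := elem h h1 h3
  have h5 : β ^ 2 * (1 + h) ^ (k + 1) ≤ 1 + (k + 1) * h :=
    (mul_le_mul_of_nonneg_right (pow_le_pow_left₀ hβ0 h2 2) (by positivity)).trans h4
  have h1' : 0 < 1 + h := by linarith
  -- rewrite both sides
  have es : s = β * ((k + 1) * m ^ 2) / ((k + 2) * g ^ k) := by
    rw [← e2]; field_simp
  have ep : p = (k + 1) * m * g ^ 2 * (1 + h) / (k + 3) := by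
    rw [← e1]; field_simp
  have L : (s / m) ^ 2 * p ^ k = (k + 1) ^ (k + 2) * m ^ (k + 2) /
      ((k + 2) ^ 2 * (k + 3) ^ k * (1 + h)) * (β ^ 2 * (1 + h) ^ (k + 1)) := by
    rw [es, ep]
    simp only [div_pow, mul_pow]
    field_simp
    ring
  have R : kap k * m ^ (k + 2) * ((k + 3) - k * g ^ 2 * m / p) = (k + 1) ^ (k + 2) * m ^ (k + 2) /
      ((k + 2) ^ 2 * (k + 3) ^ k * (1 + h)) * (1 + (k + 1) * h) := by
    have e5 : (k + 3) - k * g ^ 2 * m / p = (k + 3) * (1 + (k + 1) * h) / ((k + 1) * (1 + h)) := by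
      rw [ep]
      field_simp
      ring
    rw [e5, kap]
    field_simp
    ring
  rw [L, R]
  exact mul_le_mul_of_nonneg_left h5 (by positivity)

theorem dec_C1_of (k : ℕ) (hk : 1 ≤ k)
    (elem : ∀ h : ℝ, 0 ≤ h → (k : ℝ) * h ≤ 4 →
      (1 - k * h / 4) ^ 2 * (1 + h) ^ (k + 1) ≤ 1 + (k + 1) * h)
    {b : ℝ} (hb : 0 < b) {g g' : ℝ → ℝ}
    (hc : ContinuousOn g (Icc 0 b))
    (hd : ∀ s ∈ Ioo 0 b, HasDerivAt g (g' s) s) (hconc : ConcaveOn ℝ (Icc 0 b) g)
    (hanti : AntitoneOn g (Icc 0 b)) (hpos : ∀ s ∈ Icc 0 b, 0 < g s) :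
    ((∫ t in (0 : ℝ)..b, g t ^ k) * (∫ t in (0 : ℝ)..b, t ^ 2 * g t ^ k) -
        (∫ t in (0 : ℝ)..b, t * g t ^ k) ^ 2) * (∫ t in (0 : ℝ)..b, g t ^ (k + 2)) ^ k ≤
      kap k * (∫ t in (0 : ℝ)..b, g t ^ k) ^ (k + 4) := by
  let M : ℝ → ℝ := fun s => ∫ t in s..b, g t ^ k
  let P : ℝ → ℝ := fun s => ∫ t in s..b, g t ^ (k + 2)
  let S : ℝ → ℝ := fun s => (∫ t in s..b, t * g t ^ k) - s * ∫ t in s..b, g t ^ k
  let D : ℝ → ℝ := fun s => (∫ t in s..b, t ^ 2 * g t ^ k) -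
    2 * s * (∫ t in s..b, t * g t ^ k) + s ^ 2 * ∫ t in s..b, g t ^ k
  have cM : ContinuousOn M (Icc 0 b) := tail_cont hb.le (hc.pow k)
  have cP : ContinuousOn P (Icc 0 b) := tail_cont hb.le (hc.pow (k + 2))
  have cS : ContinuousOn S (Icc 0 b) := S_cont k hb.le hc
  have cD : ContinuousOn D (Icc 0 b) := by
    refine ((tail_cont (f := fun t => t ^ 2 * g t ^ k) hb.le
      ((continuousOn_id.pow 2).mul (hc.pow k))).sub ?_).add ?_
    · exact (continuousOn_id.const_smul (2 : ℝ)).mul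
        (tail_cont (f := fun t => t * g t ^ k) hb.le (continuousOn_id.mul (hc.pow k)))
    · exact (continuousOn_id.pow 2).mul cM
  have posI : ∀ j : ℕ, ∀ s ∈ Ico 0 b, 0 < ∫ t in s..b, g t ^ j := fun j s hs =>
    intervalIntegral.intervalIntegral_pos_of_pos_on
      (by
        apply ContinuousOn.intervalIntegrable
        rw [uIcc_of_le hs.2.le]
        exact (hc.mono (Icc_subset_Icc hs.1 le_rfl)).pow j)
      (fun t ht => pow_pos (hpos t ⟨hs.1.trans ht.1.le, ht.2.le⟩) j) hs.2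
  have hM : ∀ s ∈ Ico 0 b, 0 < M s := posI k
  have hP : ∀ s ∈ Ico 0 b, 0 < P s := posI (k + 2)
  have hS : ∀ s ∈ Icc 0 b, 0 ≤ S s := fun s hs => by
    show 0 ≤ (∫ t in s..b, t * g t ^ k) - s * ∫ t in s..b, g t ^ k
    rw [← S_eq k hc hs]
    exact intervalIntegral.integral_nonneg hs.2 fun t ht =>
      mul_nonneg (by linarith [ht.1]) (pow_nonneg (hpos t ⟨hs.1.trans ht.1, ht.2⟩).le _)
  let Φ : ℝ → ℝ := fun s => kap k * (M s ^ (k + 3) / P s ^ k) + S s ^ 2 / M s - D s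
  have hΦ : AntitoneOn Φ (Ico 0 b) := by
    refine antitoneOn_of_hasDerivWithinAt_nonpos (convex_Ico 0 b) ?_ (f' := fun x =>
      kap k * ((((k + 3) * M x ^ (k + 2) * (-(g x ^ k))) * P x ^ k -
        M x ^ (k + 3) * (k * P x ^ (k - 1) * (-(g x ^ (k + 2))))) / (P x ^ k) ^ 2) +
      ((2 * S x * (-M x)) * M x - S x ^ 2 * (-(g x ^ k))) / M x ^ 2 - -2 * S x) ?_ ?_
    · have i : Ico 0 b ⊆ Icc 0 b := Ico_subset_Icc_self
      exact ((((cM.mono i).pow (k + 3)).div ((cP.mono i).pow k)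
        (fun x hx => (pow_pos (hP x hx) k).ne')).const_smul (kap k)).add
        (((cS.mono i).pow 2).div (cM.mono i) fun x hx => (hM x hx).ne') |>.sub (cD.mono i)
    · intro x hx
      rw [interior_Ico] at hx
      have hx' : x ∈ Ico 0 b := Ioo_subset_Ico_self hx
      have dM : HasDerivAt M (-(g x ^ k)) x := tail_der (hc.pow k) hx
      have dP : HasDerivAt P (-(g x ^ (k + 2))) x := tail_der (hc.pow (k + 2)) hx
      have dS : HasDerivAt S (-M x) x := S_der k hc hx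
      have dD : HasDerivAt D (-2 * S x) x := D_der k hc hx
      have h1 := ((dM.pow (k + 3)).div (dP.pow k) (pow_pos (hP x hx') k).ne').const_mul (kap k)
      have h2 := (dS.pow 2).div dM (hM x hx').ne'
      have h3 := ((h1.add h2).sub dD).hasDerivWithinAt (s := interior (Ico 0 b))
      refine h3.congr_deriv ?_
      simp only [Pi.pow_apply]
      push_cast
      simp only [pow_one]
    · intro x hx
      rw [interior_Ico] at hx
      have hx' : x ∈ Ico 0 b := Ioo_subset_Ico_self hx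
      have hx2 := Ioo_subset_Icc_self hx
      have m0 := hM x hx'
      have p0 := hP x hx'
      have g0 := hpos x hx2
      have hG := tail_G k hc hd hconc hpos hx2
      have hQ := tail_Q k hc hd hconc hanti hpos hx2
      rw [S_eq k hc hx2] at hQ
      have h := alg_C k hk elem (m := M x) (p := P x) (s := S x) (g := g x) m0 p0 g0 (hS x hx2)
        hG hQ
      have e : kap k * ((((k + 3) * M x ^ (k + 2) * (-(g x ^ k))) * P x ^ k -
          M x ^ (k + 3) * (k * P x ^ (k - 1) * (-(g x ^ (k + 2))))) / (P x ^ k) ^ 2) +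
          ((2 * S x * (-M x)) * M x - S x ^ 2 * (-(g x ^ k))) / M x ^ 2 - -2 * S x =
          -(g x ^ k / P x ^ k) * (kap k * M x ^ (k + 2) * ((k + 3) - k * g x ^ 2 * M x / P x) -
            (S x / M x) ^ 2 * P x ^ k) := by
        obtain ⟨j, rfl⟩ : ∃ j, k = j + 1 := ⟨k - 1, by omega⟩
        simp only [Nat.add_sub_cancel]
        push_cast
        field_simp
        ring
      rw [e]
      have : 0 ≤ g x ^ k / P x ^ k := by positivity
      nlinarith [mul_nonneg this (sub_nonneg.2 h)]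
  have hlim : 0 ≤ Φ 0 := by
    have t1 : Tendsto D (𝓝[<] b) (𝓝 0) := by
      have h1 : ContinuousWithinAt D (Icc 0 b) b := cD b ⟨hb.le, le_rfl⟩
      have h2 : Tendsto D (𝓝[Ico 0 b] b) (𝓝 (D b)) := h1.mono Ico_subset_Icc_self
      rw [nhdsWithin_Ico_eq_nhdsLT hb] at h2
      have h3 : D b = 0 := by simp [D]
      rwa [h3] at h2
    have t2 : Tendsto (fun s => -D s) (𝓝[<] b) (𝓝 0) := by simpa using t1.neg
    refine le_of_tendsto t2 ?_
    filter_upwards [Ico_mem_nhdsLT hb] with s hs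
    have h1 := hΦ ⟨le_rfl, hb⟩ hs hs.1
    have h2 : -D s ≤ Φ s := by
      have a1 : 0 ≤ kap k * (M s ^ (k + 3) / P s ^ k) := by
        have := hM s hs
        have := hP s hs
        have : 0 ≤ kap k := by unfold kap; positivity
        positivity
      have a2 : 0 ≤ S s ^ 2 / M s := by
        have := hM s hs
        positivity
      simp only [Φ]
      linarith
    exact h2.trans h1
  have z : (0 : ℝ) ∈ Ico 0 b := ⟨le_rfl, hb⟩
  have m0 := hM 0 z
  have p0 := hP 0 z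
  have hl : 0 ≤ kap k * (M 0 ^ (k + 3) / P 0 ^ k) + S 0 ^ 2 / M 0 - D 0 := hlim
  have eS : S 0 = ∫ t in (0 : ℝ)..b, t * g t ^ k := by simp [S]
  have eD : D 0 = ∫ t in (0 : ℝ)..b, t ^ 2 * g t ^ k := by simp [D]
  rw [eS, eD] at hl
  have key : (M 0 * (∫ t in (0 : ℝ)..b, t ^ 2 * g t ^ k) -
      (∫ t in (0 : ℝ)..b, t * g t ^ k) ^ 2) * P 0 ^ k ≤ kap k * M 0 ^ (k + 4) := by
    have h := mul_nonneg hl (mul_pos m0 (pow_pos p0 k)).le
    have e : (kap k * (M 0 ^ (k + 3) / P 0 ^ k) + (∫ t in (0 : ℝ)..b, t * g t ^ k) ^ 2 / M 0 -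
        ∫ t in (0 : ℝ)..b, t ^ 2 * g t ^ k) * (M 0 * P 0 ^ k) =
        kap k * M 0 ^ (k + 4) - (M 0 * (∫ t in (0 : ℝ)..b, t ^ 2 * g t ^ k) -
      (∫ t in (0 : ℝ)..b, t * g t ^ k) ^ 2) * P 0 ^ k := by
      field_simp
      ring
    rw [e] at h
    linarith
  exact key

end Vale.Agent.P254.Perm.H673
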