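import Vale.Agent.P254.Perm.Defs
import Mathlib.MeasureTheory.Integral.IntervalIntegral.FundThmCalculus
import Mathlib.Analysis.Calculus.MeanValue

open MeasureTheory Set intervalIntegral

namespace Vale.Agent.P254.Perm.D912

/-- pointwise inequality behind the monotonicity -/
theorem pw (k : ℕ) {g M P S : ℝ} (hg : 0 < g) (hM : 0 < M) (hS : 0 ≤ S)
    (hE : ∀ h : ℝ, 0 ≤ h → (k : ℝ) * h ≤ 4 →
      (1 - k * h / 4) ^ 2 * (1 + h) ^ (k + 1) ≤ 1 + (k + 1) * h)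
    (hG : (k + 1) * g ^ 2 * M ≤ (k + 3) * P)
    (hQ : 4 * (k + 2) * S * g ^ (k + 2) + k * (k + 3) * M * P ≤
      (k + 1) * (k + 4) * M ^ 2 * g ^ 2) :
    S ^ 2 * P ^ (k + 1) ≤ kap k * M ^ (k + 4) * ((k + 3) * P - k * g ^ 2 * M) := by
  have hk1 : (0 : ℝ) < k + 1 := by positivity
  have hk2 : (0 : ℝ) < k + 2 := by positivity
  have hk3 : (0 : ℝ) < k + 3 := by positivity
  set h : ℝ := (k + 3) * P / ((k + 1) * M * g ^ 2) - 1 with hh
  set β : ℝ := (k + 2) * S * g ^ k / ((k + 1) * M ^ 2) with hβ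
  have hden : 0 < (k + 1) * M * g ^ 2 := by positivity
  have hh0 : 0 ≤ h := by
    rw [hh, sub_nonneg, le_div_iff₀ hden]; linarith
  have hPe : P = (1 + h) * ((k + 1) * M * g ^ 2) / (k + 3) := by
    rw [hh]; field_simp; ring
  have hSe : S = β * ((k + 1) * M ^ 2) / ((k + 2) * g ^ k) := by
    rw [hβ]; field_simp
  have hβ0 : 0 ≤ β := by positivity
  have hkey : 4 * β + k * (1 + h) ≤ k + 4 := by
    have e : 4 * β + k * (1 + h) =
        (4 * (k + 2) * S * g ^ (k + 2) + k * (k + 3) * M * P) / ((k + 1) * M ^ 2 * g ^ 2) := by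
      rw [hβ, hh]; field_simp; ring
    rw [e, div_le_iff₀ (by positivity)]; linarith
  have hβ1 : β ≤ 1 - k * h / 4 := by linarith
  have hkh : (k : ℝ) * h ≤ 4 := by linarith
  have h3 : β ^ 2 * (1 + h) ^ (k + 1) ≤ 1 + (k + 1) * h := by
    refine le_trans ?_ (hE h hh0 hkh)
    have : β ^ 2 ≤ (1 - k * h / 4) ^ 2 := pow_le_pow_left₀ hβ0 hβ1 2
    exact mul_le_mul_of_nonneg_right this (by positivity)
  have hc : 0 < kap k * M ^ (k + 5) * g ^ 2 := by
    unfold kap; positivity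
  have e1 : S ^ 2 * P ^ (k + 1) = (kap k * M ^ (k + 5) * g ^ 2) * (β ^ 2 * (1 + h) ^ (k + 1)) := by
    rw [hSe, hPe, kap]
    simp only [mul_pow, div_pow, ← pow_mul]
    field_simp
    ring
  have e2 : kap k * M ^ (k + 4) * ((k + 3) * P - k * g ^ 2 * M) =
      (kap k * M ^ (k + 5) * g ^ 2) * (1 + (k + 1) * h) := by
    have : (k + 3) * P = (1 + h) * ((k + 1) * M * g ^ 2) := by
      rw [hPe]; field_simp
    rw [this]; ring
  rw [e1, e2]
  exact mul_le_mul_of_nonneg_left h3 hc.le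

theorem hd_left {f : ℝ → ℝ} (hf : Continuous f) (b s : ℝ) :
    HasDerivAt (fun u => ∫ t in u..b, f t) (-f s) s := by
  have h2 := ((hf.integral_hasStrictDerivAt b s).hasDerivAt).neg
  refine h2.congr_of_eventuallyEq (Filter.Eventually.of_forall fun u => ?_)
  simp only [Pi.neg_apply]
  rw [intervalIntegral.integral_symm u b]
  simp

/-- the inequality for a positive continuous function on the line, from the two tail inequalities -/
theorem core (k : ℕ) (hk : 1 ≤ k) {b : ℝ} (hb : 0 < b) {g : ℝ → ℝ} (hc : Continuous g)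
    (hpos : ∀ s, 0 < g s)
    (hE : ∀ h : ℝ, 0 ≤ h → (k : ℝ) * h ≤ 4 →
      (1 - k * h / 4) ^ 2 * (1 + h) ^ (k + 1) ≤ 1 + (k + 1) * h)
    (hG : ∀ s ∈ Icc 0 b,
      (k + 1) * g s ^ 2 * (∫ t in s..b, g t ^ k) ≤ (k + 3) * ∫ t in s..b, g t ^ (k + 2))
    (hQ : ∀ s ∈ Icc 0 b,
      4 * (k + 2) * (∫ t in s..b, (t - s) * g t ^ k) * g s ^ (k + 2) +
        k * (k + 3) * (∫ t in s..b, g t ^ k) * (∫ t in s..b, g t ^ (k + 2)) ≤
      (k + 1) * (k + 4) * (∫ t in s..b, g t ^ k) ^ 2 * g s ^ 2) :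
    ((∫ t in (0 : ℝ)..b, g t ^ k) * (∫ t in (0 : ℝ)..b, t ^ 2 * g t ^ k) -
        (∫ t in (0 : ℝ)..b, t * g t ^ k) ^ 2) * (∫ t in (0 : ℝ)..b, g t ^ (k + 2)) ^ k ≤
      kap k * (∫ t in (0 : ℝ)..b, g t ^ k) ^ (k + 4) := by
  obtain ⟨j, rfl⟩ : ∃ j, k = j + 1 := ⟨k - 1, by omega⟩
  set k : ℕ := j + 1 with hkdef
  have c0 : Continuous fun t => g t ^ k := hc.pow _
  have c1 : Continuous fun t : ℝ => t * g t ^ k := continuous_id.mul c0
  have c2 : Continuous fun t : ℝ => t ^ 2 * g t ^ k := (continuous_id.pow 2).mul c0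
  have cP : Continuous fun t => g t ^ (k + 2) := hc.pow _
  set A0 : ℝ → ℝ := fun s => ∫ t in s..b, g t ^ k with hA0
  set A1 : ℝ → ℝ := fun s => ∫ t in s..b, t * g t ^ k with hA1
  set A2 : ℝ → ℝ := fun s => ∫ t in s..b, t ^ 2 * g t ^ k with hA2
  set P : ℝ → ℝ := fun s => ∫ t in s..b, g t ^ (k + 2) with hP
  have d0 : ∀ s, HasDerivAt A0 (-(g s ^ k)) s := fun s => hd_left c0 b s
  have d1 : ∀ s, HasDerivAt A1 (-(s * g s ^ k)) s := fun s => hd_left c1 b s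
  have d2 : ∀ s, HasDerivAt A2 (-(s ^ 2 * g s ^ k)) s := fun s => hd_left c2 b s
  have dP : ∀ s, HasDerivAt P (-(g s ^ (k + 2))) s := fun s => hd_left cP b s
  have p0 : ∀ s, s < b → 0 < A0 s := fun s hs =>
    intervalIntegral.intervalIntegral_pos_of_pos (c0.intervalIntegrable _ _)
      (fun t => pow_pos (hpos t) _) hs
  have pP : ∀ s, s < b → 0 < P s := fun s hs =>
    intervalIntegral.intervalIntegral_pos_of_pos (cP.intervalIntegrable _ _)
      (fun t => pow_pos (hpos t) _) hs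
  have hSeq : ∀ s, (∫ t in s..b, (t - s) * g t ^ k) = A1 s - s * A0 s := by
    intro s
    have : ∀ t, (t - s) * g t ^ k = t * g t ^ k - s * g t ^ k := fun t => by ring
    simp only [this]
    have cs : Continuous fun t : ℝ => s * g t ^ k := continuous_const.mul c0
    rw [intervalIntegral.integral_sub (c1.intervalIntegrable _ _) (cs.intervalIntegrable _ _),
      intervalIntegral.integral_const_mul]
  have hSnn : ∀ s, s ≤ b → 0 ≤ A1 s - s * A0 s := by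
    intro s hs
    rw [← hSeq]
    exact intervalIntegral.integral_nonneg hs fun t ht =>
      mul_nonneg (sub_nonneg.2 ht.1) (pow_nonneg (hpos t).le _)
  set F : ℝ → ℝ := fun s => kap k * (A0 s ^ (k + 3) / P s ^ k) - A2 s + A1 s ^ 2 / A0 s with hF
  have dF : ∀ s, s < b → HasDerivAt F
      (kap k * (((k + 3 : ℕ) * A0 s ^ (k + 2) * (-(g s ^ k)) * P s ^ k -
          A0 s ^ (k + 3) * ((k : ℕ) * P s ^ j * (-(g s ^ (k + 2))))) / (P s ^ k) ^ 2) -
        (-(s ^ 2 * g s ^ k)) +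
        ((2 : ℕ) * A1 s ^ 1 * (-(s * g s ^ k)) * A0 s - A1 s ^ 2 * (-(g s ^ k))) / A0 s ^ 2) s := by
    intro s hs
    have h1 := ((d0 s).pow (k + 3)).div ((dP s).pow k) (pow_pos (pP s hs) k).ne'
    have h2 := ((d1 s).pow 2).div (d0 s) (p0 s hs).ne'
    exact ((h1.const_mul (kap k)).sub (d2 s)).add h2
  have hFd : ∀ s ∈ Ioo 0 b, (kap k * (((k + 3 : ℕ) * A0 s ^ (k + 2) * (-(g s ^ k)) * P s ^ k -
          A0 s ^ (k + 3) * ((k : ℕ) * P s ^ j * (-(g s ^ (k + 2))))) / (P s ^ k) ^ 2) -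
        (-(s ^ 2 * g s ^ k)) +
        ((2 : ℕ) * A1 s ^ 1 * (-(s * g s ^ k)) * A0 s - A1 s ^ 2 * (-(g s ^ k))) / A0 s ^ 2) ≤ 0 := by
    intro s hs
    have hs' : s ∈ Icc 0 b := Ioo_subset_Icc_self hs
    have hP0 := pP s hs.2
    have hM0 := p0 s hs.2
    have hg0 := hpos s
    have q := hQ s hs'
    rw [hSeq] at q
    have key := pw k hg0 hM0 (hSnn s hs.2.le) hE (hG s hs') q
    have e : (kap k * (((k + 3 : ℕ) * A0 s ^ (k + 2) * (-(g s ^ k)) * P s ^ k -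
          A0 s ^ (k + 3) * ((k : ℕ) * P s ^ j * (-(g s ^ (k + 2))))) / (P s ^ k) ^ 2) -
        (-(s ^ 2 * g s ^ k)) +
        ((2 : ℕ) * A1 s ^ 1 * (-(s * g s ^ k)) * A0 s - A1 s ^ 2 * (-(g s ^ k))) / A0 s ^ 2) =
        -(g s ^ k / (A0 s ^ 2 * P s ^ (k + 1))) *
          (kap k * A0 s ^ (k + 4) * ((k + 3) * P s - k * g s ^ 2 * A0 s) -
            (A1 s - s * A0 s) ^ 2 * P s ^ (k + 1)) := by
      rw [hkdef]
      push_cast
      field_simp
      ring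
    rw [e]
    have : 0 ≤ g s ^ k / (A0 s ^ 2 * P s ^ (k + 1)) := by positivity
    nlinarith [key]
  have hanti : AntitoneOn F (Ico 0 b) := by
    refine antitoneOn_of_deriv_nonpos (convex_Ico 0 b) ?_ ?_ ?_
    · exact fun s hs => (dF s hs.2).continuousAt.continuousWithinAt
    · rw [interior_Ico]
      exact fun s hs => (dF s hs.2).differentiableAt.differentiableWithinAt
    · rw [interior_Ico]
      intro s hs
      rw [(dF s hs.2).deriv]
      exact hFd s hs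
  have hlow : ∀ s ∈ Ico 0 b, -A2 s ≤ F 0 := by
    intro s hs
    have h1 : F s ≤ F 0 := hanti (left_mem_Ico.2 hb) hs hs.1
    have h2 : 0 ≤ kap k * (A0 s ^ (k + 3) / P s ^ k) := by
      have := p0 s hs.2; have := pP s hs.2
      unfold kap; positivity
    have h3 : 0 ≤ A1 s ^ 2 / A0 s := by
      have := p0 s hs.2; positivity
    have h4 : F s = kap k * (A0 s ^ (k + 3) / P s ^ k) - A2 s + A1 s ^ 2 / A0 s := rfl
    linarith
  have hlim : Filter.Tendsto (fun s => -A2 s) (nhdsWithin b (Iio b)) (nhds 0) := by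
    have h : ContinuousAt (fun s => -A2 s) b := (d2 b).continuousAt.neg
    have h0 : -A2 b = 0 := by simp [hA2]
    have := h.tendsto
    rw [h0] at this
    exact this.mono_left nhdsWithin_le_nhds
  have hF0 : 0 ≤ F 0 := by
    refine le_of_tendsto hlim ?_
    filter_upwards [Ico_mem_nhdsLT hb] with s hs
    exact hlow s hs
  have hM0 := p0 0 hb
  have hP0 := pP 0 hb
  have h4 : F 0 = (kap k * A0 0 ^ (k + 4) - (A0 0 * A2 0 - A1 0 ^ 2) * P 0 ^ k) /
      (A0 0 * P 0 ^ k) := by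
    simp only [hF]
    field_simp
    ring
  rw [h4] at hF0
  have h5 : 0 ≤ kap k * A0 0 ^ (k + 4) - (A0 0 * A2 0 - A1 0 ^ 2) * P 0 ^ k := by
    have hp : 0 < A0 0 * P 0 ^ k := by positivity
    by_contra hneg
    push Not at hneg
    exact absurd hF0 (not_le.2 (div_neg_of_neg_of_pos hneg hp))
  exact sub_nonneg.1 h5

end Vale.Agent.P254.Perm.D912

namespace Vale.Agent.P254.Perm

/-- [A3] from the tail inequalities (backup of `dec_C1`) -/
theorem dec_C1_of (k : ℕ) (hk : 1 ≤ k) {b : ℝ} (hb : 0 < b) {g : ℝ → ℝ}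
    (hc : ContinuousOn g (Icc 0 b)) (hpos : ∀ s ∈ Icc 0 b, 0 < g s)
    (hE : ∀ h : ℝ, 0 ≤ h → (k : ℝ) * h ≤ 4 →
      (1 - k * h / 4) ^ 2 * (1 + h) ^ (k + 1) ≤ 1 + (k + 1) * h)
    (hG : ∀ s ∈ Icc 0 b,
      (k + 1) * g s ^ 2 * (∫ t in s..b, g t ^ k) ≤ (k + 3) * ∫ t in s..b, g t ^ (k + 2))
    (hQ : ∀ s ∈ Icc 0 b,
      4 * (k + 2) * (∫ t in s..b, (t - s) * g t ^ k) * g s ^ (k + 2) +
        k * (k + 3) * (∫ t in s..b, g t ^ k) * (∫ t in s..b, g t ^ (k + 2)) ≤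
      (k + 1) * (k + 4) * (∫ t in s..b, g t ^ k) ^ 2 * g s ^ 2) :
    ((∫ t in (0 : ℝ)..b, g t ^ k) * (∫ t in (0 : ℝ)..b, t ^ 2 * g t ^ k) -
        (∫ t in (0 : ℝ)..b, t * g t ^ k) ^ 2) * (∫ t in (0 : ℝ)..b, g t ^ (k + 2)) ^ k ≤
      kap k * (∫ t in (0 : ℝ)..b, g t ^ k) ^ (k + 4) := by
  set G : ℝ → ℝ := fun t => g (projIcc 0 b hb.le t) with hGdef
  have hGc : Continuous G :=
    hc.comp_continuous (continuous_projIcc.subtype_val) fun t => (projIcc 0 b hb.le t).2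
  have hGe : ∀ t ∈ Icc 0 b, G t = g t := fun t ht => by
    simp only [hGdef, projIcc_of_mem hb.le ht]
  have hGp : ∀ s, 0 < G s := fun s => hpos _ (projIcc 0 b hb.le s).2
  have hI : ∀ (f : ℝ → ℝ → ℝ) (s : ℝ), s ∈ Icc 0 b →
      (∫ t in s..b, f t (G t)) = ∫ t in s..b, f t (g t) := by
    intro f s hs
    refine intervalIntegral.integral_congr fun t ht => ?_
    rw [uIcc_of_le hs.2] at ht
    simp only [hGe t ⟨hs.1.trans ht.1, ht.2⟩]
  have h0 : (0 : ℝ) ∈ Icc 0 b := left_mem_Icc.2 hb.le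
  have main := D912.core k hk hb hGc hGp hE ?_ ?_
  · rw [hI (fun _ x => x ^ k) 0 h0, hI (fun t x => t ^ 2 * x ^ k) 0 h0,
      hI (fun t x => t * x ^ k) 0 h0, hI (fun _ x => x ^ (k + 2)) 0 h0] at main
    exact main
  · intro s hs
    rw [hI (fun _ x => x ^ k) s hs, hI (fun _ x => x ^ (k + 2)) s hs, hGe s hs]
    exact hG s hs
  · intro s hs
    rw [hI (fun _ x => x ^ k) s hs, hI (fun _ x => x ^ (k + 2)) s hs,
      hI (fun t x => (t - s) * x ^ k) s hs, hGe s hs]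
    exact hQ s hs

end Vale.Agent.P254.Perm
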