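import Vale.Agent.P254.Perm.Defs
import Mathlib.Analysis.Convex.Continuous
import Mathlib.Analysis.Convex.Deriv

/-! P254, permutation invariant bodies: the one-dimensional inequality for decreasing concave
functions, proved with right derivatives (no smoothness). -/

open MeasureTheory Set Filter
open scoped Topology

namespace Vale.Agent.P254.Perm.DC745

/-- [A2] -/
theorem elem (k : ℕ) (hk : 1 ≤ k) {h : ℝ} (h0 : 0 ≤ h) (h1 : (k : ℝ) * h ≤ 4) :
    (1 - k * h / 4) ^ 2 * (1 + h) ^ (k + 1) ≤ 1 + (k + 1) * h := by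
  have hk0 : (0 : ℝ) < k := by exact_mod_cast hk
  rcases h1.eq_or_lt with h1 | h1
  · have : (1 - k * h / 4) = 0 := by rw [h1]; norm_num
    rw [this]
    simp only [ne_eq, OfNat.ofNat_ne_zero, not_false_eq_true, zero_pow, zero_mul]
    positivity
  set f : ℝ → ℝ := fun x => (k + 1) * Real.log (1 + x) + 2 * Real.log (1 - k * x / 4)
    - Real.log (1 + (k + 1) * x) with hf
  have hb : ∀ x ∈ Icc 0 h, 0 < 1 - k * x / 4 := by
    intro x hx
    have : k * x ≤ k * h := mul_le_mul_of_nonneg_left hx.2 hk0.le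
    linarith
  have hder : ∀ x ∈ Icc 0 h, HasDerivAt f ((k + 1) * (1 / (1 + x))
      + 2 * ((-(k / 4 : ℝ)) / (1 - k * x / 4)) - (k + 1) / (1 + (k + 1) * x)) x := by
    intro x hx
    have hx0 : 0 < 1 + x := by linarith [hx.1]
    have hx1 := hb x hx
    have hx2 : 0 < 1 + (k + 1) * x := by
      have := mul_nonneg (by positivity : (0 : ℝ) ≤ k + 1) hx.1
      linarith
    have d1 : HasDerivAt (fun x : ℝ => 1 + x) 1 x := (hasDerivAt_id x).const_add 1
    have d2 : HasDerivAt (fun x : ℝ => 1 - k * x / 4) (-(k / 4 : ℝ)) x := by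
      have := (((hasDerivAt_id x).const_mul (k : ℝ)).div_const 4).const_sub 1
      simpa using this
    have d3 : HasDerivAt (fun x : ℝ => 1 + (k + 1) * x) ((k : ℝ) + 1) x := by
      have := ((hasDerivAt_id x).const_mul ((k : ℝ) + 1)).const_add 1
      simpa using this
    exact (((d1.log hx0.ne').const_mul _).add ((d2.log hx1.ne').const_mul _)).sub
      (d3.log hx2.ne')
  have hanti : AntitoneOn f (Icc 0 h) := by
    refine antitoneOn_of_hasDerivWithinAt_nonpos (convex_Icc 0 h)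
      (fun x hx => (hder x hx).continuousAt.continuousWithinAt)
      (fun x hx => (hder x (interior_subset hx)).hasDerivWithinAt) ?_
    intro x hx
    have hx' := interior_subset hx
    have hx0 : 0 < 1 + x := by linarith [hx'.1]
    have hx1 : 0 < 4 - k * x := by linarith [hb x hx']
    have hx2 : 0 < 1 + (k + 1) * x := by
      have := mul_nonneg (by positivity : (0 : ℝ) ≤ k + 1) hx'.1
      linarith
    have e : (k + 1) * (1 / (1 + x))
      + 2 * ((-(k / 4 : ℝ)) / (1 - k * x / 4)) - (k + 1) / (1 + (k + 1) * x)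
      = -(k * (2 - 2 * (k * x) + (k + 1) * (k + 2) * x ^ 2))
          / ((1 + x) * (4 - k * x) * (1 + (k + 1) * x)) := by
      have : (1 - k * x / 4) = (4 - k * x) / 4 := by ring
      rw [this]
      field_simp
      ring
    rw [e]
    apply div_nonpos_of_nonpos_of_nonneg
    · have : 0 ≤ 2 - 2 * (k * x) + (k + 1) * (k + 2) * x ^ 2 := by
        nlinarith [sq_nonneg (1 - k * x), mul_nonneg hk0.le (sq_nonneg x), sq_nonneg x]
      have := mul_nonneg hk0.le this
      linarith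
    · positivity
  have hle := hanti ⟨le_rfl, h0⟩ ⟨h0, le_rfl⟩ h0
  have hf0 : f 0 = 0 := by simp [hf]
  rw [hf0, hf] at hle
  have hp0 : 0 < 1 + h := by linarith
  have hp1 := hb h ⟨h0, le_rfl⟩
  have hp2 : 0 < 1 + (k + 1) * h := by positivity
  have hl : Real.log ((1 - k * h / 4) ^ 2 * (1 + h) ^ (k + 1)) ≤ Real.log (1 + (k + 1) * h) := by
    rw [Real.log_mul (by positivity) (by positivity), Real.log_pow, Real.log_pow]
    push_cast
    linarith
  exact (Real.log_le_log_iff (by positivity) hp2).1 hl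

theorem elem_strict (k : ℕ) (hk : 1 ≤ k) {h : ℝ} (h0 : 0 < h) (h1 : (k : ℝ) * h ≤ 4) :
    (1 - k * h / 4) ^ 2 * (1 + h) ^ (k + 1) < 1 + (k + 1) * h := by
  have hk0 : (0 : ℝ) < k := by exact_mod_cast hk
  rcases h1.eq_or_lt with h1 | h1
  · have : (1 - k * h / 4) = 0 := by rw [h1]; norm_num
    rw [this]
    simp only [ne_eq, OfNat.ofNat_ne_zero, not_false_eq_true, zero_pow, zero_mul]
    positivity
  set f : ℝ → ℝ := fun x => (k + 1) * Real.log (1 + x) + 2 * Real.log (1 - k * x / 4)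
    - Real.log (1 + (k + 1) * x) with hf
  have hb : ∀ x ∈ Icc 0 h, 0 < 1 - k * x / 4 := by
    intro x hx
    have : k * x ≤ k * h := mul_le_mul_of_nonneg_left hx.2 hk0.le
    linarith
  have hder : ∀ x ∈ Icc 0 h, HasDerivAt f ((k + 1) * (1 / (1 + x))
      + 2 * ((-(k / 4 : ℝ)) / (1 - k * x / 4)) - (k + 1) / (1 + (k + 1) * x)) x := by
    intro x hx
    have hx0 : 0 < 1 + x := by linarith [hx.1]
    have hx1 := hb x hx
    have hx2 : 0 < 1 + (k + 1) * x := by
      have := mul_nonneg (by positivity : (0 : ℝ) ≤ k + 1) hx.1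
      linarith
    have d1 : HasDerivAt (fun x : ℝ => 1 + x) 1 x := (hasDerivAt_id x).const_add 1
    have d2 : HasDerivAt (fun x : ℝ => 1 - k * x / 4) (-(k / 4 : ℝ)) x := by
      have := (((hasDerivAt_id x).const_mul (k : ℝ)).div_const 4).const_sub 1
      simpa using this
    have d3 : HasDerivAt (fun x : ℝ => 1 + (k + 1) * x) ((k : ℝ) + 1) x := by
      have := ((hasDerivAt_id x).const_mul ((k : ℝ) + 1)).const_add 1
      simpa using this
    exact (((d1.log hx0.ne').const_mul _).add ((d2.log hx1.ne').const_mul _)).sub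
      (d3.log hx2.ne')
  have hanti : StrictAntiOn f (Icc 0 h) := by
    refine strictAntiOn_of_hasDerivWithinAt_neg (convex_Icc 0 h)
      (fun x hx => (hder x hx).continuousAt.continuousWithinAt)
      (fun x hx => (hder x (interior_subset hx)).hasDerivWithinAt) ?_
    intro x hx
    have hx' := interior_subset hx
    have hx0 : 0 < 1 + x := by linarith [hx'.1]
    have hx1 : 0 < 4 - k * x := by linarith [hb x hx']
    have hx2 : 0 < 1 + (k + 1) * x := by
      have := mul_nonneg (by positivity : (0 : ℝ) ≤ k + 1) hx'.1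
      linarith
    have e : (k + 1) * (1 / (1 + x))
      + 2 * ((-(k / 4 : ℝ)) / (1 - k * x / 4)) - (k + 1) / (1 + (k + 1) * x)
      = -(k * (2 - 2 * (k * x) + (k + 1) * (k + 2) * x ^ 2))
          / ((1 + x) * (4 - k * x) * (1 + (k + 1) * x)) := by
      have : (1 - k * x / 4) = (4 - k * x) / 4 := by ring
      rw [this]
      field_simp
      ring
    rw [e]
    apply div_neg_of_neg_of_pos
    · have : 0 < 2 - 2 * (k * x) + (k + 1) * (k + 2) * x ^ 2 := by
        nlinarith [sq_nonneg (1 - k * x), mul_nonneg hk0.le (sq_nonneg x), sq_nonneg x]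
      have := mul_pos hk0 this
      linarith
    · positivity
  have hle := hanti ⟨le_rfl, h0.le⟩ ⟨h0.le, le_rfl⟩ h0
  have hf0 : f 0 = 0 := by simp [hf]
  rw [hf0, hf] at hle
  have hp0 : 0 < 1 + h := by linarith
  have hp1 := hb h ⟨h0.le, le_rfl⟩
  have hp2 : 0 < 1 + (k + 1) * h := by positivity
  have hl : Real.log ((1 - k * h / 4) ^ 2 * (1 + h) ^ (k + 1)) < Real.log (1 + (k + 1) * h) := by
    rw [Real.log_mul (by positivity) (by positivity), Real.log_pow, Real.log_pow]
    push_cast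
    linarith
  exact (Real.log_lt_log_iff (by positivity) hp2).1 hl

lemma nonneg_of_right {b : ℝ} {F L : ℝ → ℝ} (hF : ContinuousOn F (Ioo 0 b))
    (hd : ∀ x ∈ Ioo (0 : ℝ) b, ∃ d : ℝ, d ≤ 0 ∧ HasDerivWithinAt F d (Ici x) x)
    {s : ℝ} (hs : s ∈ Ioo 0 b)
    (hL : ∀ t ∈ Ioo s b, L t ≤ F t) (hL0 : Tendsto L (𝓝[<] b) (𝓝 0)) : 0 ≤ F s := by
  have hanti : ∀ t ∈ Ioo s b, F t ≤ F s := by
    intro t ht
    choose! d hd0 hd1 using hd
    have hsub : Icc s t ⊆ Ioo 0 b := fun x hx => ⟨hs.1.trans_le hx.1, hx.2.trans_lt ht.2⟩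
    exact image_le_of_deriv_right_le_deriv_boundary (f' := d) (B := fun _ => F s)
      (B' := fun _ => 0)
      (hF.mono hsub) (fun x hx => hd1 x (hsub ⟨hx.1, hx.2.le⟩)) le_rfl continuousOn_const
      (fun x _ => hasDerivWithinAt_const _ _ _) (fun x hx => hd0 x (hsub ⟨hx.1, hx.2.le⟩))
      ⟨ht.1.le, le_rfl⟩
  have : ∀ᶠ t in 𝓝[<] b, L t ≤ F s := by
    filter_upwards [Ioo_mem_nhdsLT hs.2] with t ht
    exact (hL t ht).trans (hanti t ht)
  exact le_of_tendsto hL0 this

section tails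

variable {b : ℝ} (hb : 0 < b) {f : ℝ → ℝ} (hf : IntervalIntegrable f volume 0 b)
  (hc : ContinuousOn f (Ioo 0 b))
include hb hf

lemma tail_ii {s : ℝ} (hs : s ∈ Icc 0 b) : IntervalIntegrable f volume s b := by
  apply hf.mono_set
  rw [uIcc_of_le hs.2, uIcc_of_le hb.le]
  exact Icc_subset_Icc hs.1 le_rfl

lemma tail_cont : ContinuousOn (fun u => ∫ t in u..b, f t) (Icc 0 b) := by
  have := intervalIntegral.continuousOn_primitive_interval_left (f := f) (a := 0) (b := b)
    (μ := volume) (by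
      rw [uIcc_of_le hb.le]
      exact (intervalIntegrable_iff_integrableOn_Icc_of_le hb.le).1 hf)
  rwa [uIcc_of_le hb.le] at this

lemma tail_right : Tendsto (fun u => ∫ t in u..b, f t) (𝓝[<] b) (𝓝 0) := by
  have h := (tail_cont hb hf) b ⟨hb.le, le_rfl⟩
  have h2 : Tendsto (fun u => ∫ t in u..b, f t) (𝓝[Icc 0 b] b) (𝓝 0) := by
    have := h.tendsto
    simpa using this
  refine h2.mono_left ?_
  rw [← nhdsWithin_Ioo_eq_nhdsLT hb]
  exact nhdsWithin_mono _ Ioo_subset_Icc_self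

lemma tail_left : Tendsto (fun u => ∫ t in u..b, f t) (𝓝[>] 0) (𝓝 (∫ t in (0 : ℝ)..b, f t)) := by
  have h := (tail_cont hb hf) 0 ⟨le_rfl, hb.le⟩
  refine h.tendsto.mono_left ?_
  rw [← nhdsWithin_Ioo_eq_nhdsGT hb]
  exact nhdsWithin_mono _ Ioo_subset_Icc_self

include hc in
lemma tail_deriv {s : ℝ} (hs : s ∈ Ioo 0 b) :
    HasDerivAt (fun u => ∫ t in u..b, f t) (-f s) s :=
  intervalIntegral.integral_hasDerivAt_left (tail_ii hb hf ⟨hs.1.le, hs.2.le⟩)
    (hc.stronglyMeasurableAtFilter isOpen_Ioo s hs) (hc.continuousAt (isOpen_Ioo.mem_nhds hs))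

end tails

section alg

/-- the algebra of steps (ii) and (iii) -/
lemma step_alg (k : ℕ) (hk : 1 ≤ k) {m p σ γ : ℝ} (hm : 0 < m) (hp : 0 < p) (hσ : 0 ≤ σ)
    (hγ : 0 < γ) (hG : (k + 1) * (γ ^ 2 * m) ≤ (k + 3) * p)
    (hW : 0 ≤ (k + 1) * (k + 4) * (m ^ 2 / γ ^ k) - 4 * (k + 2) * σ
      - k * (k + 3) * (m * p / γ ^ (k + 2))) :
    σ ^ 2 / m ^ 2 ≤ kap k * (m ^ (k + 2) / p ^ k) * (k + 3 - k * m * γ ^ 2 / p) := by
  have hk0 : (0 : ℝ) < k := by exact_mod_cast hk
  set h : ℝ := (k + 3) * p / ((k + 1) * (γ ^ 2 * m)) - 1 with hh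
  set β : ℝ := (k + 2) * σ * γ ^ k / ((k + 1) * m ^ 2) with hβ
  have h0 : 0 ≤ h := by
    rw [hh, sub_nonneg, le_div_iff₀ (by positivity), one_mul]
    exact hG
  have hβ0 : 0 ≤ β := by positivity
  have hβ1 : β ≤ 1 - k * h / 4 := by
    have e : (k + 1) * (k + 4) * (m ^ 2 / γ ^ k) - 4 * (k + 2) * σ
      - k * (k + 3) * (m * p / γ ^ (k + 2))
      = ((k + 1) * (m ^ 2 / γ ^ k)) * (4 * (1 - k * h / 4) - 4 * β) := by
      rw [hh, hβ]
      field_simp
      ring
    rw [e] at hW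
    have hpos : 0 < (k + 1) * (m ^ 2 / γ ^ k) := by positivity
    have := nonneg_of_mul_nonneg_right hW hpos
    linarith
  have hkh : (k : ℝ) * h ≤ 4 := by linarith
  have key := elem k hk h0 hkh
  have h1 : β ^ 2 ≤ (1 - k * h / 4) ^ 2 := pow_le_pow_left₀ hβ0 hβ1 2
  have h2 : β ^ 2 * (1 + h) ^ (k + 1) ≤ 1 + (k + 1) * h :=
    (mul_le_mul_of_nonneg_right h1 (by positivity)).trans key
  have e1 : 1 + h = (k + 3) * p / ((k + 1) * (γ ^ 2 * m)) := by rw [hh]; ring
  have e2 : σ ^ 2 / m ^ 2 = (β ^ 2 * (1 + h) ^ (k + 1)) *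
      (kap k * (m ^ (k + 2) / p ^ k) * ((k + 3) / ((k + 1) * (1 + h)))) := by
    rw [e1, hβ, kap]
    simp only [div_pow, mul_pow, pow_succ]
    field_simp
    simp
  have e3 : kap k * (m ^ (k + 2) / p ^ k) * (k + 3 - k * m * γ ^ 2 / p)
      = (1 + (k + 1) * h) * (kap k * (m ^ (k + 2) / p ^ k) * ((k + 3) / ((k + 1) * (1 + h)))) := by
    have : (k + 3 - k * m * γ ^ 2 / p) = (1 + (k + 1) * h) * ((k + 3) / ((k + 1) * (1 + h))) := by
      rw [e1, hh]
      field_simp
      ring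
    rw [this]
    ring
  rw [e2, e3]
  refine mul_le_mul_of_nonneg_right h2 ?_
  have : 0 ≤ kap k := by unfold kap; positivity
  positivity

/-- equality case of `step_alg` -/
lemma step_alg_eq (k : ℕ) (hk : 1 ≤ k) {m p σ γ : ℝ} (hm : 0 < m) (hp : 0 < p) (hσ : 0 ≤ σ)
    (hγ : 0 < γ) (hG : (k + 1) * (γ ^ 2 * m) ≤ (k + 3) * p)
    (hW : 0 ≤ (k + 1) * (k + 4) * (m ^ 2 / γ ^ k) - 4 * (k + 2) * σ
      - k * (k + 3) * (m * p / γ ^ (k + 2)))
    (heq : kap k * (m ^ (k + 2) / p ^ k) * (k + 3 - k * m * γ ^ 2 / p) ≤ σ ^ 2 / m ^ 2) :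
    (k + 1) * (γ ^ 2 * m) = (k + 3) * p := by
  have hk0 : (0 : ℝ) < k := by exact_mod_cast hk
  by_contra hne
  have hlt : (k + 1) * (γ ^ 2 * m) < (k + 3) * p := lt_of_le_of_ne hG hne
  set h : ℝ := (k + 3) * p / ((k + 1) * (γ ^ 2 * m)) - 1 with hh
  set β : ℝ := (k + 2) * σ * γ ^ k / ((k + 1) * m ^ 2) with hβ
  have h0 : 0 < h := by
    rw [hh, sub_pos, lt_div_iff₀ (by positivity), one_mul]
    exact hlt
  have hβ0 : 0 ≤ β := by positivity
  have hβ1 : β ≤ 1 - k * h / 4 := by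
    have e : (k + 1) * (k + 4) * (m ^ 2 / γ ^ k) - 4 * (k + 2) * σ
      - k * (k + 3) * (m * p / γ ^ (k + 2))
      = ((k + 1) * (m ^ 2 / γ ^ k)) * (4 * (1 - k * h / 4) - 4 * β) := by
      rw [hh, hβ]
      field_simp
      ring
    rw [e] at hW
    have hpos : 0 < (k + 1) * (m ^ 2 / γ ^ k) := by positivity
    have := nonneg_of_mul_nonneg_right hW hpos
    linarith
  have hkh : (k : ℝ) * h ≤ 4 := by linarith
  have key := elem_strict k hk h0 hkh
  have h1 : β ^ 2 ≤ (1 - k * h / 4) ^ 2 := pow_le_pow_left₀ hβ0 hβ1 2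
  have h2 : β ^ 2 * (1 + h) ^ (k + 1) < 1 + (k + 1) * h :=
    (mul_le_mul_of_nonneg_right h1 (by positivity)).trans_lt key
  have e1 : 1 + h = (k + 3) * p / ((k + 1) * (γ ^ 2 * m)) := by rw [hh]; ring
  have e2 : σ ^ 2 / m ^ 2 = (β ^ 2 * (1 + h) ^ (k + 1)) *
      (kap k * (m ^ (k + 2) / p ^ k) * ((k + 3) / ((k + 1) * (1 + h)))) := by
    rw [e1, hβ, kap]
    simp only [div_pow, mul_pow, pow_succ]
    field_simp
    simp
  have e3 : kap k * (m ^ (k + 2) / p ^ k) * (k + 3 - k * m * γ ^ 2 / p)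
      = (1 + (k + 1) * h) * (kap k * (m ^ (k + 2) / p ^ k) * ((k + 3) / ((k + 1) * (1 + h)))) := by
    have : (k + 3 - k * m * γ ^ 2 / p) = (1 + (k + 1) * h) * ((k + 3) / ((k + 1) * (1 + h))) := by
      rw [e1, hh]
      field_simp
      ring
    rw [this]
    ring
  rw [e2, e3] at heq
  have : 0 < kap k := by unfold kap; positivity
  have h3 : 0 < kap k * (m ^ (k + 2) / p ^ k) * ((k + 3) / ((k + 1) * (1 + h))) := by positivity
  have h4 := mul_lt_mul_of_pos_right h2 h3
  linarith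

end alg

section main

variable {b : ℝ} (hb : 0 < b) {g : ℝ → ℝ} (hconc : ConcaveOn ℝ (Icc 0 b) g)
  (hanti : AntitoneOn g (Icc 0 b)) (hnn : ∀ s ∈ Icc 0 b, 0 ≤ g s)

include hconc in
lemma gcont : ContinuousOn g (Ioo 0 b) := by
  have := hconc.continuousOn_interior
  rwa [interior_Icc] at this

include hconc hanti in
/-- right derivative -/
lemma exists_slope {s : ℝ} (hs : s ∈ Ioo 0 b) : ∃ l : ℝ, 0 ≤ l ∧
    HasDerivWithinAt g (-l) (Ici s) s ∧ ∀ t ∈ Icc s b, g t ≤ g s - l * (t - s) := by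
  have hsi : s ∈ interior (Icc 0 b) := by rwa [interior_Icc]
  have h1 := (hconc.neg.differentiableWithinAt_Ioi_of_mem_interior hsi).neg
  have h2 : DifferentiableWithinAt ℝ g (Ioi s) s := by
    simpa using h1
  have h3 := h2.hasDerivWithinAt
  set d := derivWithin g (Ioi s) s with hd
  have hsI : s ∈ Icc 0 b := ⟨hs.1.le, hs.2.le⟩
  refine ⟨-d, ?_, ?_, ?_⟩
  · have ht := (hasDerivWithinAt_iff_tendsto_slope' (by simp : s ∉ Ioi s)).1 h3
    have : d ≤ 0 := by
      refine le_of_tendsto ht ?_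
      filter_upwards [Ioo_mem_nhdsGT hs.2] with t ht
      rw [slope_def_field]
      apply div_nonpos_of_nonpos_of_nonneg
      · exact sub_nonpos.2 (hanti hsI ⟨hs.1.le.trans ht.1.le, ht.2.le⟩ ht.1.le)
      · exact (sub_pos.2 ht.1).le
    linarith
  · rw [neg_neg]
    exact hasDerivWithinAt_Ioi_iff_Ici.1 h3
  · intro t ht
    rcases ht.1.eq_or_lt with h | h
    · rw [← h]; simp
    have h4 := hconc.slope_le_of_hasDerivWithinAt_Ioi hsI ⟨hs.1.le.trans ht.1, ht.2⟩ h h3
    rw [slope_def_field, div_le_iff₀ (sub_pos.2 h)] at h4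
    linarith

include hb hanti hnn in
lemma ii_pow (i k : ℕ) : IntervalIntegrable (fun t => t ^ i * g t ^ k) volume 0 b := by
  have h1 : IntervalIntegrable (fun t => g t ^ k) volume 0 b := by
    apply AntitoneOn.intervalIntegrable
    rw [uIcc_of_le hb.le]
    intro x hx y hy hxy
    exact pow_le_pow_left₀ (hnn y hy) (hanti hx hy hxy) k
  exact h1.continuousOn_mul (continuous_pow i).continuousOn

/-- derivative of powers of a positive function, right derivative -/
lemma hd_pow {u : ℝ → ℝ} {u' s : ℝ} (hu : HasDerivWithinAt u u' (Ici s) s) (h0 : u s ≠ 0) (n : ℕ) :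
    HasDerivWithinAt (fun x => u x ^ n) (n * (u s ^ n / u s) * u') (Ici s) s := by
  refine (hu.pow n).congr_deriv ?_
  rcases n with _ | n
  · simp
  · simp only [Nat.add_sub_cancel, pow_succ]
    field_simp

include hb hconc hanti hnn in
theorem main_pos (k : ℕ) (hk : 1 ≤ k) (hpos : ∀ s ∈ Ioo 0 b, 0 < g s) :
    (∀ s ∈ Ioo 0 b, ((∫ t in s..b, g t ^ k) * (∫ t in s..b, t ^ 2 * g t ^ k) -
        (∫ t in s..b, t * g t ^ k) ^ 2) * (∫ t in s..b, g t ^ (k + 2)) ^ k ≤
      kap k * (∫ t in s..b, g t ^ k) ^ (k + 4)) ∧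
    (kap k * (∫ t in (0 : ℝ)..b, g t ^ k) ^ (k + 4) ≤
      ((∫ t in (0 : ℝ)..b, g t ^ k) * (∫ t in (0 : ℝ)..b, t ^ 2 * g t ^ k) -
        (∫ t in (0 : ℝ)..b, t * g t ^ k) ^ 2) * (∫ t in (0 : ℝ)..b, g t ^ (k + 2)) ^ k →
      ∃ c : ℝ, 0 < c ∧ ∀ s ∈ Ioo 0 b, g s = c * (b - s)) := by
  have hk0 : (0 : ℝ) < k := by exact_mod_cast hk
  have hgc : ContinuousOn g (Ioo 0 b) := gcont hconc
  have iiM : IntervalIntegrable (fun t => g t ^ k) volume 0 b := by
    simpa using ii_pow hb hanti hnn 0 k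
  have iiP : IntervalIntegrable (fun t => g t ^ (k + 2)) volume 0 b := by
    simpa using ii_pow hb hanti hnn 0 (k + 2)
  have iiA : IntervalIntegrable (fun t => t * g t ^ k) volume 0 b := by
    simpa using ii_pow hb hanti hnn 1 k
  have iiB : IntervalIntegrable (fun t => t ^ 2 * g t ^ k) volume 0 b :=
    ii_pow hb hanti hnn 2 k
  have cM : ContinuousOn (fun t => g t ^ k) (Ioo 0 b) := hgc.pow k
  have cP : ContinuousOn (fun t => g t ^ (k + 2)) (Ioo 0 b) := hgc.pow (k + 2)
  have cA : ContinuousOn (fun t => t * g t ^ k) (Ioo 0 b) := continuousOn_id.mul cM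
  have cB : ContinuousOn (fun t => t ^ 2 * g t ^ k) (Ioo 0 b) := (continuousOn_id.pow 2).mul cM
  set M : ℝ → ℝ := fun u => ∫ t in u..b, g t ^ k with hM
  set P : ℝ → ℝ := fun u => ∫ t in u..b, g t ^ (k + 2) with hP
  set A : ℝ → ℝ := fun u => ∫ t in u..b, t * g t ^ k with hA
  set B : ℝ → ℝ := fun u => ∫ t in u..b, t ^ 2 * g t ^ k with hB
  have dM : ∀ x ∈ Ioo 0 b, HasDerivAt M (-(g x ^ k)) x := fun x hx => tail_deriv hb iiM cM hx
  have dP : ∀ x ∈ Ioo 0 b, HasDerivAt P (-(g x ^ (k + 2))) x :=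
    fun x hx => tail_deriv hb iiP cP hx
  have dA : ∀ x ∈ Ioo 0 b, HasDerivAt A (-(x * g x ^ k)) x := fun x hx => tail_deriv hb iiA cA hx
  have dB : ∀ x ∈ Ioo 0 b, HasDerivAt B (-(x ^ 2 * g x ^ k)) x :=
    fun x hx => tail_deriv hb iiB cB hx
  have conM : ContinuousOn M (Ioo 0 b) := fun x hx => (dM x hx).continuousAt.continuousWithinAt
  have conP : ContinuousOn P (Ioo 0 b) := fun x hx => (dP x hx).continuousAt.continuousWithinAt
  have conA : ContinuousOn A (Ioo 0 b) := fun x hx => (dA x hx).continuousAt.continuousWithinAt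
  have conB : ContinuousOn B (Ioo 0 b) := fun x hx => (dB x hx).continuousAt.continuousWithinAt
  have tM : Tendsto M (𝓝[<] b) (𝓝 0) := tail_right hb iiM
  have tP : Tendsto P (𝓝[<] b) (𝓝 0) := tail_right hb iiP
  have tA : Tendsto A (𝓝[<] b) (𝓝 0) := tail_right hb iiA
  have tB : Tendsto B (𝓝[<] b) (𝓝 0) := tail_right hb iiB
  -- the functions S and T
  set S : ℝ → ℝ := fun u => A u - u * M u with hS
  set T : ℝ → ℝ := fun u => B u - 2 * u * A u + u ^ 2 * M u with hT
  have dS : ∀ x ∈ Ioo 0 b, HasDerivAt S (-(M x)) x := by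
    intro x hx
    have := (dA x hx).sub ((hasDerivAt_id x).mul (dM x hx))
    refine this.congr_deriv ?_
    simp only [id]
    ring
  have dT : ∀ x ∈ Ioo 0 b, HasDerivAt T (-(2 * S x)) x := by
    intro x hx
    have h1 := ((hasDerivAt_id x).const_mul 2).mul (dA x hx)
    have h2 := ((hasDerivAt_id x).pow 2).mul (dM x hx)
    have := ((dB x hx).sub h1).add h2
    refine this.congr_deriv ?_
    simp only [id, hS, Pi.pow_apply]
    push_cast
    ring
  have conS : ContinuousOn S (Ioo 0 b) := fun x hx => (dS x hx).continuousAt.continuousWithinAt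
  have conT : ContinuousOn T (Ioo 0 b) := fun x hx => (dT x hx).continuousAt.continuousWithinAt
  have tid : Tendsto (fun u : ℝ => u) (𝓝[<] b) (𝓝 b) := tendsto_id.mono_left nhdsWithin_le_nhds
  have tS : Tendsto S (𝓝[<] b) (𝓝 0) := by
    have := tA.sub (tid.mul tM)
    simpa using this
  have tT : Tendsto T (𝓝[<] b) (𝓝 0) := by
    have := (tB.sub ((tid.const_mul 2).mul tA)).add ((tid.pow 2).mul tM)
    simpa using this
  -- positivity
  have hMpos : ∀ x ∈ Ioo 0 b, 0 < M x := by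
    intro x hx
    refine intervalIntegral.intervalIntegral_pos_of_pos_on (tail_ii hb iiM ⟨hx.1.le, hx.2.le⟩) ?_ hx.2
    intro t ht
    exact pow_pos (hpos t ⟨hx.1.trans ht.1, ht.2⟩) _
  have hPpos : ∀ x ∈ Ioo 0 b, 0 < P x := by
    intro x hx
    refine intervalIntegral.intervalIntegral_pos_of_pos_on (tail_ii hb iiP ⟨hx.1.le, hx.2.le⟩) ?_ hx.2
    intro t ht
    exact pow_pos (hpos t ⟨hx.1.trans ht.1, ht.2⟩) _
  have hSnn : ∀ x ∈ Ioo 0 b, 0 ≤ S x := by
    intro x hx
    refine nonneg_of_right (F := S) (L := S) conS (fun y hy => ⟨_, ?_, (dS y hy).hasDerivWithinAt⟩)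
      hx (fun t _ => le_rfl) tS
    exact neg_nonpos.2 (hMpos y hy).le
  -- bounds by monotonicity
  have hPM : ∀ x ∈ Ioo 0 b, P x ≤ g x ^ 2 * M x := by
    intro x hx
    rw [hP, hM, ← intervalIntegral.integral_const_mul]
    refine intervalIntegral.integral_mono_on hx.2.le (tail_ii hb iiP ⟨hx.1.le, hx.2.le⟩)
      ((tail_ii hb iiM ⟨hx.1.le, hx.2.le⟩).const_mul _) ?_
    intro t ht
    have hxI : x ∈ Icc 0 b := ⟨hx.1.le, hx.2.le⟩
    have htI : t ∈ Icc 0 b := ⟨hx.1.le.trans ht.1, ht.2⟩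
    have h1 : g t ≤ g x := hanti hxI htI ht.1
    have h2 : g t ^ 2 ≤ g x ^ 2 := pow_le_pow_left₀ (hnn t htI) h1 2
    calc g t ^ (k + 2) = g t ^ 2 * g t ^ k := by ring
      _ ≤ g x ^ 2 * g t ^ k := mul_le_mul_of_nonneg_right h2 (pow_nonneg (hnn t htI) _)
  have hPb : ∀ x ∈ Ioo 0 b, P x ≤ b * g x ^ (k + 2) := by
    intro x hx
    have h1 : P x ≤ ∫ _ in x..b, g x ^ (k + 2) := by
      rw [hP]
      refine intervalIntegral.integral_mono_on hx.2.le (tail_ii hb iiP ⟨hx.1.le, hx.2.le⟩)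
        intervalIntegrable_const ?_
      intro t ht
      have hxI : x ∈ Icc 0 b := ⟨hx.1.le, hx.2.le⟩
      have htI : t ∈ Icc 0 b := ⟨hx.1.le.trans ht.1, ht.2⟩
      exact pow_le_pow_left₀ (hnn t htI) (hanti hxI htI ht.1) _
    rw [intervalIntegral.integral_const, smul_eq_mul] at h1
    refine h1.trans (mul_le_mul_of_nonneg_right (by linarith [hx.1]) ?_)
    exact pow_nonneg (hpos x hx).le _
  -- slope bound
  have hslope : ∀ x ∈ Ioo 0 b, ∃ l : ℝ, 0 ≤ l ∧ HasDerivWithinAt g (-l) (Ici x) x ∧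
      (k + 1) * l * M x ≤ g x ^ (k + 1) := by
    intro x hx
    obtain ⟨l, hl0, hl1, hl2⟩ := exists_slope hconc hanti hx
    refine ⟨l, hl0, hl1, ?_⟩
    have hxI : x ∈ Icc 0 b := ⟨hx.1.le, hx.2.le⟩
    have hder : ∀ t ∈ uIcc x b, HasDerivAt (fun t => -(g x - l * (t - x)) ^ (k + 1))
        ((k + 1) * l * (g x - l * (t - x)) ^ k) t := by
      intro t _
      have h1 : HasDerivAt (fun t : ℝ => g x - l * (t - x)) (-l) t := by
        have := (((hasDerivAt_id t).sub_const x).const_mul l).const_sub (g x)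
        simpa using this
      have h2 := (h1.pow (k + 1)).neg
      refine h2.congr_deriv ?_
      simp only [Nat.add_sub_cancel]
      push_cast
      ring
    have hcont : Continuous (fun t : ℝ => (k + 1) * l * (g x - l * (t - x)) ^ k) := by fun_prop
    have hint := intervalIntegral.integral_eq_sub_of_hasDerivAt hder
      (hcont.intervalIntegrable x b)
    have hle : (k + 1) * l * M x ≤ ∫ t in x..b, (k + 1) * l * (g x - l * (t - x)) ^ k := by
      rw [hM, ← intervalIntegral.integral_const_mul]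
      refine intervalIntegral.integral_mono_on hx.2.le
        ((tail_ii hb iiM ⟨hx.1.le, hx.2.le⟩).const_mul _) (hcont.intervalIntegrable x b) ?_
      intro t ht
      have htI : t ∈ Icc 0 b := ⟨hx.1.le.trans ht.1, ht.2⟩
      exact mul_le_mul_of_nonneg_left (pow_le_pow_left₀ (hnn t htI) (hl2 t ht) _) (by positivity)
    rw [hint] at hle
    have hbI : b ∈ Icc x b := ⟨hx.2.le, le_rfl⟩
    have h3 : 0 ≤ (g x - l * (b - x)) ^ (k + 1) :=
      pow_nonneg ((hnn b ⟨hb.le, le_rfl⟩).trans (hl2 b hbI)) _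
    simp only [sub_self, mul_zero, sub_zero] at hle
    linarith
  -- step G
  have hG : ∀ x ∈ Ioo 0 b, (k + 1) * (g x ^ 2 * M x) ≤ (k + 3) * P x := by
    intro x hx
    have := nonneg_of_right (b := b) (F := fun x => (k + 3) * P x - (k + 1) * (g x ^ 2 * M x))
      (L := fun t => -((k + 1) * (g x ^ 2 * M t)))
      ((continuousOn_const.mul conP).sub (continuousOn_const.mul ((hgc.pow 2).mul conM)))
      (fun y hy => ?_) hx (fun t ht => ?_) ?_
    · linarith
    · obtain ⟨l, hl0, hl1, hl2⟩ := hslope y hy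
      have d1 := ((dP y hy).hasDerivWithinAt (s := Ici y)).const_mul ((k : ℝ) + 3)
      have d2 := ((hl1.pow 2).mul ((dM y hy).hasDerivWithinAt (s := Ici y))).const_mul ((k : ℝ) + 1)
      refine ⟨_, ?_, d1.sub d2⟩
      have h0 := hpos y hy
      have : (k + 3) * -(g y ^ (k + 2)) - (k + 1) * (((2 : ℕ) : ℝ) * g y ^ (2 - 1) * -l * M y
          + g y ^ 2 * -(g y ^ k)) = 2 * g y * ((k + 1) * l * M y - g y ^ (k + 1)) := by
        push_cast
        norm_num
        ring
      refine (le_of_eq this).trans ?_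
      exact mul_nonpos_of_nonneg_of_nonpos (by positivity) (by linarith)
    · have htI : t ∈ Ioo 0 b := ⟨hx.1.trans ht.1, ht.2⟩
      have h1 : g t ≤ g x := hanti ⟨hx.1.le, hx.2.le⟩ ⟨htI.1.le, htI.2.le⟩ ht.1.le
      have h2 : g t ^ 2 ≤ g x ^ 2 := pow_le_pow_left₀ (hpos t htI).le h1 2
      have h3 : g t ^ 2 * M t ≤ g x ^ 2 * M t := mul_le_mul_of_nonneg_right h2 (hMpos t htI).le
      have h4 : (k + 1) * (g t ^ 2 * M t) ≤ (k + 1) * (g x ^ 2 * M t) :=
        mul_le_mul_of_nonneg_left h3 (by positivity)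
      have h5 : 0 ≤ (k + 3) * P t := mul_nonneg (by positivity) (hPpos t htI).le
      linarith
    · have := ((tM.const_mul (g x ^ 2)).const_mul ((k : ℝ) + 1)).neg
      simpa using this
  -- step Q
  have hW : ∀ x ∈ Ioo 0 b, 0 ≤ (k + 1) * (k + 4) * (M x ^ 2 / g x ^ k) - 4 * (k + 2) * S x
      - k * (k + 3) * (M x * P x / g x ^ (k + 2)) := by
    intro x hx
    refine nonneg_of_right (b := b) (F := fun x => (k + 1) * (k + 4) * (M x ^ 2 / g x ^ k)
      - 4 * (k + 2) * S x - k * (k + 3) * (M x * P x / g x ^ (k + 2)))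
      (L := fun t => -(4 * (k + 2) * S t) - k * (k + 3) * (M t * b)) ?_ (fun y hy => ?_) hx
      (fun t ht => ?_) ?_
    · refine ((continuousOn_const.mul ((conM.pow 2).div (hgc.pow k) ?_)).sub
        (continuousOn_const.mul conS)).sub
        (continuousOn_const.mul ((conM.mul conP).div (hgc.pow (k + 2)) ?_))
      · intro y hy; exact (pow_pos (hpos y hy) _).ne'
      · intro y hy; exact (pow_pos (hpos y hy) _).ne'
    · obtain ⟨l, hl0, hl1, hl2⟩ := hslope y hy
      have h0 := hpos y hy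
      have dMy := (dM y hy).hasDerivWithinAt (s := Ici y)
      have dPy := (dP y hy).hasDerivWithinAt (s := Ici y)
      have dSy := (dS y hy).hasDerivWithinAt (s := Ici y)
      have d1 := ((hd_pow dMy (hMpos y hy).ne' 2).div (hd_pow hl1 h0.ne' k)
        (pow_pos h0 _).ne').const_mul (((k : ℝ) + 1) * (k + 4))
      have d2 := dSy.const_mul (4 * ((k : ℝ) + 2))
      have d3 := ((dMy.mul dPy).div (hd_pow hl1 h0.ne' (k + 2))
        (pow_pos h0 _).ne').const_mul ((k : ℝ) * (k + 3))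
      refine ⟨_, ?_, (d1.sub d2).sub d3⟩
      set m := M y with hm
      set p := P y with hp
      set γ := g y with hγ
      have hm0 : 0 < m := hMpos y hy
      have hGy : (k + 1) * (γ ^ 2 * m) ≤ (k + 3) * p := hG y hy
      have hPMy : p ≤ γ ^ 2 * m := hPM y hy
      have e : ((k : ℝ) + 1) * (k + 4) * ((((2 : ℕ) : ℝ) * (m ^ 2 / m) * -(γ ^ k) * γ ^ k
            - m ^ 2 * (k * (γ ^ k / γ) * -l)) / (γ ^ k) ^ 2)
          - 4 * (k + 2) * -m
          - k * (k + 3) * (((-(γ ^ k) * p + m * -(γ ^ (k + 2))) * γ ^ (k + 2)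
            - m * p * (((k + 2 : ℕ) : ℝ) * (γ ^ (k + 2) / γ) * -l)) / (γ ^ (k + 2)) ^ 2)
          = -(k * (k + 3) * (m - p / γ ^ 2)) + k * (l * m / γ ^ (k + 1)) *
            ((k + 1) * (k + 4) * m - (k + 2) * (k + 3) * (p / γ ^ 2)) := by
        push_cast
        field_simp
        ring
      refine (le_of_eq e).trans ?_
      set q := p / γ ^ 2 with hq
      have hq1 : q ≤ m := by
        rw [hq, div_le_iff₀ (by positivity)]
        linarith
      have hq2 : (k + 1) * m ≤ (k + 3) * q := by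
        have : (k + 3) * q = ((k + 3) * p) / γ ^ 2 := by rw [hq]; ring
        rw [this, le_div_iff₀ (by positivity)]
        linarith
      set θ := l * m / γ ^ (k + 1) with hθ
      have hθ0 : 0 ≤ θ := by positivity
      have hθ1 : (k + 1) * θ ≤ 1 := by
        have : (k + 1) * θ = ((k + 1) * l * m) / γ ^ (k + 1) := by rw [hθ]; ring
        rw [this, div_le_one (by positivity)]
        exact hl2
      rcases le_total ((k + 1) * (k + 4) * m - (k + 2) * (k + 3) * q) 0 with hc | hc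
      · have h1 : k * θ * ((k + 1) * (k + 4) * m - (k + 2) * (k + 3) * q) ≤ 0 :=
          mul_nonpos_of_nonneg_of_nonpos (by positivity) hc
        have h2 : 0 ≤ k * (k + 3) * (m - q) := mul_nonneg (by positivity) (by linarith)
        linarith
      · have h1 : (k + 1) * (k * θ * ((k + 1) * (k + 4) * m - (k + 2) * (k + 3) * q))
            ≤ k * ((k + 1) * (k + 4) * m - (k + 2) * (k + 3) * q) := by
          have : (k + 1) * (k * θ * ((k + 1) * (k + 4) * m - (k + 2) * (k + 3) * q))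
              = ((k + 1) * θ) * (k * ((k + 1) * (k + 4) * m - (k + 2) * (k + 3) * q)) := by ring
          rw [this]
          have h3 : 0 ≤ k * ((k + 1) * (k + 4) * m - (k + 2) * (k + 3) * q) :=
            mul_nonneg hk0.le hc
          nlinarith
        have h4 : (k + 1) * (-(k * (k + 3) * (m - q)) +
            k * θ * ((k + 1) * (k + 4) * m - (k + 2) * (k + 3) * q)) ≤ 0 := by
          have h5 : (k : ℝ) * ((k + 1) * m - (k + 3) * q) ≤ 0 :=
            mul_nonpos_of_nonneg_of_nonpos hk0.le (by linarith)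
          nlinarith
        by_contra hcon
        push Not at hcon
        have := mul_pos (by positivity : (0 : ℝ) < k + 1) hcon
        linarith
    · have htI : t ∈ Ioo 0 b := ⟨hx.1.trans ht.1, ht.2⟩
      have h0 := hpos t htI
      have h1 : 0 ≤ (k + 1) * (k + 4) * (M t ^ 2 / g t ^ k) := by positivity
      have h2 : M t * P t / g t ^ (k + 2) ≤ M t * b := by
        rw [div_le_iff₀ (by positivity), mul_assoc]
        exact mul_le_mul_of_nonneg_left (hPb t htI) (hMpos t htI).le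
      have h3 : k * (k + 3) * (M t * P t / g t ^ (k + 2)) ≤ k * (k + 3) * (M t * b) :=
        mul_le_mul_of_nonneg_left h2 (by positivity)
      linarith
    · have := ((tS.const_mul (4 * ((k : ℝ) + 2))).neg).sub
        ((tM.mul_const b).const_mul ((k : ℝ) * (k + 3)))
      simpa using this
  -- last step
  have hkap : 0 < kap k := by unfold kap; positivity
  set R : ℝ → ℝ := fun x => kap k * (M x ^ (k + 3) / P x ^ k) - T x + S x ^ 2 / M x with hRdef
  have conR : ContinuousOn R (Ioo 0 b) := by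
    refine ((continuousOn_const.mul ((conM.pow _).div (conP.pow k) ?_)).sub conT).add
        ((conS.pow 2).div conM ?_)
    · intro y hy; exact (pow_pos (hPpos y hy) _).ne'
    · intro y hy; exact (hMpos y hy).ne'
  have dR : ∀ y ∈ Ioo 0 b, HasDerivWithinAt R (g y ^ k * (S y ^ 2 / M y ^ 2 -
      kap k * (M y ^ (k + 2) / P y ^ k) * (k + 3 - k * M y * g y ^ 2 / P y))) (Ici y) y := by
    intro y hy
    have h0 := hpos y hy
    have hm0 := hMpos y hy
    have hp0 := hPpos y hy
    have dMy := (dM y hy).hasDerivWithinAt (s := Ici y)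
    have dPy := (dP y hy).hasDerivWithinAt (s := Ici y)
    have dSy := (dS y hy).hasDerivWithinAt (s := Ici y)
    have dTy := (dT y hy).hasDerivWithinAt (s := Ici y)
    have d1 := ((hd_pow dMy hm0.ne' (k + 3)).div (hd_pow dPy hp0.ne' k)
      (pow_pos hp0 _).ne').const_mul (kap k)
    have d3 := (dSy.pow 2).div dMy hm0.ne'
    have e : kap k * ((((k + 3 : ℕ) : ℝ) * (M y ^ (k + 3) / M y) * -(g y ^ k) * P y ^ k
          - M y ^ (k + 3) * (k * (P y ^ k / P y) * -(g y ^ (k + 2)))) / (P y ^ k) ^ 2)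
        - -(2 * S y) + (((2 : ℕ) : ℝ) * S y ^ (2 - 1) * -(M y) * M y
          - S y ^ 2 * -(g y ^ k)) / M y ^ 2
        = g y ^ k * (S y ^ 2 / M y ^ 2 - kap k * (M y ^ (k + 2) / P y ^ k) *
          (k + 3 - k * M y * g y ^ 2 / P y)) := by
      push_cast
      norm_num
      field_simp
      ring
    exact ((d1.sub dTy).add d3).congr_deriv e
  have dRle : ∀ y ∈ Ioo 0 b, g y ^ k * (S y ^ 2 / M y ^ 2 -
      kap k * (M y ^ (k + 2) / P y ^ k) * (k + 3 - k * M y * g y ^ 2 / P y)) ≤ 0 := by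
    intro y hy
    have key := step_alg k hk (hMpos y hy) (hPpos y hy) (hSnn y hy) (hpos y hy) (hG y hy) (hW y hy)
    have h0 := hpos y hy
    exact mul_nonpos_of_nonneg_of_nonpos (by positivity) (by linarith)
  have hR : ∀ s ∈ Ioo 0 b, 0 ≤ R s := by
    intro s hs
    refine nonneg_of_right (b := b) (F := R) (L := fun t => -(T t)) conR
      (fun y hy => ⟨_, dRle y hy, dR y hy⟩) hs (fun t ht => ?_) ?_
    · have htI : t ∈ Ioo 0 b := ⟨hs.1.trans ht.1, ht.2⟩
      have hm0 := hMpos t htI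
      have hp0 := hPpos t htI
      have h1 : 0 ≤ kap k * (M t ^ (k + 3) / P t ^ k) := by positivity
      have h2 : 0 ≤ S t ^ 2 / M t := by positivity
      simp only [hRdef]
      linarith
    · simpa using tT.neg
  refine ⟨?_, ?_⟩
  · intro s hs
    have hm0 := hMpos s hs
    have hp0 := hPpos s hs
    have hfin : (T s * M s - S s ^ 2) * P s ^ k ≤ kap k * M s ^ (k + 4) := by
      have e : kap k * M s ^ (k + 4) - (T s * M s - S s ^ 2) * P s ^ k
          = (M s * P s ^ k) * R s := by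
        simp only [hRdef]
        field_simp
        ring
      have := mul_nonneg (by positivity : 0 ≤ M s * P s ^ k) (hR s hs)
      linarith
    have e2 : T s * M s - S s ^ 2 = M s * B s - A s ^ 2 := by
      simp only [hT, hS]
      ring
    rw [e2] at hfin
    exact hfin
  · intro heq
    have lM : Tendsto M (𝓝[>] 0) (𝓝 (M 0)) := tail_left hb iiM
    have lP : Tendsto P (𝓝[>] 0) (𝓝 (P 0)) := tail_left hb iiP
    have lA : Tendsto A (𝓝[>] 0) (𝓝 (A 0)) := tail_left hb iiA
    have lB : Tendsto B (𝓝[>] 0) (𝓝 (B 0)) := tail_left hb iiB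
    have lid : Tendsto (fun u : ℝ => u) (𝓝[>] 0) (𝓝 0) := tendsto_id.mono_left nhdsWithin_le_nhds
    have lS : Tendsto S (𝓝[>] 0) (𝓝 (A 0)) := by
      have := lA.sub (lid.mul lM)
      simpa using this
    have lT : Tendsto T (𝓝[>] 0) (𝓝 (B 0)) := by
      have := (lB.sub ((lid.const_mul 2).mul lA)).add ((lid.pow 2).mul lM)
      simpa using this
    have hM0 : 0 < M 0 := intervalIntegral.intervalIntegral_pos_of_pos_on iiM
      (fun t ht => pow_pos (hpos t ht) _) hb
    have hP0 : 0 < P 0 := intervalIntegral.intervalIntegral_pos_of_pos_on iiP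
      (fun t ht => pow_pos (hpos t ht) _) hb
    have lR : Tendsto R (𝓝[>] 0) (𝓝 (kap k * (M 0 ^ (k + 3) / P 0 ^ k) - B 0 + A 0 ^ 2 / M 0)) :=
      ((((lM.pow _).div (lP.pow k) (pow_pos hP0 _).ne').const_mul _).sub lT).add
        ((lS.pow 2).div lM hM0.ne')
    have hR0 : kap k * (M 0 ^ (k + 3) / P 0 ^ k) - B 0 + A 0 ^ 2 / M 0 ≤ 0 := by
      have h1 : kap k * M 0 ^ (k + 4) ≤ (M 0 * B 0 - A 0 ^ 2) * P 0 ^ k := heq
      have e : kap k * M 0 ^ (k + 4) - (M 0 * B 0 - A 0 ^ 2) * P 0 ^ k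
          = (M 0 * P 0 ^ k) * (kap k * (M 0 ^ (k + 3) / P 0 ^ k) - B 0 + A 0 ^ 2 / M 0) := by
        field_simp
        ring
      have h2 : (M 0 * P 0 ^ k) * (kap k * (M 0 ^ (k + 3) / P 0 ^ k) - B 0 + A 0 ^ 2 / M 0) ≤ 0 := by
        linarith
      exact nonpos_of_mul_nonpos_right h2 (by positivity)
    -- R is zero
    have hRz : ∀ s ∈ Ioo 0 b, R s = 0 := by
      intro s hs
      refine le_antisymm ?_ (hR s hs)
      have hle : ∀ᶠ t in 𝓝[>] (0 : ℝ), R s ≤ R t := by
        filter_upwards [Ioo_mem_nhdsGT hs.1] with t ht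
        have hsub : Icc t s ⊆ Ioo 0 b := fun x hx => ⟨ht.1.trans_le hx.1, hx.2.trans_lt hs.2⟩
        exact image_le_of_deriv_right_le_deriv_boundary (B := fun _ => R t)
          (B' := fun _ => 0)
          (conR.mono hsub) (fun x hx => dR x (hsub ⟨hx.1, hx.2.le⟩)) le_rfl continuousOn_const
          (fun x _ => hasDerivWithinAt_const _ _ _)
          (fun x hx => dRle x (hsub ⟨hx.1, hx.2.le⟩))
          ⟨ht.2.le, le_rfl⟩
      exact (ge_of_tendsto lR hle).trans hR0
    have hzero_deriv : ∀ (F : ℝ → ℝ) (d : ℝ), (∀ s ∈ Ioo 0 b, F s = 0) → ∀ y ∈ Ioo 0 b,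
        HasDerivWithinAt F d (Ici y) y → d = 0 := by
      intro F d hF y hy hd
      have h1 : HasDerivWithinAt F 0 (Ici y) y := by
        have h2 : HasDerivWithinAt (fun _ : ℝ => (0 : ℝ)) 0 (Ici y) y :=
          hasDerivWithinAt_const _ _ _
        refine h2.congr_of_eventuallyEq ?_ (hF y hy)
        filter_upwards [nhdsWithin_le_nhds (isOpen_Ioo.mem_nhds hy)] with x hx
        exact hF x hx
      exact (uniqueDiffWithinAt_Ici y).eq_deriv _ hd h1
    have hGz : ∀ y ∈ Ioo 0 b, (k + 1) * (g y ^ 2 * M y) = (k + 3) * P y := by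
      intro y hy
      have h0 := hpos y hy
      have h1 := hzero_deriv R _ hRz y hy (dR y hy)
      have h2 : S y ^ 2 / M y ^ 2 - kap k * (M y ^ (k + 2) / P y ^ k) *
          (k + 3 - k * M y * g y ^ 2 / P y) = 0 := by
        rcases mul_eq_zero.1 h1 with h | h
        · exact absurd h (pow_pos h0 _).ne'
        · exact h
      exact step_alg_eq k hk (hMpos y hy) (hPpos y hy) (hSnn y hy) h0 (hG y hy) (hW y hy)
        (by linarith)
    have hlz : ∀ y ∈ Ioo 0 b, ∃ l : ℝ, HasDerivWithinAt g (-l) (Ici y) y ∧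
        (k + 1) * l * M y = g y ^ (k + 1) := by
      intro y hy
      obtain ⟨l, hl0, hl1, hl2⟩ := hslope y hy
      refine ⟨l, hl1, ?_⟩
      have h0 := hpos y hy
      have d1 := ((dP y hy).hasDerivWithinAt (s := Ici y)).const_mul ((k : ℝ) + 3)
      have d2 := ((hl1.pow 2).mul ((dM y hy).hasDerivWithinAt (s := Ici y))).const_mul ((k : ℝ) + 1)
      have e : (k + 3) * -(g y ^ (k + 2)) - (k + 1) * (((2 : ℕ) : ℝ) * g y ^ (2 - 1) * -l * M y
          + g y ^ 2 * -(g y ^ k)) = 2 * g y * ((k + 1) * l * M y - g y ^ (k + 1)) := by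
        push_cast
        norm_num
        ring
      have h1 := hzero_deriv (fun x => (k + 3) * P x - (k + 1) * (g x ^ 2 * M x))
        (2 * g y * ((k + 1) * l * M y - g y ^ (k + 1)))
        (fun x hx => by rw [hGz x hx, sub_self]) y hy ((d1.sub d2).congr_deriv e)
      rcases mul_eq_zero.1 h1 with h | h
      · have : 0 < 2 * g y := by positivity
        exact absurd h this.ne'
      · linarith
    choose! l hl1 hl2 using hlz
    -- constancy of M / g^(k+1)
    have hconst : ∀ (F : ℝ → ℝ), ContinuousOn F (Ioo 0 b) →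
        (∀ y ∈ Ioo 0 b, HasDerivWithinAt F 0 (Ici y) y) → ∀ s ∈ Ioo 0 b, ∀ t ∈ Ioo 0 b,
        F s = F t := by
      intro F hFc hF
      have aux : ∀ s ∈ Ioo 0 b, ∀ t ∈ Ioo 0 b, s ≤ t → F t = F s := by
        intro s hs t ht hst
        have hsub : Icc s t ⊆ Ioo 0 b := fun x hx => ⟨hs.1.trans_le hx.1, hx.2.trans_lt ht.2⟩
        exact constant_of_has_deriv_right_zero (hFc.mono hsub)
          (fun x hx => hF x (hsub ⟨hx.1, hx.2.le⟩)) t ⟨hst, le_rfl⟩
      intro s hs t ht
      rcases le_total s t with h | h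
      · exact (aux s hs t ht h).symm
      · exact aux t ht s hs h
    set c0 : ℝ := b / 2 with hc0
    have hc0I : c0 ∈ Ioo 0 b := ⟨by positivity, by rw [hc0]; linarith⟩
    set C : ℝ := M c0 / g c0 ^ (k + 1) with hC
    have hCpos : 0 < C := div_pos (hMpos _ hc0I) (pow_pos (hpos _ hc0I) _)
    have hMC : ∀ s ∈ Ioo 0 b, M s = C * g s ^ (k + 1) := by
      intro s hs
      have h1 := hconst (fun x => M x / g x ^ (k + 1))
        (conM.div (hgc.pow _) fun y hy => (pow_pos (hpos y hy) _).ne') (fun y hy => ?_) s hs c0 hc0I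
      · have h2 : M s / g s ^ (k + 1) = C := h1
        rw [← h2]
        have := (pow_pos (hpos s hs) (k + 1)).ne'
        field_simp
      · have h0 := hpos y hy
        have dMy := (dM y hy).hasDerivWithinAt (s := Ici y)
        have d := dMy.div (hd_pow (hl1 y hy) h0.ne' (k + 1)) (pow_pos h0 _).ne'
        refine d.congr_deriv ?_
        have h2 := hl2 y hy
        have h3 : (-(g y ^ k) * g y ^ (k + 1) - M y * (((k + 1 : ℕ) : ℝ) *
            (g y ^ (k + 1) / g y) * -l y)) = g y ^ k * ((k + 1) * l y * M y - g y ^ (k + 1)) := by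
          push_cast
          field_simp
          ring
        rw [h3, h2, sub_self, mul_zero, zero_div]
    set c : ℝ := 1 / ((k + 1) * C) with hc
    have hcpos : 0 < c := by positivity
    have hlc : ∀ y ∈ Ioo 0 b, l y = c := by
      intro y hy
      have h1 := hl2 y hy
      rw [hMC y hy] at h1
      have h0 := pow_pos (hpos y hy) (k + 1)
      have h2 : ((k + 1) * C * l y - 1) * g y ^ (k + 1) = 0 := by linarith
      rcases mul_eq_zero.1 h2 with h | h
      · rw [hc, eq_div_iff (by positivity)]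
        linarith
      · exact absurd h h0.ne'
    refine ⟨c, hcpos, ?_⟩
    have hlin : ∀ s ∈ Ioo 0 b, g s + c * s = g c0 + c * c0 := by
      intro s hs
      refine hconst (fun x => g x + c * x) (hgc.add (continuousOn_const.mul continuousOn_id))
        (fun y hy => ?_) s hs c0 hc0I
      have d := (hl1 y hy).add (((hasDerivAt_id y).const_mul c).hasDerivWithinAt (s := Ici y))
      refine d.congr_deriv ?_
      rw [hlc y hy]
      ring
    set K0 : ℝ := g c0 + c * c0 with hK0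
    have hK : K0 = c * b := by
      have t1 : Tendsto (fun s => C * (K0 - c * s) ^ (k + 1)) (𝓝[<] b) (𝓝 0) := by
        refine tM.congr' ?_
        filter_upwards [Ioo_mem_nhdsLT hb] with s hs
        rw [hMC s hs]
        have := hlin s hs
        congr 2
        linarith
      have t2 : Tendsto (fun s => C * (K0 - c * s) ^ (k + 1)) (𝓝[<] b)
          (𝓝 (C * (K0 - c * b) ^ (k + 1))) :=
        ((tendsto_const_nhds.sub (tid.const_mul c)).pow (k + 1)).const_mul C
      have h1 := tendsto_nhds_unique t2 t1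
      have h2 : (K0 - c * b) ^ (k + 1) = 0 := by
        rcases mul_eq_zero.1 h1 with h | h
        · exact absurd h hCpos.ne'
        · exact h
      have := pow_eq_zero_iff (n := k + 1) (by omega) |>.1 h2
      linarith
    intro s hs
    have := hlin s hs
    rw [hK] at this
    linarith

end main

/-- a zero inside forces the function to vanish -/
lemma zero_of_zero {b : ℝ} {g : ℝ → ℝ} (hconc : ConcaveOn ℝ (Icc 0 b) g)
    (hanti : AntitoneOn g (Icc 0 b)) (hpos : ∀ s ∈ Icc 0 b, 0 ≤ g s) {s : ℝ} (hs : s ∈ Ioo 0 b)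
    (hs0 : g s ≤ 0) : ∀ t ∈ Icc 0 b, g t = 0 := by
    have hb : 0 < b := hs.1.trans hs.2
    have hs0' : g s = 0 := le_antisymm hs0 (hpos s ⟨hs.1.le, hs.2.le⟩)
    intro t ht
    refine le_antisymm ?_ (hpos t ht)
    rcases le_total s t with h | h
    · exact (hanti ⟨hs.1.le, hs.2.le⟩ ht h).trans hs0
    · rcases h.eq_or_lt with h | h
      · rw [h]; exact hs0
      have hbI : b ∈ Icc 0 b := ⟨hb.le, le_rfl⟩
      have hbt : 0 < b - t := by linarith [hs.2]
      have w1 : 0 ≤ (b - s) / (b - t) := by apply div_nonneg <;> linarith [hs.2]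
      have w2 : 0 ≤ (s - t) / (b - t) := by apply div_nonneg <;> linarith
      have w3 : (b - s) / (b - t) + (s - t) / (b - t) = 1 := by field_simp; ring
      have h1 := hconc.2 ht hbI w1 w2 w3
      have e : ((b - s) / (b - t)) • t + ((s - t) / (b - t)) • b = s := by
        simp only [smul_eq_mul]
        field_simp
        ring
      rw [e, hs0'] at h1
      simp only [smul_eq_mul] at h1
      have h2 : 0 ≤ (s - t) / (b - t) * g b :=
        mul_nonneg (by apply div_nonneg <;> linarith) (hpos b hbI)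
      have h3 : (b - s) / (b - t) * g t ≤ 0 := by linarith
      have h4 : 0 < (b - s) / (b - t) := by
        apply div_pos <;> linarith [hs.2]
      exact nonpos_of_mul_nonpos_right h3 h4

/-- [A4] -/
theorem dec_concave (k : ℕ) (hk : 1 ≤ k) {b : ℝ} (hb : 0 ≤ b) {g : ℝ → ℝ}
    (hconc : ConcaveOn ℝ (Icc 0 b) g) (hanti : AntitoneOn g (Icc 0 b))
    (hpos : ∀ s ∈ Icc 0 b, 0 ≤ g s) :
    ((∫ t in (0 : ℝ)..b, g t ^ k) * (∫ t in (0 : ℝ)..b, t ^ 2 * g t ^ k) -
        (∫ t in (0 : ℝ)..b, t * g t ^ k) ^ 2) * (∫ t in (0 : ℝ)..b, g t ^ (k + 2)) ^ k ≤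
      kap k * (∫ t in (0 : ℝ)..b, g t ^ k) ^ (k + 4) := by
  rcases hb.eq_or_lt with rfl | hb
  · simp
  by_cases hz : ∀ s ∈ Ioo 0 b, 0 < g s
  · have iiM : IntervalIntegrable (fun t => g t ^ k) volume 0 b := by
      simpa using ii_pow hb hanti hpos 0 k
    have iiP : IntervalIntegrable (fun t => g t ^ (k + 2)) volume 0 b := by
      simpa using ii_pow hb hanti hpos 0 (k + 2)
    have iiA : IntervalIntegrable (fun t => t * g t ^ k) volume 0 b := by
      simpa using ii_pow hb hanti hpos 1 k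
    have iiB : IntervalIntegrable (fun t => t ^ 2 * g t ^ k) volume 0 b :=
      ii_pow hb hanti hpos 2 k
    have lM := tail_left hb iiM
    have lP := tail_left hb iiP
    have lA := tail_left hb iiA
    have lB := tail_left hb iiB
    refine le_of_tendsto_of_tendsto (((lM.mul lB).sub (lA.pow 2)).mul (lP.pow k))
      ((lM.pow (k + 4)).const_mul (kap k)) ?_
    filter_upwards [Ioo_mem_nhdsGT hb] with s hs
    exact (main_pos hb hconc hanti hpos k hk hz).1 s hs
  · push Not at hz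
    obtain ⟨s, hs, hs0⟩ := hz
    have hzero := zero_of_zero hconc hanti hpos hs hs0
    have hk0 : k ≠ 0 := by omega
    have e0 : (∫ t in (0 : ℝ)..b, g t ^ k) = 0 := by
      have : (∫ t in (0 : ℝ)..b, g t ^ k) = ∫ _ in (0 : ℝ)..b, (0 : ℝ) := by
        refine intervalIntegral.integral_congr fun t ht => ?_
        rw [uIcc_of_le hb.le] at ht
        simp only [hzero t ht, zero_pow hk0]
      rw [this, intervalIntegral.integral_zero]
    have e1 : (∫ t in (0 : ℝ)..b, t * g t ^ k) = 0 := by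
      have : (∫ t in (0 : ℝ)..b, t * g t ^ k) = ∫ _ in (0 : ℝ)..b, (0 : ℝ) := by
        refine intervalIntegral.integral_congr fun t ht => ?_
        rw [uIcc_of_le hb.le] at ht
        simp only [hzero t ht, zero_pow hk0, mul_zero]
      rw [this, intervalIntegral.integral_zero]
    rw [e0, e1]
    simp

/-- [Q1a] equality case, decreasing functions -/
theorem dec_eq (k : ℕ) (hk : 1 ≤ k) {b : ℝ} (hb : 0 < b) {g : ℝ → ℝ}
    (hconc : ConcaveOn ℝ (Icc 0 b) g) (hanti : AntitoneOn g (Icc 0 b))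
    (hpos : ∀ s ∈ Icc 0 b, 0 ≤ g s) (hM : 0 < ∫ t in (0 : ℝ)..b, g t ^ k)
    (heq : kap k * (∫ t in (0 : ℝ)..b, g t ^ k) ^ (k + 4) ≤
      ((∫ t in (0 : ℝ)..b, g t ^ k) * (∫ t in (0 : ℝ)..b, t ^ 2 * g t ^ k) -
        (∫ t in (0 : ℝ)..b, t * g t ^ k) ^ 2) * (∫ t in (0 : ℝ)..b, g t ^ (k + 2)) ^ k) :
    ∃ c : ℝ, 0 < c ∧ ∀ s ∈ Ioo 0 b, g s = c * (b - s) := by
  have hz : ∀ s ∈ Ioo 0 b, 0 < g s := by
    intro s hs
    by_contra hcon
    push Not at hcon
    have hzero := zero_of_zero hconc hanti hpos hs hcon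
    have hk0 : k ≠ 0 := by omega
    have : (∫ t in (0 : ℝ)..b, g t ^ k) = ∫ _ in (0 : ℝ)..b, (0 : ℝ) := by
      refine intervalIntegral.integral_congr fun t ht => ?_
      rw [uIcc_of_le hb.le] at ht
      simp only [hzero t ht, zero_pow hk0]
    rw [this, intervalIntegral.integral_zero] at hM
    exact lt_irrefl _ hM
  exact (main_pos hb hconc hanti hpos k hk hz).2 heq

end Vale.Agent.P254.Perm.DC745
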