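import Vale.Agent.P254.Perm.Dec

/-!
P254, permutation invariant bodies: equality case of the one-dimensional inequality for decreasing
concave functions.
-/

open MeasureTheory Set Filter Topology

namespace Vale.Agent.P254.Perm

theorem elem_lt (k : ℕ) (hk : 1 ≤ k) {h : ℝ} (h0 : 0 < h) (h1 : (k : ℝ) * h ≤ 4) :
    (1 - k * h / 4) ^ 2 * (1 + h) ^ (k + 1) < 1 + (k + 1) * h := by
  have hk0 : (1 : ℝ) ≤ k := by exact_mod_cast hk
  have hpos : ∀ x ∈ Icc 0 h, 0 < 1 + ((k : ℝ) + 1) * x := fun x hx => by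
    have := hx.1
    positivity
  have key : StrictAntiOn
      (fun x : ℝ => (1 - k * x / 4) ^ 2 * (1 + x) ^ (k + 1) / (1 + (k + 1) * x)) (Icc 0 h) := by
    refine strictAntiOn_of_deriv_neg (convex_Icc 0 h)
      (ContinuousOn.div (by fun_prop) (by fun_prop) fun x hx => (hpos x hx).ne') fun x hx => ?_
    rw [interior_Icc] at hx
    have hx' : x ∈ Icc 0 h := Ioo_subset_Icc_self hx
    have h2 : HasDerivAt (fun x : ℝ => 1 - k * x / 4) (-(k / 4)) x := by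
      have := (((hasDerivAt_id x).const_mul (k : ℝ)).div_const 4).const_sub 1
      simpa using this
    have h3 : HasDerivAt (fun x : ℝ => 1 + x) 1 x := by
      simpa using (hasDerivAt_id x).const_add 1
    have h4 : HasDerivAt (fun x : ℝ => 1 + ((k : ℝ) + 1) * x) (k + 1) x := by
      simpa using ((hasDerivAt_id x).const_mul ((k : ℝ) + 1)).const_add 1
    have h5 := ((h2.pow 2).mul (h3.pow (k + 1))).div h4 (hpos x hx').ne'
    have h5' : HasDerivAt
        (fun x : ℝ => (1 - k * x / 4) ^ 2 * (1 + x) ^ (k + 1) / (1 + (k + 1) * x))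
        (((2 * (1 - k * x / 4) * (-(k / 4)) * (1 + x) ^ (k + 1) +
      (1 - k * x / 4) ^ 2 * ((k + 1) * (1 + x) ^ k)) * (1 + (k + 1) * x) -
      (1 - k * x / 4) ^ 2 * (1 + x) ^ (k + 1) * (k + 1)) / (1 + (k + 1) * x) ^ 2) x := by
      refine h5.congr_deriv ?_
      simp only [Pi.pow_apply, Pi.mul_apply, Nat.cast_add, Nat.cast_one, Nat.cast_ofNat,
        Nat.add_one_sub_one, pow_one, mul_one]
    rw [h5'.deriv]
    have hx0 := hx.1
    have hkx : (k : ℝ) * x < 4 := by nlinarith [hx.2]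
    refine div_neg_of_neg_of_pos ?_ (pow_pos (hpos x hx') 2)
    have h6 : (2 * (1 - k * x / 4) * (-(k / 4)) * (1 + x) ^ (k + 1) +
      (1 - k * x / 4) ^ 2 * ((k + 1) * (1 + x) ^ k)) * (1 + (k + 1) * x) -
      (1 - k * x / 4) ^ 2 * (1 + x) ^ (k + 1) * (k + 1) =
      -((1 - k * x / 4) * (1 + x) ^ k * (k / 4) *
        (2 - 2 * k * x + (k + 1) * (k + 2) * x ^ 2)) := by ring
    rw [h6]
    have h7 : 0 < 1 - (k : ℝ) * x / 4 := by linarith
    have h8 : 0 < 2 - 2 * (k : ℝ) * x + (k + 1) * (k + 2) * x ^ 2 := by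
      nlinarith [sq_nonneg ((k : ℝ) * x - 1), mul_nonneg (by positivity : (0 : ℝ) ≤ k) (sq_nonneg x),
        sq_nonneg x]
    have h9 : 0 < 1 + x := by linarith
    exact neg_lt_zero.2 (mul_pos (by positivity) h8)
  have h2 := key (left_mem_Icc.2 h0.le) (right_mem_Icc.2 h0.le) h0
  have h3 := hpos h (right_mem_Icc.2 h0.le)
  simp only [mul_zero, zero_div, sub_zero, one_pow, add_zero, mul_one, div_one] at h2
  rwa [div_lt_one h3] at h2

theorem kap_pos (k : ℕ) : 0 < kap k := by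
  unfold kap
  positivity

/-- strict form of `last_alg` -/
theorem last_alg_lt (k : ℕ) (hk : 1 ≤ k) {γ M P S : ℝ} (hγ : 0 < γ) (hM : 0 < M) (hP : 0 < P)
    (hS : 0 ≤ S) (hG : (k + 1) * γ ^ 2 * M < (k + 3) * P)
    (hQ : 4 * (k + 2) * (S * γ ^ (k + 2)) + k * (k + 3) * (M * P) ≤
      (k + 1) * (k + 4) * (M ^ 2 * γ ^ 2)) :
    γ ^ k * (S / M) ^ 2 * P ^ (k + 1) <
      kap k * γ ^ k * M ^ (k + 2) * ((k + 3) * P - k * γ ^ 2 * M) := by
  have hk0 : (1 : ℝ) ≤ k := by exact_mod_cast hk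
  obtain ⟨u, hu⟩ : ∃ u, u = (k + 3) * P / ((k + 1) * M * γ ^ 2) := ⟨_, rfl⟩
  obtain ⟨β, hβ⟩ : ∃ β, β = (k + 2) * S * γ ^ k / ((k + 1) * M ^ 2) := ⟨_, rfl⟩
  have hPu : P = (k + 1) * M * γ ^ 2 * u / (k + 3) := by
    rw [hu]; field_simp
  have hSβ : S = (k + 1) * M ^ 2 * β / ((k + 2) * γ ^ k) := by
    rw [hβ]; field_simp
  have hu1 : 1 < u := by
    rw [hu, one_lt_div (by positivity)]
    linarith
  have hβ0 : 0 ≤ β := by rw [hβ]; positivity
  have hQ' : 4 * β + k * u ≤ k + 4 := by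
    have h1 : 4 * (k + 2) * (S * γ ^ (k + 2)) + k * (k + 3) * (M * P) =
        (k + 1) * M ^ 2 * γ ^ 2 * (4 * β + k * u) := by
      rw [hPu, hSβ]
      field_simp
      ring
    rw [h1] at hQ
    have h2 : (k + 1) * (k + 4) * (M ^ 2 * γ ^ 2) = (k + 1) * M ^ 2 * γ ^ 2 * (k + 4) := by ring
    rw [h2] at hQ
    exact le_of_mul_le_mul_left hQ (by positivity)
  have hE := elem_lt k hk (h := u - 1) (by linarith) (by linarith)
  have h3 : β ^ 2 * u ^ (k + 1) < (k + 1) * u - k := by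
    have h4 : β ^ 2 ≤ (1 - k * (u - 1) / 4) ^ 2 := pow_le_pow_left₀ hβ0 (by linarith) 2
    have h5 : (1 : ℝ) + (u - 1) = u := by ring
    rw [h5] at hE
    calc β ^ 2 * u ^ (k + 1) ≤ (1 - k * (u - 1) / 4) ^ 2 * u ^ (k + 1) :=
          mul_le_mul_of_nonneg_right h4 (by positivity)
      _ < _ := hE
      _ = _ := by ring
  have h6 : γ ^ k * (S / M) ^ 2 * P ^ (k + 1) =
      kap k * M ^ (k + 3) * γ ^ (k + 2) * (β ^ 2 * u ^ (k + 1)) := by
    rw [hSβ, hPu, kap]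
    simp only [div_pow, mul_pow]
    field_simp
    ring
  have h7 : kap k * γ ^ k * M ^ (k + 2) * ((k + 3) * P - k * γ ^ 2 * M) =
      kap k * M ^ (k + 3) * γ ^ (k + 2) * ((k + 1) * u - k) := by
    rw [hPu]
    field_simp
    ring
  rw [h6, h7]
  exact mul_lt_mul_of_pos_left h3
    (mul_pos (mul_pos (kap_pos k) (by positivity)) (by positivity))

section Core

variable {b : ℝ} {g : ℝ → ℝ}

/-- `E_ineq` with the remainder -/
theorem E_ineq' (hanti : AntitoneOn g (Icc 0 b)) (hnn : ∀ s ∈ Icc 0 b, 0 ≤ g s) (k : ℕ) {s l : ℝ}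
    (hs : s ∈ Ioo 0 b) (hl : 0 ≤ l) (htan : ∀ t ∈ Icc s b, g t ≤ g s - l * (t - s)) :
    (k + 1) * l * F b g 0 k s ≤ g s ^ (k + 1) - (g s - l * (b - s)) ^ (k + 1) := by
  have hb : 0 ≤ b := hs.1.le.trans hs.2.le
  have h1 : F b g 0 k s ≤ ∫ t in s..b, (g s - l * (t - s)) ^ k := by
    refine intervalIntegral.integral_mono_on hs.2.le
      (ii_pow hanti hnn 0 k ⟨hs.1.le, hs.2.le⟩ ⟨hb, le_rfl⟩) ?_ fun t ht => ?_
    · exact (by fun_prop : Continuous fun t => (g s - l * (t - s)) ^ k).intervalIntegrable _ _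
    · rw [pow_zero, one_mul]
      exact pow_le_pow_left₀ (hnn t ⟨hs.1.le.trans ht.1, ht.2⟩) (htan t ht) k
  have h2 : ∫ t in s..b, (k + 1) * l * (g s - l * (t - s)) ^ k =
      -(g s - l * (b - s)) ^ (k + 1) - -(g s - l * (s - s)) ^ (k + 1) := by
    refine intervalIntegral.integral_eq_sub_of_hasDerivAt
      (f := fun t => -(g s - l * (t - s)) ^ (k + 1)) (fun t _ => ?_) ?_
    · have h3 : HasDerivAt (fun t => g s - l * (t - s)) (-(l * 1)) t :=
        (((hasDerivAt_id t).sub_const s).const_mul l).const_sub (g s)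
      have h4 := (h3.pow (k + 1)).neg
      refine h4.congr_deriv ?_
      simp only [Nat.add_sub_cancel, Nat.cast_add, Nat.cast_one]
      ring
    · exact (by fun_prop : Continuous fun t =>
        (k + 1) * l * (g s - l * (t - s)) ^ k).intervalIntegrable _ _
  rw [intervalIntegral.integral_const_mul] at h2
  have h6 : (k + 1) * l * F b g 0 k s ≤ (k + 1) * l * ∫ t in s..b, (g s - l * (t - s)) ^ k :=
    mul_le_mul_of_nonneg_left h1 (by positivity)
  rw [h2] at h6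
  simp only [sub_self, mul_zero, sub_zero] at h6
  linarith

theorem pos_of_M (hb : 0 < b) (hconc : ConcaveOn ℝ (Icc 0 b) g) (hanti : AntitoneOn g (Icc 0 b))
    (hpos : ∀ s ∈ Icc 0 b, 0 ≤ g s) (k : ℕ) (hk : 1 ≤ k)
    (hM : 0 < ∫ t in (0 : ℝ)..b, g t ^ k) : ∀ s ∈ Ioo 0 b, 0 < g s := by
  by_contra hz
  push Not at hz
  obtain ⟨s, hs, hgs⟩ := hz
  have hgs : g s = 0 := le_antisymm hgs (hpos s ⟨hs.1.le, hs.2.le⟩)
  have hgz : ∀ t ∈ Icc 0 b, g t = 0 := by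
    intro t ht
    refine le_antisymm ?_ (hpos t ht)
    rcases le_or_gt s t with h | h
    · exact (hanti ⟨hs.1.le, hs.2.le⟩ ht h).trans hgs.le
    · have hbt : b - t ≠ 0 := (by linarith [hs.2] : 0 < b - t).ne'
      have w1 : 0 ≤ (b - s) / (b - t) := div_nonneg (by linarith [hs.2]) (by linarith [hs.2])
      have w2 : 0 ≤ (s - t) / (b - t) := div_nonneg (by linarith) (by linarith [hs.2])
      have w3 : (b - s) / (b - t) + (s - t) / (b - t) = 1 := by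
        field_simp
        ring
      have h3 := hconc.2 ht (right_mem_Icc.2 hb.le) w1 w2 w3
      have h4 : ((b - s) / (b - t)) • t + ((s - t) / (b - t)) • b = s := by
        simp only [smul_eq_mul]
        field_simp
        ring
      rw [h4, hgs, smul_eq_mul, smul_eq_mul] at h3
      have h5 : 0 ≤ (s - t) / (b - t) * g b :=
        mul_nonneg (div_nonneg (by linarith) (by linarith [hs.2])) (hpos b ⟨hb.le, le_rfl⟩)
      have h6 : 0 < (b - s) / (b - t) := div_pos (by linarith [hs.2]) (by linarith [hs.2])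
      by_contra hcon
      push Not at hcon
      have := mul_pos h6 hcon
      linarith
  have : ∫ t in (0 : ℝ)..b, g t ^ k = ∫ t in (0 : ℝ)..b, 0 := by
    refine intervalIntegral.integral_congr fun t ht => ?_
    rw [uIcc_of_le hb.le] at ht
    simp only [hgz t ht]
    rw [zero_pow (by omega)]
  rw [this] at hM
  simp at hM

/-- The function `Φ` of the proof and its derivative. -/
theorem Phi_deriv (hconc : ConcaveOn ℝ (Icc 0 b) g) (hanti : AntitoneOn g (Icc 0 b))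
    (hnn : ∀ s ∈ Icc 0 b, 0 ≤ g s) (hp : ∀ s ∈ Ioo 0 b, 0 < g s) (j : ℕ) {s : ℝ}
    (hs : s ∈ Ioo 0 b) :
    HasDerivAt (fun s => kap (j + 1) * (F b g 0 (j + 1) s ^ (j + 4) /
        F b g 0 (j + 1 + 2) s ^ (j + 1)) -
      (F b g 2 (j + 1) s - F b g 1 (j + 1) s ^ 2 / F b g 0 (j + 1) s))
      ((g s ^ (j + 1) * ((F b g 1 (j + 1) s - s * F b g 0 (j + 1) s) / F b g 0 (j + 1) s) ^ 2 *
          F b g 0 (j + 1 + 2) s ^ (j + 1 + 1) -
          kap (j + 1) * g s ^ (j + 1) * F b g 0 (j + 1) s ^ (j + 1 + 2) *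
          ((((j + 1 : ℕ) : ℝ) + 3) * F b g 0 (j + 1 + 2) s -
            ((j + 1 : ℕ) : ℝ) * g s ^ 2 * F b g 0 (j + 1) s)) /
        F b g 0 (j + 1 + 2) s ^ (j + 1 + 1)) s := by
  have hM0 : 0 < F b g 0 (j + 1) s := F_pos hanti hnn hp _ hs
  have hP0 : 0 < F b g 0 (j + 1 + 2) s := F_pos hanti hnn hp _ hs
  have hP := F_deriv hconc hanti hnn 0 (j + 1 + 2) hs
  have hM := F_deriv hconc hanti hnn 0 (j + 1) hs
  have hA := F_deriv hconc hanti hnn 1 (j + 1) hs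
  have hB := F_deriv hconc hanti hnn 2 (j + 1) hs
  have hd1 := ((hM.pow (j + 4)).div (hP.pow (j + 1)) (pow_pos hP0 _).ne').const_mul (kap (j + 1))
  have hd2 := hB.sub ((hA.pow 2).div hM hM0.ne')
  have hd := hd1.sub hd2
  refine HasDerivAt.congr_deriv (f := fun s => kap (j + 1) * (F b g 0 (j + 1) s ^ (j + 4) /
        F b g 0 (j + 1 + 2) s ^ (j + 1)) -
      (F b g 2 (j + 1) s - F b g 1 (j + 1) s ^ 2 / F b g 0 (j + 1) s)) hd ?_
  simp only [pow_zero, one_mul, pow_one, Pi.pow_apply, Nat.cast_ofNat, Nat.add_one_sub_one]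
  generalize F b g 0 (j + 1) s = M at *
  generalize F b g 0 (j + 1 + 2) s = P at *
  generalize F b g 1 (j + 1) s = A at *
  generalize g s = γ at *
  push_cast
  field_simp
  ring

end Core

/-- [Q1a] equality case, decreasing functions -/
theorem dec_eq (k : ℕ) (hk : 1 ≤ k) {b : ℝ} (hb : 0 < b) {g : ℝ → ℝ}
    (hconc : ConcaveOn ℝ (Icc 0 b) g) (hanti : AntitoneOn g (Icc 0 b))
    (hpos : ∀ s ∈ Icc 0 b, 0 ≤ g s) (hM : 0 < ∫ t in (0 : ℝ)..b, g t ^ k)
    (heq : kap k * (∫ t in (0 : ℝ)..b, g t ^ k) ^ (k + 4) ≤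
      ((∫ t in (0 : ℝ)..b, g t ^ k) * (∫ t in (0 : ℝ)..b, t ^ 2 * g t ^ k) -
        (∫ t in (0 : ℝ)..b, t * g t ^ k) ^ 2) * (∫ t in (0 : ℝ)..b, g t ^ (k + 2)) ^ k) :
    ∃ c : ℝ, 0 < c ∧ ∀ s ∈ Ioo 0 b, g s = c * (b - s) := by
  have hp := pos_of_M hb hconc hanti hpos k hk hM
  have e0 : ∀ m, ∫ t in (0 : ℝ)..b, g t ^ m = F b g 0 m 0 := fun m => by simp [F]
  have e1 : ∫ t in (0 : ℝ)..b, t * g t ^ k = F b g 1 k 0 := by simp [F]
  have e2 : ∫ t in (0 : ℝ)..b, t ^ 2 * g t ^ k = F b g 2 k 0 := by simp [F]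
  rw [e0, e0, e1, e2] at heq
  rw [e0] at hM
  have hl : ∀ j m, Tendsto (F b g j m) (𝓝[>] 0) (𝓝 (F b g j m 0)) := fun j m => by
    have h1 := (F_cont hb.le hanti hpos j m) 0 ⟨le_rfl, hb.le⟩
    refine h1.tendsto.mono_left ?_
    refine nhdsWithin_le_iff.2 ?_
    exact mem_of_superset (Ioo_mem_nhdsGT hb) Ioo_subset_Icc_self
  have hP : 0 < F b g 0 (k + 2) 0 := by
    rw [F]
    refine intervalIntegral.intervalIntegral_pos_of_pos_on
      (ii_pow hanti hpos 0 (k + 2) ⟨le_rfl, hb.le⟩ ⟨hb.le, le_rfl⟩) (fun t ht => ?_) hb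
    have := hp t ht
    positivity
  obtain ⟨j, rfl⟩ : ∃ j, k = j + 1 := ⟨k - 1, by omega⟩
  obtain ⟨Φ, hΦ⟩ : ∃ Φ : ℝ → ℝ, Φ = fun s => kap (j + 1) * (F b g 0 (j + 1) s ^ (j + 4) /
        F b g 0 (j + 1 + 2) s ^ (j + 1)) -
      (F b g 2 (j + 1) s - F b g 1 (j + 1) s ^ 2 / F b g 0 (j + 1) s) := ⟨_, rfl⟩
  have hd : ∀ s ∈ Ioo 0 b, HasDerivAt Φ _ s := fun s hs => by
    rw [hΦ]; exact Phi_deriv hconc hanti hpos hp j hs
  have hd0 : ∀ s ∈ Ioo 0 b, (g s ^ (j + 1) *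
      ((F b g 1 (j + 1) s - s * F b g 0 (j + 1) s) / F b g 0 (j + 1) s) ^ 2 *
          F b g 0 (j + 1 + 2) s ^ (j + 1 + 1) -
          kap (j + 1) * g s ^ (j + 1) * F b g 0 (j + 1) s ^ (j + 1 + 2) *
          ((((j + 1 : ℕ) : ℝ) + 3) * F b g 0 (j + 1 + 2) s -
            ((j + 1 : ℕ) : ℝ) * g s ^ 2 * F b g 0 (j + 1) s)) /
        F b g 0 (j + 1 + 2) s ^ (j + 1 + 1) ≤ 0 := fun s hs => by
    have hlast := last_alg (j + 1) hk (hp s hs) (F_pos hanti hpos hp (j + 1) hs)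
      (F_pos hanti hpos hp (j + 1 + 2) hs) (S_nonneg hpos hanti (j + 1) hs)
      (G_ineq hconc hanti hpos hp (j + 1) hs) (Q_ineq hconc hanti hpos hp (j + 1) hs)
    exact div_nonpos_of_nonpos_of_nonneg (sub_nonpos.2 hlast)
      (pow_pos (F_pos hanti hpos hp (j + 1 + 2) hs) (j + 1 + 1)).le
  have hΦ0 : ∀ s ∈ Ioo 0 b, 0 ≤ Φ s := by
    intro s hs
    have hM := F_pos hanti hpos hp (j + 1) hs
    have hP := F_pos hanti hpos hp (j + 1 + 2) hs
    have h1 := var_tail hconc hanti hpos hp (j + 1) hk hs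
    have h2 : Φ s = (kap (j + 1) * F b g 0 (j + 1) s ^ (j + 1 + 4) -
      (F b g 0 (j + 1) s * F b g 2 (j + 1) s - F b g 1 (j + 1) s ^ 2) *
        F b g 0 (j + 1 + 2) s ^ (j + 1)) /
        (F b g 0 (j + 1) s * F b g 0 (j + 1 + 2) s ^ (j + 1)) := by
      rw [hΦ]
      field_simp
      ring
    rw [h2]
    exact div_nonneg (sub_nonneg.2 h1) (by positivity)
  have hanΦ : AntitoneOn Φ (Ioo 0 b) := by
    refine antitoneOn_of_deriv_nonpos (convex_Ioo 0 b)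
      (fun s hs => (hd s hs).continuousAt.continuousWithinAt) (fun s hs => ?_) fun s hs => ?_
    · rw [interior_Ioo] at hs
      exact (hd s hs).differentiableAt.differentiableWithinAt
    · rw [interior_Ioo] at hs
      rw [(hd s hs).deriv]
      exact hd0 s hs
  have hΦl : Tendsto Φ (𝓝[>] 0) (𝓝 (kap (j + 1) * (F b g 0 (j + 1) 0 ^ (j + 4) /
        F b g 0 (j + 1 + 2) 0 ^ (j + 1)) -
      (F b g 2 (j + 1) 0 - F b g 1 (j + 1) 0 ^ 2 / F b g 0 (j + 1) 0))) := by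
    rw [hΦ]
    exact ((((hl 0 (j + 1)).pow (j + 4)).div ((hl 0 (j + 1 + 2)).pow (j + 1))
      (pow_pos hP _).ne').const_mul _).sub
      ((hl 2 (j + 1)).sub (((hl 1 (j + 1)).pow 2).div (hl 0 (j + 1)) hM.ne'))
  have hlim : kap (j + 1) * (F b g 0 (j + 1) 0 ^ (j + 4) /
        F b g 0 (j + 1 + 2) 0 ^ (j + 1)) -
      (F b g 2 (j + 1) 0 - F b g 1 (j + 1) 0 ^ 2 / F b g 0 (j + 1) 0) ≤ 0 := by
    have h2 : kap (j + 1) * (F b g 0 (j + 1) 0 ^ (j + 4) /
        F b g 0 (j + 1 + 2) 0 ^ (j + 1)) -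
      (F b g 2 (j + 1) 0 - F b g 1 (j + 1) 0 ^ 2 / F b g 0 (j + 1) 0) =
      (kap (j + 1) * F b g 0 (j + 1) 0 ^ (j + 1 + 4) -
      (F b g 0 (j + 1) 0 * F b g 2 (j + 1) 0 - F b g 1 (j + 1) 0 ^ 2) *
        F b g 0 (j + 1 + 2) 0 ^ (j + 1)) /
        (F b g 0 (j + 1) 0 * F b g 0 (j + 1 + 2) 0 ^ (j + 1)) := by
      field_simp
      ring
    rw [h2]
    exact div_nonpos_of_nonpos_of_nonneg (sub_nonpos.2 heq) (by positivity)
  have hΦz : ∀ s ∈ Ioo 0 b, Φ s = 0 := by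
    intro s hs
    refine le_antisymm ?_ (hΦ0 s hs)
    refine (ge_of_tendsto hΦl ?_).trans hlim
    filter_upwards [Ioo_mem_nhdsGT hs.1] with t ht
    exact hanΦ ⟨ht.1, ht.2.trans hs.2⟩ hs ht.2.le
  -- hence `P = (k + 1) / (k + 3) * M * g ^ 2`
  have hPM : ∀ s ∈ Ioo 0 b, (((j + 1 : ℕ) : ℝ) + 3) * F b g 0 (j + 1 + 2) s -
      (((j + 1 : ℕ) : ℝ) + 1) * (g s ^ 2 * F b g 0 (j + 1) s) = 0 := by
    intro s hs
    have h1 : HasDerivAt Φ 0 s := by
      refine (hasDerivAt_const s (0 : ℝ)).congr_of_eventuallyEq ?_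
      filter_upwards [Ioo_mem_nhds hs.1 hs.2] with t ht
      exact hΦz t ht
    have h2 := (hd s hs).unique h1
    have hP := F_pos hanti hpos hp (j + 1 + 2) hs
    rw [div_eq_zero_iff, or_iff_left (pow_pos hP _).ne', sub_eq_zero] at h2
    have hG := G_ineq hconc hanti hpos hp (j + 1) hs
    rcases hG.eq_or_lt with h3 | h3
    · linarith
    · exact absurd h2 (last_alg_lt (j + 1) hk (hp s hs) (F_pos hanti hpos hp (j + 1) hs) hP
        (S_nonneg hpos hanti (j + 1) hs) h3 (Q_ineq hconc hanti hpos hp (j + 1) hs)).ne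
  -- hence `g s = l * (b - s)`
  have hlin : ∀ s ∈ Ioo 0 b, ∃ l : ℝ, g s = l * (b - s) ∧ ∀ t ∈ Icc s b, g t ≤ l * (b - t) := by
    intro s hs
    obtain ⟨l, hl0, hl, htan⟩ := g_deriv hconc hanti hs
    have hE := E_ineq' hanti hpos (j + 1) hs hl0 htan
    have hPd := (F_deriv hconc hanti hpos 0 (j + 1 + 2) hs).hasDerivWithinAt (s := Ici s)
    have hMd := (F_deriv hconc hanti hpos 0 (j + 1) hs).hasDerivWithinAt (s := Ici s)
    have h1 := (hPd.const_mul (((j + 1 : ℕ) : ℝ) + 3)).sub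
      (((hl.pow 2).mul hMd).const_mul (((j + 1 : ℕ) : ℝ) + 1))
    have h2 : HasDerivWithinAt (fun s => (((j + 1 : ℕ) : ℝ) + 3) * F b g 0 (j + 1 + 2) s -
      (((j + 1 : ℕ) : ℝ) + 1) * (g s ^ 2 * F b g 0 (j + 1) s)) 0 (Ici s) s := by
      refine (hasDerivWithinAt_const s (Ici s) (0 : ℝ)).congr_of_eventuallyEq ?_ (hPM s hs)
      refine mem_nhdsWithin_of_mem_nhds ?_
      filter_upwards [Ioo_mem_nhds hs.1 hs.2] with t ht
      exact hPM t ht
    have h3 := (uniqueDiffWithinAt_Ici s).eq_deriv _ h1 h2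
    have hγ := hp s hs
    have h4 : g s ^ (j + 1 + 1) = (((j + 1 : ℕ) : ℝ) + 1) * l * F b g 0 (j + 1) s := by
      simp only [pow_zero, one_mul, pow_one, Pi.pow_apply, Nat.cast_ofNat,
        Nat.add_one_sub_one] at h3
      have h5 : (((j + 1 : ℕ) : ℝ) + 3) * -g s ^ (j + 1 + 2) -
        (((j + 1 : ℕ) : ℝ) + 1) * (2 * g s * -l * F b g 0 (j + 1) s + g s ^ 2 * -g s ^ (j + 1)) =
        -(2 * g s * (g s ^ (j + 1 + 1) - (((j + 1 : ℕ) : ℝ) + 1) * l * F b g 0 (j + 1) s)) := by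
        ring
      rw [h5, neg_eq_zero, mul_eq_zero, or_iff_right (by positivity)] at h3
      linarith
    have h6 : (g s - l * (b - s)) ^ (j + 1 + 1) ≤ 0 := by linarith
    have h7 : 0 ≤ g s - l * (b - s) :=
      (hpos b ⟨hb.le, le_rfl⟩).trans (htan b ⟨hs.2.le, le_rfl⟩)
    have h8 : g s - l * (b - s) = 0 := by
      rcases h7.eq_or_lt with h | h
      · exact h.symm
      · exact absurd (pow_pos h (j + 1 + 1)) (not_lt.2 h6)
    refine ⟨l, by linarith, fun t ht => ?_⟩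
    have := htan t ht
    linarith
  have hrat : ∀ s ∈ Ioo 0 b, ∀ t ∈ Ioo 0 b, s ≤ t → g t / (b - t) = g s / (b - s) := by
    intro s hs t ht hst
    have hbs : 0 < b - s := sub_pos.2 hs.2
    have hbt : 0 < b - t := sub_pos.2 ht.2
    obtain ⟨l, h1, h2⟩ := hlin s hs
    refine le_antisymm ?_ ?_
    · rw [div_le_div_iff₀ hbt hbs, h1]
      nlinarith [h2 t ⟨hst, ht.2.le⟩]
    · have w1 : 0 ≤ (b - t) / (b - s) := by positivity
      have w2 : 0 ≤ (t - s) / (b - s) := div_nonneg (sub_nonneg.2 hst) hbs.le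
      have w3 : (b - t) / (b - s) + (t - s) / (b - s) = 1 := by
        field_simp
        ring
      have h3 := hconc.2 ⟨hs.1.le, hs.2.le⟩ (right_mem_Icc.2 hb.le) w1 w2 w3
      have h4 : ((b - t) / (b - s)) • s + ((t - s) / (b - s)) • b = t := by
        simp only [smul_eq_mul]
        field_simp
        ring
      rw [h4, smul_eq_mul, smul_eq_mul] at h3
      have h5 : 0 ≤ (t - s) / (b - s) * g b := mul_nonneg w2 (hpos b ⟨hb.le, le_rfl⟩)
      rw [div_le_div_iff₀ hbs hbt]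
      have h6 : (b - t) / (b - s) * g s ≤ g t := by linarith
      rw [div_mul_eq_mul_div, div_le_iff₀ hbs] at h6
      linarith
  have hb2 : b / 2 ∈ Ioo 0 b := ⟨by linarith, by linarith⟩
  refine ⟨g (b / 2) / (b - b / 2), div_pos (hp _ hb2) (by linarith), fun s hs => ?_⟩
  have hbs : 0 < b - s := sub_pos.2 hs.2
  rcases le_total s (b / 2) with h | h
  · rw [hrat s hs _ hb2 h, div_mul_cancel₀ _ hbs.ne']
  · rw [← hrat _ hb2 s hs h, div_mul_cancel₀ _ hbs.ne']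

end Vale.Agent.P254.Perm
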