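import Vale.Agent.P254.Perm.JDec490

/-! The equality case for decreasing concave functions. -/

open MeasureTheory Set Filter Topology

namespace Vale.Agent.P254.Perm.J490

theorem elem_lt (k : ℕ) (hk : 1 ≤ k) {h : ℝ} (h0 : 0 < h) (h1 : (k : ℝ) * h ≤ 4) :
    (1 - k * h / 4) ^ 2 * (1 + h) ^ (k + 1) < 1 + (k + 1) * h := by
  have hk0 : (0 : ℝ) < k := by exact_mod_cast hk
  replace h1 : (k : ℝ) * h / 4 ≤ 1 := by linarith
  rcases eq_or_lt_of_le h1 with he | hlt
  · rw [he]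
    have : 0 < 1 + ((k : ℝ) + 1) * h := by positivity
    simpa using this
  -- the function `φ`
  set φ : ℝ → ℝ := fun y => Real.log (1 + (k + 1) * y) - (k + 1) * Real.log (1 + y)
    - 2 * Real.log (1 - k * y / 4) with hφ
  have hpos : ∀ y ∈ Icc 0 h, 0 < 1 - k * y / 4 := fun y hy => by
    have : (k : ℝ) * y / 4 ≤ k * h / 4 := by
      have := mul_le_mul_of_nonneg_left hy.2 hk0.le
      linarith
    linarith
  have hder : ∀ y ∈ Icc 0 h, HasDerivAt φ ((k + 1) / (1 + (k + 1) * y) - (k + 1) * (1 / (1 + y))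
      - 2 * (-(k / 4) / (1 - k * y / 4))) y := fun y hy => by
    have p1 : 0 < 1 + ((k : ℝ) + 1) * y := by have := hy.1; positivity
    have p2 : 0 < 1 + y := by have := hy.1; positivity
    have p3 := hpos y hy
    have d1 : HasDerivAt (fun y : ℝ => 1 + ((k : ℝ) + 1) * y) ((k : ℝ) + 1) y := by
      simpa using ((hasDerivAt_id y).const_mul ((k : ℝ) + 1)).const_add 1
    have d2 : HasDerivAt (fun y : ℝ => 1 + y) 1 y := by
      simpa using (hasDerivAt_id y).const_add 1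
    have d3 : HasDerivAt (fun y : ℝ => 1 - (k : ℝ) * y / 4) (-((k : ℝ) / 4)) y := by
      have := (((hasDerivAt_id y).const_mul (k : ℝ)).div_const 4).const_sub 1
      simpa using this
    exact ((d1.log p1.ne').sub ((d2.log p2.ne').const_mul _)).sub ((d3.log p3.ne').const_mul 2)
  have hmono : StrictMonoOn φ (Icc 0 h) := by
    refine strictMonoOn_of_deriv_pos (convex_Icc 0 h)
      (fun y hy => (hder y hy).continuousAt.continuousWithinAt) ?_
    intro y hy
    have hy' := interior_subset hy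
    rw [(hder y hy').deriv]
    have p1 : 0 < 1 + ((k : ℝ) + 1) * y := by have := hy'.1; positivity
    have p2 : 0 < 1 + y := by have := hy'.1; positivity
    have p3 := hpos y hy'
    have e : (k + 1) / (1 + (k + 1) * y) - (k + 1) * (1 / (1 + y))
      - 2 * (-(k / 4) / (1 - k * y / 4)) = (k / 2) * (1 - k * y + (k + 1) * (1 + k / 2) * y ^ 2)
        / ((1 + (k + 1) * y) * (1 + y) * (1 - k * y / 4)) := by
      have p4 : (4 : ℝ) - k * y ≠ 0 := by
        intro h4
        rw [show (1 : ℝ) - k * y / 4 = (4 - k * y) / 4 by ring, h4] at p3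
        simp at p3
      rw [show (1 : ℝ) - k * y / 4 = (4 - k * y) / 4 by ring]
      field_simp
      ring
    rw [e]
    rw [interior_Icc] at hy
    have hy0 : 0 < y := hy.1
    have hq : 0 < 1 - (k : ℝ) * y + (k + 1) * (1 + k / 2) * y ^ 2 := by
      have h5 : 1 - (k : ℝ) * y + (k + 1) * (1 + k / 2) * y ^ 2 =
        (1 - (k : ℝ) * y / 2) ^ 2 + (k ^ 2 / 4 + 3 * k / 2 + 1) * y ^ 2 := by ring
      rw [h5]
      positivity
    positivity
  have h2 := hmono (left_mem_Icc.2 h0.le) (right_mem_Icc.2 h0.le) h0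
  have h3 : φ 0 = 0 := by simp [hφ]
  rw [h3] at h2
  have p1 : 0 < 1 + ((k : ℝ) + 1) * h := by positivity
  have p2 : 0 < 1 + h := by positivity
  have p3 := hpos h (right_mem_Icc.2 h0.le)
  rw [← Real.log_lt_log_iff (by positivity) p1, Real.log_mul (by positivity) (by positivity),
    Real.log_pow, Real.log_pow]
  simp only [hφ] at h2
  push_cast
  linarith

theorem key_alg_eq (k : ℕ) (hk : 1 ≤ k) {M P Z y : ℝ} (hM : 0 < M) (hP : 0 < P) (hy : 0 < y)
    (hZ : 0 ≤ Z)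
    (hQ : 4 * (k + 2) * Z * y ^ (k + 2) + k * (k + 3) * M * P ≤
      (k + 1) * (k + 4) * M ^ 2 * y ^ 2)
    (he : kap k * M ^ (k + 4) * ((k + 3) * P - k * (M * y ^ 2)) ≤ Z ^ 2 * P ^ (k + 1)) :
    (k + 3) * P ≤ (k + 1) * y ^ 2 * M := by
  by_contra hcon
  rw [not_le] at hcon
  set h : ℝ := (k + 3) * P / ((k + 1) * M * y ^ 2) - 1 with hh
  set β : ℝ := (k + 2) * Z * y ^ k / ((k + 1) * M ^ 2) with hβ
  have hD : 0 < ((k : ℝ) + 1) * M * y ^ 2 := by positivity
  have h0 : 0 < h := by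
    rw [hh, sub_pos, lt_div_iff₀ hD]
    linarith
  have hβ0 : 0 ≤ β := by positivity
  have hβ1 : β ≤ 1 - k * h / 4 := by
    have e1 : (1 - k * h / 4 - β) * (4 * (k + 1) * M ^ 2 * y ^ 2) =
        (k + 1) * (k + 4) * M ^ 2 * y ^ 2 -
          (4 * (k + 2) * Z * y ^ (k + 2) + k * (k + 3) * M * P) := by
      rw [hh, hβ]
      field_simp
      ring
    have e2 : 0 ≤ (1 - k * h / 4 - β) * (4 * (k + 1) * M ^ 2 * y ^ 2) := by
      rw [e1]; linarith
    have e3 : 0 < 4 * ((k : ℝ) + 1) * M ^ 2 * y ^ 2 := by positivity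
    have e4 := nonneg_of_mul_nonneg_left e2 e3
    linarith
  have hkh : (k : ℝ) * h ≤ 4 := by linarith
  have h1 := elem_lt k hk h0 hkh
  have h2 : β ^ 2 * (1 + h) ^ (k + 1) < 1 + (k + 1) * h :=
    (mul_le_mul_of_nonneg_right (pow_le_pow_left₀ hβ0 hβ1 2)
      (pow_nonneg (by linarith) _)).trans_lt h1
  have hC : 0 < kap k * M ^ (k + 5) * y ^ 2 := by
    unfold kap
    positivity
  have h3 := mul_lt_mul_of_pos_right h2 hC
  have e5 : 1 + h = (k + 3) * P / ((k + 1) * M * y ^ 2) := by rw [hh]; ring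
  have e6 : β ^ 2 * (1 + h) ^ (k + 1) * (kap k * M ^ (k + 5) * y ^ 2) =
      Z ^ 2 * P ^ (k + 1) := by
    rw [e5, hβ]
    unfold kap
    simp only [div_pow, mul_pow]
    field_simp
    ring
  have e7 : (1 + (k + 1) * h) * (kap k * M ^ (k + 5) * y ^ 2) =
      kap k * M ^ (k + 4) * ((k + 3) * P - k * (M * y ^ 2)) := by
    rw [hh]
    field_simp
    ring
  rw [e6, e7] at h3
  exact absurd h3 (not_lt.2 he)

variable {g : ℝ → ℝ} {b : ℝ}

theorem Hyp.Ph_anti (H : Hyp g b) (k : ℕ) (hk : 1 ≤ k) : AntitoneOn (Ph g b k) (Ico 0 b) := by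
  refine antitoneOn_of_deriv_nonpos (convex_Ico 0 b) (H.cPh k) ?_ ?_
  · rw [interior_Ico]
    exact fun x hx => (H.dPh k hk hx).differentiableAt.differentiableWithinAt
  · rw [interior_Ico]
    intro x hx
    rw [(H.dPh k hk hx).deriv]
    exact H.Ph'_nonpos k hk hx

/-- Equality at `0` gives equality in (G) everywhere. -/
theorem Hyp.eqG (H : Hyp g b) (k : ℕ) (hk : 1 ≤ k) (h0 : Ph g b k 0 ≤ 0) {s : ℝ}
    (hs : s ∈ Ioo 0 b) :
    (k + 3) * A g b 0 (k + 2) s - (k + 1) * (g s ^ 2 * A g b 0 k s) = 0 := by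
  have hz : ∀ x ∈ Ioo 0 b, Ph g b k x = 0 := by
    intro x hx
    exact le_antisymm ((H.Ph_anti k hk (left_mem_Ico.2 H.b0) ⟨hx.1.le, hx.2⟩ hx.1.le).trans h0)
      (H.Ph_nonneg k hk hx)
  have hd : Ph' g b k s = 0 := by
    have h1 : HasDerivAt (Ph g b k) 0 s :=
      (hasDerivAt_const s (0 : ℝ)).congr_of_eventuallyEq (by
        filter_upwards [isOpen_Ioo.mem_nhds hs] with x hx
        exact hz x hx)
    exact (H.dPh k hk hs).unique h1
  have hM := H.A0_pos k ⟨hs.1.le, hs.2⟩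
  have hP := H.A0_pos (k + 2) ⟨hs.1.le, hs.2⟩
  have hy := H.pos ⟨hs.1.le, hs.2⟩
  have h2 : S g b k s ^ 2 * A g b 0 (k + 2) s ^ (k + 1) - kap k * A g b 0 k s ^ (k + 4) *
      ((k + 3) * A g b 0 (k + 2) s - k * (A g b 0 k s * g s ^ 2)) = 0 := by
    unfold Ph' at hd
    rcases mul_eq_zero.1 hd with h3 | h3
    · exfalso
      have : 0 < g s ^ k / (A g b 0 k s ^ 2 * A g b 0 (k + 2) s ^ (k + 1)) := by positivity
      exact this.ne' h3
    · exact h3
  have h3 := key_alg_eq k hk hM hP hy (H.S_nonneg k ⟨hs.1.le, hs.2.le⟩) (H.Q k hs)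
    (by unfold S at h2; linarith)
  have h4 := H.G k hs
  linarith

theorem Hyp.eql (H : Hyp g b) (k : ℕ) (hk : 1 ≤ k) (h0 : Ph g b k 0 ≤ 0) {s : ℝ}
    (hs : s ∈ Ioo 0 b) : (k + 1) * l g s * A g b 0 k s = g s ^ (k + 1) := by
  have d1 := (H.dA 0 (k + 2) hs).hasDerivWithinAt (s := Ici s)
  have d2 := (H.dA 0 k hs).hasDerivWithinAt (s := Ici s)
  have d3 := H.dg hs
  have h1 := (d1.const_mul ((k : ℝ) + 3)).sub (((d3.pow 2).mul d2).const_mul ((k : ℝ) + 1))
  have h2 : HasDerivWithinAt (fun x => (k + 3) * A g b 0 (k + 2) x -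
      (k + 1) * (g x ^ 2 * A g b 0 k x)) 0 (Ici s) s := by
    refine (hasDerivWithinAt_const s (Ici s) (0 : ℝ)).congr_of_eventuallyEq ?_ (H.eqG k hk h0 hs)
    filter_upwards [nhdsWithin_le_nhds (isOpen_Ioo.mem_nhds hs)] with x hx
    exact H.eqG k hk h0 hx
  have h3 := (uniqueDiffWithinAt_Ici s).eq_deriv _ h1 h2
  simp only [Pi.pow_apply] at h3
  have hy := H.pos ⟨hs.1.le, hs.2⟩
  have h4 : 2 * g s * ((k + 1) * l g s * A g b 0 k s - g s ^ (k + 1)) = 0 := by
    rw [← h3]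
    simp only [pow_zero, one_mul, Nat.cast_ofNat, Nat.add_one_sub_one, pow_one]
    ring
  rcases mul_eq_zero.1 h4 with h5 | h5
  · exact absurd h5 (by positivity)
  · linarith

theorem Hyp.lM_le2 (H : Hyp g b) (k : ℕ) {s : ℝ} (hs : s ∈ Ioo 0 b) :
    (k + 1) * l g s * A g b 0 k s ≤ g s ^ (k + 1) - (g s - l g s * (b - s)) ^ (k + 1) := by
  have hl := H.l_nonneg hs
  have hb : s ≤ b := hs.2.le
  have hd : ∀ t ∈ uIcc s b, HasDerivAt (fun t => -(g s - l g s * (t - s)) ^ (k + 1))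
      ((k + 1) * l g s * (g s - l g s * (t - s)) ^ k) t := by
    intro t _
    have h1 : HasDerivAt (fun t => g s - l g s * (t - s)) (-(l g s * 1)) t :=
      (((hasDerivAt_id t).sub_const s).const_mul (l g s)).const_sub (g s)
    have h2 := (h1.pow (k + 1)).neg
    have h3 : ((k : ℝ) + 1) * l g s * (g s - l g s * (t - s)) ^ k =
        -(((k + 1 : ℕ) : ℝ) * (g s - l g s * (t - s)) ^ (k + 1 - 1) * (-(l g s * 1))) := by
      rw [Nat.add_sub_cancel]
      push_cast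
      ring
    rw [h3]
    exact h2
  have hint : IntervalIntegrable (fun t => (k + 1) * l g s * (g s - l g s * (t - s)) ^ k)
      volume s b := by
    apply Continuous.intervalIntegrable
    fun_prop
  have h1 := intervalIntegral.integral_eq_sub_of_hasDerivAt hd hint
  have h2 : (k + 1) * l g s * A g b 0 k s ≤
      ∫ t in s..b, (k + 1) * l g s * (g s - l g s * (t - s)) ^ k := by
    unfold A
    rw [← intervalIntegral.integral_const_mul]
    refine intervalIntegral.integral_mono_on hb ((H.iis 0 k ⟨hs.1.le, hb⟩).const_mul _) hint ?_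
    intro t ht
    have h3 := H.nn t ⟨hs.1.le.trans ht.1, ht.2⟩
    have h4 := pow_le_pow_left₀ h3 (H.tangent hs ht) k
    rw [pow_zero, one_mul]
    exact mul_le_mul_of_nonneg_left h4 (by positivity)
  rw [h1] at h2
  simp only [sub_self, mul_zero, sub_zero] at h2
  linarith

theorem Hyp.eqg (H : Hyp g b) (k : ℕ) (hk : 1 ≤ k) (h0 : Ph g b k 0 ≤ 0) {s : ℝ}
    (hs : s ∈ Ioo 0 b) : g s = l g s * (b - s) := by
  have h1 := H.lM_le2 k hs
  rw [H.eql k hk h0 hs] at h1
  have h2 : 0 ≤ g s - l g s * (b - s) := by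
    have h3 := H.tangent hs (right_mem_Icc.2 hs.2.le)
    have h4 := H.nn b (right_mem_Icc.2 H.b0.le)
    linarith
  rcases h2.eq_or_lt with h3 | h3
  · linarith
  · have h4 := pow_pos h3 (k + 1)
    linarith

theorem Hyp.cone (H : Hyp g b) (k : ℕ) (hk : 1 ≤ k) (h0 : Ph g b k 0 ≤ 0) :
    ∃ c : ℝ, 0 < c ∧ ∀ s ∈ Ioo 0 b, g s = c * (b - s) := by
  have hd : ∀ x ∈ Ioo 0 b, HasDerivWithinAt (fun x => g x / (b - x)) 0 (Ici x) x := by
    intro x hx
    have hbx : b - x ≠ 0 := (sub_pos.2 hx.2).ne'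
    have h1 := (H.dg hx).div (((hasDerivAt_id x).const_sub b).hasDerivWithinAt) hbx
    refine h1.congr_deriv ?_
    have h2 := H.eqg k hk h0 hx
    simp only [id]
    rw [div_eq_zero_iff]
    left
    rw [h2]
    ring
  have hc : ∀ s t, 0 < s → s ≤ t → t < b → g t / (b - t) = g s / (b - s) := by
    intro s t hs hst ht
    have hsub : Icc s t ⊆ Ioo 0 b := fun x hx => ⟨hs.trans_le hx.1, hx.2.trans_lt ht⟩
    have h1 := constant_of_has_deriv_right_zero (f := fun x => g x / (b - x)) (a := s) (b := t)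
      ((H.cont.mono hsub).div₀ (continuousOn_const.sub continuousOn_id)
        fun x hx => (sub_pos.2 (hsub hx).2).ne')
      (fun x hx => hd x (hsub ⟨hx.1, hx.2.le⟩))
    exact h1 t (right_mem_Icc.2 hst)
  have hb := H.b0
  have hm : b / 2 ∈ Ioo 0 b := ⟨by linarith, by linarith⟩
  refine ⟨g (b / 2) / (b - b / 2), div_pos (H.pos ⟨hm.1.le, hm.2⟩) (by linarith), ?_⟩
  intro s hs
  have h2 : g s / (b - s) = g (b / 2) / (b - b / 2) := by
    rcases le_total s (b / 2) with h | h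
    · exact (hc s (b / 2) hs.1 h hm.2).symm
    · exact hc (b / 2) s hm.1 h hs.2
  rw [← h2, div_mul_cancel₀ _ (sub_pos.2 hs.2).ne']

end J490

/-- [Q1a] equality case, decreasing functions -/
theorem J490.dec_eq (k : ℕ) (hk : 1 ≤ k) {b : ℝ} (hb : 0 < b) {g : ℝ → ℝ}
    (hconc : ConcaveOn ℝ (Icc 0 b) g) (hanti : AntitoneOn g (Icc 0 b))
    (hpos : ∀ s ∈ Icc 0 b, 0 ≤ g s) (hM : 0 < ∫ t in (0 : ℝ)..b, g t ^ k)
    (heq : kap k * (∫ t in (0 : ℝ)..b, g t ^ k) ^ (k + 4) ≤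
      ((∫ t in (0 : ℝ)..b, g t ^ k) * (∫ t in (0 : ℝ)..b, t ^ 2 * g t ^ k) -
        (∫ t in (0 : ℝ)..b, t * g t ^ k) ^ 2) * (∫ t in (0 : ℝ)..b, g t ^ (k + 2)) ^ k) :
    ∃ c : ℝ, 0 < c ∧ ∀ s ∈ Ioo 0 b, g s = c * (b - s) := by
  rcases (hpos 0 (left_mem_Icc.2 hb.le)).eq_or_lt with h0 | h0
  · exfalso
    have hz : ∀ t ∈ uIcc 0 b, g t = 0 := by
      intro t ht
      rw [uIcc_of_le hb.le] at ht
      exact le_antisymm (h0 ▸ hanti (left_mem_Icc.2 hb.le) ht ht.1) (hpos t ht)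
    rw [intervalIntegral.integral_congr (g := fun _ => 0) (fun t ht => by
        simp only [hz t ht]; exact zero_pow (by omega))] at hM
    simp at hM
  · have H : J490.Hyp g b := ⟨hb, hconc, hanti, hpos, h0⟩
    refine H.cone k hk ?_
    have hMp := H.A0_pos k (left_mem_Ico.2 hb)
    have hPp := H.A0_pos (k + 2) (left_mem_Ico.2 hb)
    have e1 : (J490.Ph g b k 0) * (J490.A g b 0 k 0 * J490.A g b 0 (k + 2) 0 ^ k) =
        kap k * J490.A g b 0 k 0 ^ (k + 4) -
          (J490.A g b 0 k 0 * J490.A g b 2 k 0 - J490.A g b 1 k 0 ^ 2) *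
            J490.A g b 0 (k + 2) 0 ^ k := by
      unfold J490.Ph
      have e1 : J490.T g b k 0 = J490.A g b 2 k 0 := by unfold J490.T; ring
      have e2 : J490.S g b k 0 = J490.A g b 1 k 0 := by unfold J490.S; ring
      rw [e1, e2]
      have hM' := hMp.ne'
      have hP' := (pow_pos hPp k).ne'
      field_simp
      ring
    have e2 : kap k * J490.A g b 0 k 0 ^ (k + 4) -
          (J490.A g b 0 k 0 * J490.A g b 2 k 0 - J490.A g b 1 k 0 ^ 2) *
            J490.A g b 0 (k + 2) 0 ^ k ≤ 0 := by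
      unfold J490.A
      simp only [pow_zero, one_mul, pow_one]
      linarith
    rw [← e1] at e2
    exact nonpos_of_mul_nonpos_left e2 (mul_pos hMp (pow_pos hPp k))

end Vale.Agent.P254.Perm
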