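import Vale.Agent.P254.Perm.Elem
import Vale.Agent.P254.Perm.DecC
import Mathlib.Analysis.Convex.Continuous
import Mathlib.Analysis.Convex.Deriv
import Mathlib.Analysis.Calculus.MeanValue

/-!
P254, permutation invariant bodies: the one-dimensional inequality for decreasing concave functions
with its equality case, via right derivatives (leaves `dec_concave`, `dec_eq`).
-/

open MeasureTheory Set Filter Topology

namespace Vale.Agent.P254.Perm.DE492

/-- decreasing on a segment from the sign of the right derivative -/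
theorem anti_tool {F F' : ℝ → ℝ} {s c : ℝ} (hsc : s ≤ c) (hcont : ContinuousOn F (Icc s c))
    (hder : ∀ t ∈ Ico s c, HasDerivWithinAt F (F' t) (Ici t) t) (hneg : ∀ t ∈ Ico s c, F' t ≤ 0) :
    F c ≤ F s := by
  have := image_le_of_deriv_right_le_deriv_boundary hcont hder (B := fun _ => F s)
    (B' := fun _ => 0) le_rfl continuousOn_const (fun t _ => hasDerivWithinAt_const _ _ _) hneg
  exact this ⟨hsc, le_rfl⟩

/-- a lower bound which tends to zero -/
theorem lim_tool {E : ℝ → ℝ} {s b F : ℝ} (hsb : s < b) (hE : Tendsto E (𝓝[<] b) (𝓝 0))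
    (h : ∀ c ∈ Ioo s b, -E c ≤ F) : 0 ≤ F := by
  have h1 : Tendsto (fun c => -E c) (𝓝[<] b) (𝓝 0) := by simpa using hE.neg
  apply le_of_tendsto h1
  filter_upwards [Ioo_mem_nhdsLT hsb] with c hc
  exact h c hc

/-- The data: `g` positive, concave, decreasing on `(0, b)`, with right derivative `d`. -/
structure Dat (b : ℝ) (g d : ℝ → ℝ) : Prop where
  cont : ContinuousOn g (Ioo 0 b)
  der : ∀ s ∈ Ioo 0 b, HasDerivWithinAt g (d s) (Ici s) s
  danti : ∀ s ∈ Ioo 0 b, ∀ t ∈ Ioo 0 b, s ≤ t → d t ≤ d s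
  dneg : ∀ s ∈ Ioo 0 b, d s ≤ 0
  pos : ∀ s ∈ Ioo 0 b, 0 < g s
  anti : AntitoneOn g (Icc 0 b)
  nonneg : ∀ s ∈ Icc 0 b, 0 ≤ g s

theorem exists_dat {b : ℝ} {g : ℝ → ℝ} (hconc : ConcaveOn ℝ (Icc 0 b) g)
    (hanti : AntitoneOn g (Icc 0 b)) (hnn : ∀ s ∈ Icc 0 b, 0 ≤ g s)
    (hpos : ∀ s ∈ Ioo 0 b, 0 < g s) : ∃ d, Dat b g d := by
  have hcv : ConvexOn ℝ (Icc 0 b) (-g) := hconc.neg
  refine ⟨fun s => -(derivWithin (-g) (Ioi s) s), ?_, ?_, ?_, ?_, hpos, hanti, hnn⟩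
  · have := hconc.continuousOn_interior
    rwa [interior_Icc] at this
  · intro s hs
    have h1 := hcv.hasDerivWithinAt_rightDeriv_of_mem_interior (x := s) (by rwa [interior_Icc])
    have h2 := h1.neg
    rw [neg_neg] at h2
    exact hasDerivWithinAt_Ioi_iff_Ici.1 h2
  · intro s hs t ht hst
    have := hcv.monotoneOn_rightDeriv (by rwa [interior_Icc]) (by rwa [interior_Icc]) hst
    exact neg_le_neg this
  · intro s hs
    have h1 := hcv.hasDerivWithinAt_rightDeriv_of_mem_interior (x := s) (by rwa [interior_Icc])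
    have h2 := (hasDerivWithinAt_iff_tendsto_slope' self_notMem_Ioi).1 h1
    have : 0 ≤ derivWithin (-g) (Ioi s) s := by
      apply ge_of_tendsto h2
      filter_upwards [Ioo_mem_nhdsGT hs.2] with t ht
      rw [slope_def_field]
      apply div_nonneg _ (by linarith [ht.1])
      have := hanti ⟨hs.1.le, hs.2.le⟩ ⟨(hs.1.trans ht.1).le, ht.2.le⟩ ht.1.le
      simp only [Pi.neg_apply]
      linarith
    linarith

/-- derivative of a tail -/
theorem tail_deriv {b : ℝ} {f : ℝ → ℝ} (hi : IntervalIntegrable f volume 0 b)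
    (hc : ContinuousOn f (Ioo 0 b)) {s : ℝ} (hs : s ∈ Ioo 0 b) :
    HasDerivAt (fun s => ∫ t in s..b, f t) (-f s) s := by
  apply intervalIntegral.integral_hasDerivAt_left
  · apply hi.mono_set
    rw [uIcc_of_le (hs.1.trans hs.2).le, uIcc_of_le hs.2.le]
    exact Icc_subset_Icc hs.1.le le_rfl
  · exact hc.stronglyMeasurableAtFilter isOpen_Ioo s hs
  · exact hc.continuousAt (Ioo_mem_nhds hs.1 hs.2)

/-- tails are continuous -/
theorem tail_cont {b : ℝ} (hb : 0 ≤ b) {f : ℝ → ℝ} (hi : IntervalIntegrable f volume 0 b) :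
    ContinuousOn (fun s => ∫ t in s..b, f t) (Icc 0 b) := by
  have := intervalIntegral.continuousOn_primitive_interval_left (μ := volume) (a := 0) (b := b)
    (f := f) (by
      rw [uIcc_of_le hb, integrableOn_Icc_iff_integrableOn_Ioc]
      exact (intervalIntegrable_iff_integrableOn_Ioc_of_le hb).1 hi)
  rwa [uIcc_of_le hb] at this

/-- tails tend to zero -/
theorem tail_lim {b : ℝ} (hb : 0 < b) {f : ℝ → ℝ} (hi : IntervalIntegrable f volume 0 b) :
    Tendsto (fun s => ∫ t in s..b, f t) (𝓝[<] b) (𝓝 0) := by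
  have h1 := (tail_cont hb.le hi) b ⟨hb.le, le_rfl⟩
  have h2 : Tendsto (fun s => ∫ t in s..b, f t) (𝓝[Icc 0 b] b) (𝓝 0) := by
    have := h1.tendsto
    simpa using this
  apply h2.mono_left
  rw [nhdsWithin_le_iff]
  filter_upwards [Ioo_mem_nhdsLT hb] with c hc
  exact ⟨hc.1.le, hc.2.le⟩

variable {b : ℝ} {g d : ℝ → ℝ}

theorem Dat.ii (D : Dat b g d) (k : ℕ) (hb : 0 < b) :
    IntervalIntegrable (fun t => g t ^ k) volume 0 b := by
  apply AntitoneOn.intervalIntegrable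
  rw [uIcc_of_le hb.le]
  intro s hs t ht hst
  exact pow_le_pow_left₀ (D.nonneg t ht) (D.anti hs ht hst) k

theorem Dat.ci (D : Dat b g d) (k : ℕ) : ContinuousOn (fun t => g t ^ k) (Ioo 0 b) :=
  D.cont.pow k

theorem Dat.ii1 (D : Dat b g d) (k : ℕ) (hb : 0 < b) :
    IntervalIntegrable (fun t => t * g t ^ k) volume 0 b :=
  (D.ii k hb).continuousOn_mul continuousOn_id

theorem Dat.ii2 (D : Dat b g d) (k : ℕ) (hb : 0 < b) :
    IntervalIntegrable (fun t => t ^ 2 * g t ^ k) volume 0 b :=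
  (D.ii k hb).continuousOn_mul (continuousOn_id.pow 2)

theorem Dat.sub (_D : Dat b g d) {f : ℝ → ℝ} (hi : IntervalIntegrable f volume 0 b) {s : ℝ}
    (hs : s ∈ Icc 0 b) : IntervalIntegrable f volume s b := by
  apply hi.mono_set
  rw [uIcc_of_le (hs.1.trans hs.2), uIcc_of_le hs.2]
  exact Icc_subset_Icc hs.1 le_rfl

theorem Dat.Mpos (D : Dat b g d) (k : ℕ) (hb : 0 < b) {s : ℝ} (h0 : 0 ≤ s) (h1 : s < b) :
    0 < ∫ t in s..b, g t ^ k := by
  apply intervalIntegral.intervalIntegral_pos_of_pos_on (D.sub (D.ii k hb) ⟨h0, h1.le⟩) _ h1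
  intro t ht
  exact pow_pos (D.pos t ⟨h0.trans_lt ht.1, ht.2⟩) _

/-- `(k + 1) l M ≤ g ^ (k + 1)` -/
theorem Dat.theta (D : Dat b g d) (k : ℕ) (hb : 0 < b) {s : ℝ} (hs : s ∈ Ioo 0 b) :
    (k + 1) * (-d s) * (∫ t in s..b, g t ^ k) ≤ g s ^ (k + 1) := by
  have hE : Tendsto (fun c => (k + 1) * (-d s) * (∫ t in c..b, g t ^ k)) (𝓝[<] b) (𝓝 0) := by
    have := (tail_lim hb (D.ii k hb)).const_mul (((k : ℝ) + 1) * (-d s))
    simpa using this
  have key : ∀ c ∈ Ioo s b, -((k + 1) * (-d s) * (∫ t in c..b, g t ^ k)) ≤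
      g s ^ (k + 1) - (k + 1) * (-d s) * (∫ t in s..b, g t ^ k) := by
    intro c hc
    have h := anti_tool (F := fun t => g t ^ (k + 1) - (k + 1) * (-d s) * (∫ u in t..b, g u ^ k))
      (F' := fun t => ((k + 1 : ℕ) : ℝ) * g t ^ k * d t - (k + 1) * (-d s) * (-(g t ^ k)))
      hc.1.le ?_ ?_ ?_
    · have h2 : 0 ≤ g c ^ (k + 1) := pow_nonneg (D.nonneg c ⟨(hs.1.trans hc.1).le, hc.2.le⟩) _
      linarith
    · have hsub : Icc s c ⊆ Ioo 0 b := fun t ht => ⟨hs.1.trans_le ht.1, ht.2.trans_lt hc.2⟩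
      apply ((D.cont.mono hsub).pow _).sub
      apply continuousOn_const.mul
      exact (tail_cont hb.le (D.ii k hb)).mono (hsub.trans Ioo_subset_Icc_self)
    · intro t ht
      have ht' : t ∈ Ioo 0 b := ⟨hs.1.trans_le ht.1, ht.2.trans hc.2⟩
      have h1 := (D.der t ht').pow (k + 1)
      have h2 := ((tail_deriv (D.ii k hb) (D.ci k) ht').hasDerivWithinAt (s := Ici t)).const_mul
        (((k : ℝ) + 1) * (-d s))
      exact h1.sub h2
    · intro t ht
      have ht' : t ∈ Ioo 0 b := ⟨hs.1.trans_le ht.1, ht.2.trans hc.2⟩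
      have h1 := D.danti s hs t ht' ht.1
      have h2 : 0 < g t ^ k := pow_pos (D.pos t ht') k
      have e : ((k + 1 : ℕ) : ℝ) * g t ^ k * d t - (k + 1) * (-d s) * (-(g t ^ k)) =
          -(((k : ℝ) + 1) * g t ^ k * (d s - d t)) := by push_cast; ring
      rw [e]
      have : 0 ≤ ((k : ℝ) + 1) * g t ^ k * (d s - d t) := by
        have : 0 ≤ d s - d t := by linarith
        positivity
      linarith
  have := lim_tool hs.2 hE key
  linarith

/-- `P ≤ g² M` -/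
theorem Dat.P_le (D : Dat b g d) (k : ℕ) (hb : 0 < b) {s : ℝ} (hs : s ∈ Ioo 0 b) :
    (∫ t in s..b, g t ^ (k + 2)) ≤ g s ^ 2 * ∫ t in s..b, g t ^ k := by
  have hs' : s ∈ Icc 0 b := ⟨hs.1.le, hs.2.le⟩
  rw [← intervalIntegral.integral_const_mul]
  apply intervalIntegral.integral_mono_on hs.2.le (D.sub (D.ii (k + 2) hb) hs')
    ((D.sub (D.ii k hb) hs').const_mul _)
  intro t ht
  have h1 : t ∈ Icc 0 b := ⟨hs.1.le.trans ht.1, ht.2⟩
  have h2 := D.nonneg t h1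
  have h3 := D.anti hs' h1 ht.1
  have : g t ^ 2 ≤ g s ^ 2 := pow_le_pow_left₀ h2 h3 2
  calc g t ^ (k + 2) = g t ^ 2 * g t ^ k := by ring
    _ ≤ g s ^ 2 * g t ^ k := mul_le_mul_of_nonneg_right this (pow_nonneg h2 _)

/-- right derivative of `(k + 3) P - (k + 1) g² M` -/
theorem Dat.derG (D : Dat b g d) (k : ℕ) (hb : 0 < b) {t : ℝ} (ht : t ∈ Ioo 0 b) :
    HasDerivWithinAt (fun t => (k + 3) * (∫ u in t..b, g u ^ (k + 2)) -
        (k + 1) * g t ^ 2 * (∫ u in t..b, g u ^ k))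
      (-(2 * g t * (g t ^ (k + 1) - (k + 1) * (-d t) * (∫ u in t..b, g u ^ k)))) (Ici t) t := by
  have h1 := ((tail_deriv (D.ii (k + 2) hb) (D.ci (k + 2)) ht).hasDerivWithinAt
    (s := Ici t)).const_mul ((k : ℝ) + 3)
  have h2 := (((D.der t ht).pow 2).const_mul ((k : ℝ) + 1)).mul
    ((tail_deriv (D.ii k hb) (D.ci k) ht).hasDerivWithinAt (s := Ici t))
  refine (h1.sub h2).congr_deriv ?_
  simp only [Pi.pow_apply]
  push_cast
  ring

/-- (G) -/
theorem Dat.G (D : Dat b g d) (k : ℕ) (hb : 0 < b) {s : ℝ} (hs : s ∈ Ioo 0 b) :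
    (k + 1) * g s ^ 2 * (∫ t in s..b, g t ^ k) ≤ (k + 3) * ∫ t in s..b, g t ^ (k + 2) := by
  have hE : Tendsto (fun c => (k + 1) * g s ^ 2 * (∫ t in c..b, g t ^ k)) (𝓝[<] b) (𝓝 0) := by
    have := (tail_lim hb (D.ii k hb)).const_mul (((k : ℝ) + 1) * g s ^ 2)
    simpa using this
  have key : ∀ c ∈ Ioo s b, -((k + 1) * g s ^ 2 * (∫ t in c..b, g t ^ k)) ≤
      (k + 3) * (∫ t in s..b, g t ^ (k + 2)) - (k + 1) * g s ^ 2 * (∫ t in s..b, g t ^ k) := by
    intro c hc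
    have hcI : c ∈ Ioo 0 b := ⟨hs.1.trans hc.1, hc.2⟩
    have h := anti_tool (F := fun t => (k + 3) * (∫ u in t..b, g u ^ (k + 2)) -
        (k + 1) * g t ^ 2 * (∫ u in t..b, g u ^ k))
      (F' := fun t => -(2 * g t * (g t ^ (k + 1) - (k + 1) * (-d t) * (∫ u in t..b, g u ^ k))))
      hc.1.le ?_ ?_ ?_
    · have h2 := (D.Mpos (k + 2) hb hcI.1.le hcI.2).le
      have h3 := (D.Mpos k hb hcI.1.le hcI.2).le
      have h4 : g c ^ 2 ≤ g s ^ 2 := pow_le_pow_left₀ (D.pos c hcI).le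
        (D.anti ⟨hs.1.le, hs.2.le⟩ ⟨hcI.1.le, hcI.2.le⟩ hc.1.le) 2
      have h5 : ((k : ℝ) + 1) * g c ^ 2 * (∫ t in c..b, g t ^ k) ≤
          (k + 1) * g s ^ 2 * (∫ t in c..b, g t ^ k) := by gcongr
      have h6 : 0 ≤ ((k : ℝ) + 3) * (∫ t in c..b, g t ^ (k + 2)) := by positivity
      linarith
    · have hsub : Icc s c ⊆ Ioo 0 b := fun t ht => ⟨hs.1.trans_le ht.1, ht.2.trans_lt hc.2⟩
      apply (continuousOn_const.mul ((tail_cont hb.le (D.ii (k + 2) hb)).mono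
        (hsub.trans Ioo_subset_Icc_self))).sub
      exact (continuousOn_const.mul ((D.cont.mono hsub).pow _)).mul
        ((tail_cont hb.le (D.ii k hb)).mono (hsub.trans Ioo_subset_Icc_self))
    · intro t ht
      exact D.derG k hb ⟨hs.1.trans_le ht.1, ht.2.trans hc.2⟩
    · intro t ht
      have ht' : t ∈ Ioo 0 b := ⟨hs.1.trans_le ht.1, ht.2.trans hc.2⟩
      have h1 := D.theta k hb ht'
      have h2 := D.pos t ht'
      have : 0 ≤ 2 * g t * (g t ^ (k + 1) - (k + 1) * (-d t) * (∫ u in t..b, g u ^ k)) := by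
        have : 0 ≤ g t ^ (k + 1) - (k + 1) * (-d t) * (∫ u in t..b, g u ^ k) := by linarith
        positivity
      linarith
  have := lim_tool hs.2 hE key
  linarith

/-- `M ≤ g ^ k (b - s)` -/
theorem Dat.M_le (D : Dat b g d) (k : ℕ) (hb : 0 < b) {s : ℝ} (hs : s ∈ Ioo 0 b) :
    (∫ t in s..b, g t ^ k) ≤ g s ^ k * (b - s) := by
  have hs' : s ∈ Icc 0 b := ⟨hs.1.le, hs.2.le⟩
  have h := intervalIntegral.integral_mono_on hs.2.le (D.sub (D.ii k hb) hs')
    (intervalIntegrable_const (c := g s ^ k)) (fun t ht => pow_le_pow_left₀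
      (D.nonneg t ⟨hs.1.le.trans ht.1, ht.2⟩) (D.anti hs' ⟨hs.1.le.trans ht.1, ht.2⟩ ht.1) k)
  rw [intervalIntegral.integral_const, smul_eq_mul] at h
  linarith

/-- `S = ∫ (t - s) g ^ k` -/
theorem Dat.S_eq (D : Dat b g d) (k : ℕ) (hb : 0 < b) {s : ℝ} (hs : s ∈ Icc 0 b) :
    (∫ t in s..b, t * g t ^ k) - s * (∫ t in s..b, g t ^ k) = ∫ t in s..b, (t - s) * g t ^ k := by
  have e : (∫ t in s..b, (t - s) * g t ^ k) = ∫ t in s..b, (t * g t ^ k - s * g t ^ k) := by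
    congr 1; ext t; ring
  rw [e, intervalIntegral.integral_sub (D.sub (D.ii1 k hb) hs)
    ((D.sub (D.ii k hb) hs).const_mul s), intervalIntegral.integral_const_mul]

theorem Dat.S_nonneg (D : Dat b g d) (k : ℕ) (hb : 0 < b) {s : ℝ} (hs : s ∈ Icc 0 b) :
    0 ≤ (∫ t in s..b, t * g t ^ k) - s * (∫ t in s..b, g t ^ k) := by
  rw [D.S_eq k hb hs]
  apply intervalIntegral.integral_nonneg hs.2
  intro t ht
  exact mul_nonneg (by linarith [ht.1]) (pow_nonneg (D.nonneg t ⟨hs.1.trans ht.1, ht.2⟩) _)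

theorem Dat.ci1 (D : Dat b g d) (k : ℕ) : ContinuousOn (fun t => t * g t ^ k) (Ioo 0 b) :=
  continuousOn_id.mul (D.ci k)

theorem Dat.ci2 (D : Dat b g d) (k : ℕ) : ContinuousOn (fun t => t ^ 2 * g t ^ k) (Ioo 0 b) :=
  (continuousOn_id.pow 2).mul (D.ci k)

theorem Dat.derS (D : Dat b g d) (k : ℕ) (hb : 0 < b) {s : ℝ} (hs : s ∈ Ioo 0 b) :
    HasDerivAt (fun s => (∫ t in s..b, t * g t ^ k) - s * (∫ t in s..b, g t ^ k))
      (-(∫ t in s..b, g t ^ k)) s := by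
  have h1 := (tail_deriv (D.ii1 k hb) (D.ci1 k) hs).sub
    ((hasDerivAt_id s).mul (tail_deriv (D.ii k hb) (D.ci k) hs))
  refine h1.congr_deriv ?_
  simp only [id]
  ring

/-- the tails of the first moment tend to zero -/
theorem Dat.S_lim (D : Dat b g d) (k : ℕ) (hb : 0 < b) :
    Tendsto (fun s => (∫ t in s..b, t * g t ^ k) - s * (∫ t in s..b, g t ^ k)) (𝓝[<] b)
      (𝓝 0) := by
  have h1 := tail_lim hb (D.ii1 k hb)
  have h2 := tail_lim hb (D.ii k hb)
  have h3 : Tendsto (fun s : ℝ => s) (𝓝[<] b) (𝓝 b) := tendsto_id.mono_left nhdsWithin_le_nhds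
  have := h1.sub (h3.mul h2)
  simpa using this

theorem Q_alg (k : ℕ) {G l M P S : ℝ} (hG : 0 < G) (hM : 0 < M) (hl : 0 ≤ l)
    (hθ : (k + 1) * l * M ≤ G ^ (k + 1)) (hX0 : P ≤ G ^ 2 * M)
    (hX1 : (k + 1) * G ^ 2 * M ≤ (k + 3) * P) :
    ((k + 1) * (k + 4) * (2 * M * (-(G ^ k)) * G ^ 2 + M ^ 2 * (2 * G * (-l))) -
        4 * (k + 2) * (-M * G ^ (k + 2) + S * ((k + 2) * G ^ (k + 1) * (-l))) -
        k * (k + 3) * (-(G ^ k) * P + M * (-(G ^ (k + 2))))) * G ^ (k + 2) -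
      ((k + 1) * (k + 4) * M ^ 2 * G ^ 2 - 4 * (k + 2) * S * G ^ (k + 2) - k * (k + 3) * M * P) *
        ((k + 2) * G ^ (k + 1) * (-l)) ≤ 0 := by
  have e : ((k + 1) * (k + 4) * (2 * M * (-(G ^ k)) * G ^ 2 + M ^ 2 * (2 * G * (-l))) -
        4 * (k + 2) * (-M * G ^ (k + 2) + S * ((k + 2) * G ^ (k + 1) * (-l))) -
        k * (k + 3) * (-(G ^ k) * P + M * (-(G ^ (k + 2))))) * G ^ (k + 2) -
      ((k + 1) * (k + 4) * M ^ 2 * G ^ 2 - 4 * (k + 2) * S * G ^ (k + 2) - k * (k + 3) * M * P) *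
        ((k + 2) * G ^ (k + 1) * (-l)) =
      k * G ^ (k + 1) * (l * M * ((k + 3) * (G ^ 2 * M - P) - 2 * (G ^ 2 * M)) -
        (k + 3) * (G ^ 2 * M - P) * (G ^ (k + 1) - (k + 1) * l * M)) := by
    ring
  rw [e]
  have h1 : l * M * ((k + 3) * (G ^ 2 * M - P) - 2 * (G ^ 2 * M)) ≤ 0 := by
    apply mul_nonpos_of_nonneg_of_nonpos (by positivity)
    nlinarith
  have h2 : 0 ≤ (k + 3) * (G ^ 2 * M - P) * (G ^ (k + 1) - (k + 1) * l * M) := by
    have a1 : 0 ≤ G ^ 2 * M - P := by linarith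
    have a2 : 0 ≤ G ^ (k + 1) - (k + 1) * l * M := by linarith
    positivity
  apply mul_nonpos_of_nonneg_of_nonpos (by positivity)
  linarith

/-- (Q) -/
theorem Dat.Q (D : Dat b g d) (k : ℕ) (hb : 0 < b) {s : ℝ} (hs : s ∈ Ioo 0 b) :
    4 * ((k : ℝ) + 2) * ((∫ t in s..b, t * g t ^ k) - s * (∫ t in s..b, g t ^ k)) *
        g s ^ (k + 2) + k * (k + 3) * (∫ t in s..b, g t ^ k) * (∫ t in s..b, g t ^ (k + 2)) ≤
      (k + 1) * (k + 4) * (∫ t in s..b, g t ^ k) ^ 2 * g s ^ 2 := by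
  set M : ℝ → ℝ := fun s => ∫ t in s..b, g t ^ k with hM
  set P : ℝ → ℝ := fun s => ∫ t in s..b, g t ^ (k + 2) with hP
  set S : ℝ → ℝ := fun s => (∫ t in s..b, t * g t ^ k) - s * (∫ t in s..b, g t ^ k) with hS
  have hE : Tendsto (fun c => 4 * ((k : ℝ) + 2) * S c + k * (k + 3) * (b * M c)) (𝓝[<] b)
      (𝓝 0) := by
    have h1 := (D.S_lim k hb).const_mul (4 * ((k : ℝ) + 2))
    have h2 := ((tail_lim hb (D.ii k hb)).const_mul b).const_mul ((k : ℝ) * (k + 3))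
    have := h1.add h2
    simpa using this
  set N : ℝ → ℝ := fun t => (k + 1) * (k + 4) * M t ^ 2 * g t ^ 2 -
    4 * (k + 2) * S t * g t ^ (k + 2) - k * (k + 3) * M t * P t with hN
  set N' : ℝ → ℝ := fun t => (k + 1) * (k + 4) * (2 * M t * (-(g t ^ k)) * g t ^ 2 +
      M t ^ 2 * (2 * g t * d t)) -
        4 * (k + 2) * (-M t * g t ^ (k + 2) + S t * ((k + 2) * g t ^ (k + 1) * d t)) -
        k * (k + 3) * (-(g t ^ k) * P t + M t * (-(g t ^ (k + 2)))) with hN'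
  have dN : ∀ t ∈ Ioo 0 b, HasDerivWithinAt N (N' t) (Ici t) t := by
    intro t ht
    have dM := (tail_deriv (D.ii k hb) (D.ci k) ht).hasDerivWithinAt (s := Ici t)
    have dP := (tail_deriv (D.ii (k + 2) hb) (D.ci (k + 2)) ht).hasDerivWithinAt (s := Ici t)
    have dS := (D.derS k hb ht).hasDerivWithinAt (s := Ici t)
    have dg := D.der t ht
    have h1 := ((dM.pow 2).const_mul (((k : ℝ) + 1) * (k + 4))).mul (dg.pow 2)
    have h2 := (dS.const_mul (4 * ((k : ℝ) + 2))).mul (dg.pow (k + 2))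
    have h3 := (dM.const_mul ((k : ℝ) * (k + 3))).mul dP
    refine ((h1.sub h2).sub h3).congr_deriv ?_
    simp only [Pi.pow_apply, hN', hM, hP, hS]
    push_cast
    ring
  have key : ∀ c ∈ Ioo s b, -(4 * ((k : ℝ) + 2) * S c + k * (k + 3) * (b * M c)) ≤
      N s / g s ^ (k + 2) := by
    intro c hc
    have hcI : c ∈ Ioo 0 b := ⟨hs.1.trans hc.1, hc.2⟩
    have hsub : Icc s c ⊆ Ioo 0 b := fun t ht => ⟨hs.1.trans_le ht.1, ht.2.trans_lt hc.2⟩
    have h := anti_tool (F := fun t => N t / g t ^ (k + 2))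
      (F' := fun t => (N' t * g t ^ (k + 2) - N t * (((k + 2 : ℕ) : ℝ) * g t ^ (k + 2 - 1) * d t)) /
        (g t ^ (k + 2)) ^ 2) hc.1.le ?_ ?_ ?_
    · refine le_trans ?_ h
      have hg := D.pos c hcI
      have hm := D.Mpos k hb hcI.1.le hcI.2
      have h1 := D.P_le k hb hcI
      have h2 := D.M_le k hb hcI
      have h3 : N c / g c ^ (k + 2) = (k + 1) * (k + 4) * M c ^ 2 / g c ^ k -
          4 * (k + 2) * S c - k * (k + 3) * (M c * P c / g c ^ (k + 2)) := by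
        simp only [hN]
        field_simp
        ring
      rw [h3]
      have h4 : M c * P c / g c ^ (k + 2) ≤ b * M c := by
        rw [div_le_iff₀ (by positivity)]
        have a1 : P c ≤ g c ^ 2 * (g c ^ k * (b - c)) := h1.trans (by gcongr)
        have a2 : g c ^ 2 * (g c ^ k * (b - c)) ≤ g c ^ 2 * (g c ^ k * b) := by
          gcongr
          linarith [hcI.1]
        calc M c * P c ≤ M c * (g c ^ 2 * (g c ^ k * b)) := by
              apply mul_le_mul_of_nonneg_left (a1.trans a2) hm.le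
          _ = b * M c * g c ^ (k + 2) := by ring
      have h5 : 0 ≤ ((k : ℝ) + 1) * (k + 4) * M c ^ 2 / g c ^ k := by positivity
      have h6 : (k : ℝ) * (k + 3) * (M c * P c / g c ^ (k + 2)) ≤ k * (k + 3) * (b * M c) := by
        gcongr
      linarith
    · have c1 : ContinuousOn M (Icc s c) := (tail_cont hb.le (D.ii k hb)).mono
        (hsub.trans Ioo_subset_Icc_self)
      have c2 : ContinuousOn P (Icc s c) := (tail_cont hb.le (D.ii (k + 2) hb)).mono
        (hsub.trans Ioo_subset_Icc_self)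
      have c3 : ContinuousOn S (Icc s c) := fun t ht =>
        (D.derS k hb (hsub ht)).continuousAt.continuousWithinAt
      have c4 : ContinuousOn g (Icc s c) := D.cont.mono hsub
      apply ContinuousOn.div _ (c4.pow _) (fun t ht => (pow_pos (D.pos t (hsub ht)) _).ne')
      exact (((continuousOn_const.mul (c1.pow 2)).mul (c4.pow 2)).sub
        ((continuousOn_const.mul c3).mul (c4.pow _))).sub ((continuousOn_const.mul c1).mul c2)
    · intro t ht
      have ht' : t ∈ Ioo 0 b := hsub ⟨ht.1, ht.2.le⟩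
      exact (dN t ht').div ((D.der t ht').pow (k + 2)) (pow_pos (D.pos t ht') _).ne'
    · intro t ht
      have ht' : t ∈ Ioo 0 b := hsub ⟨ht.1, ht.2.le⟩
      apply div_nonpos_of_nonpos_of_nonneg _ (by positivity)
      have := Q_alg k (D.pos t ht') (D.Mpos k hb ht'.1.le ht'.2) (l := -d t)
        (by linarith [D.dneg t ht']) (D.theta k hb ht') (D.P_le k hb ht') (D.G k hb ht')
        (S := S t)
      rw [neg_neg] at this
      push_cast
      exact this
  have h0 := lim_tool hs.2 hE key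
  have hg := pow_pos (D.pos s hs) (k + 2)
  have h1 : 0 ≤ N s := by
    by_contra hcon
    push Not at hcon
    have := div_neg_of_neg_of_pos hcon hg
    linarith
  simp only [hN] at h1
  linarith

/-! ### strictness of the elementary inequality -/

theorem elem_lt (k : ℕ) (hk : 1 ≤ k) {h : ℝ} (h0 : 0 < h) (h1 : (k : ℝ) * h ≤ 4) :
    (1 - k * h / 4) ^ 2 * (1 + h) ^ (k + 1) < 1 + (k + 1) * h := by
  have hk0 : (0 : ℝ) < k := by exact_mod_cast hk
  replace h1 : (k : ℝ) * h / 4 ≤ 1 := by linarith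
  rcases eq_or_lt_of_le h1 with he | hlt
  · rw [he]
    have : 0 < 1 + ((k : ℝ) + 1) * h := by positivity
    simpa using this
  set φ : ℝ → ℝ := fun y => Real.log (1 + (k + 1) * y) - (k + 1) * Real.log (1 + y)
    - 2 * Real.log (1 - k * y / 4) with hφ
  have hpos : ∀ y ∈ Icc 0 h, 0 < 1 - k * y / 4 := fun y hy => by
    have : (k : ℝ) * y / 4 ≤ k * h / 4 := by
      have := mul_le_mul_of_nonneg_left hy.2 hk0.le
      linarith
    linarith
  have hder : ∀ y ∈ Icc 0 h, HasDerivAt φ ((k + 1) / (1 + (k + 1) * y) - (k + 1) * (1 / (1 + y))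
      - 2 * (-(k / 4) / (1 - k * y / 4))) y := fun y hy => by
    have p1 : 0 < 1 + ((k : ℝ) + 1) * y := by have := hy.1; positivity
    have p2 : 0 < 1 + y := by have := hy.1; positivity
    have p3 := hpos y hy
    have e1 : HasDerivAt (fun y : ℝ => 1 + ((k : ℝ) + 1) * y) ((k : ℝ) + 1) y := by
      simpa using ((hasDerivAt_id y).const_mul ((k : ℝ) + 1)).const_add 1
    have e2 : HasDerivAt (fun y : ℝ => 1 + y) 1 y := by
      simpa using (hasDerivAt_id y).const_add 1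
    have e3 : HasDerivAt (fun y : ℝ => 1 - (k : ℝ) * y / 4) (-((k : ℝ) / 4)) y := by
      have := (((hasDerivAt_id y).const_mul (k : ℝ)).div_const 4).const_sub 1
      simpa using this
    exact ((e1.log p1.ne').sub ((e2.log p2.ne').const_mul _)).sub ((e3.log p3.ne').const_mul 2)
  have hmono : StrictMonoOn φ (Icc 0 h) := by
    apply strictMonoOn_of_deriv_pos (convex_Icc 0 h)
    · intro y hy
      exact (hder y hy).continuousAt.continuousWithinAt
    · intro y hy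
      rw [interior_Icc] at hy
      have hy' : y ∈ Icc 0 h := ⟨hy.1.le, hy.2.le⟩
      rw [(hder y hy').deriv]
      have p1 : 0 < 1 + ((k : ℝ) + 1) * y := by have := hy.1; positivity
      have p2 : 0 < 1 + y := by have := hy.1; positivity
      have p3 := hpos y hy'
      have p4 : (4 - (k : ℝ) * y) ≠ 0 := by
        have : 0 < 4 - (k : ℝ) * y := by linarith
        exact this.ne'
      have e : (k + 1) / (1 + (k + 1) * y) - (k + 1) * (1 / (1 + y))
          - 2 * (-(k / 4) / (1 - k * y / 4)) =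
          (k / 2) * (1 - k * y + (k + 1) * (k + 2) / 2 * y ^ 2) /
            ((1 + (k + 1) * y) * (1 + y) * (1 - k * y / 4)) := by
        field_simp
        ring
      rw [e]
      apply div_pos _ (by positivity)
      apply mul_pos (by positivity)
      nlinarith [sq_nonneg (1 - k * y / 2), sq_nonneg y, hy.1, mul_pos hy.1 hy.1,
        mul_pos hk0 (mul_pos hy.1 hy.1), mul_pos (mul_pos hk0 hk0) (mul_pos hy.1 hy.1)]
  have hlt2 := hmono ⟨le_rfl, h0.le⟩ ⟨h0.le, le_rfl⟩ h0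
  have hφ0 : φ 0 = 0 := by simp [hφ]
  rw [hφ0] at hlt2
  simp only [hφ] at hlt2
  have p1 : 0 < 1 + ((k : ℝ) + 1) * h := by positivity
  have p2 : 0 < 1 + h := by positivity
  have p3 := hpos h ⟨h0.le, le_rfl⟩
  rw [← Real.log_lt_log_iff (by positivity) p1, Real.log_mul (by positivity) (by positivity),
    Real.log_pow, Real.log_pow]
  push_cast
  linarith

/-- strict form of the pointwise inequality -/
theorem key_lt (k : ℕ) (hk : 1 ≤ k) {G M P S : ℝ} (hG : 0 < G) (hM : 0 < M) (_hP : 0 < P)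
    (hS : 0 ≤ S) (h1 : ((k : ℝ) + 1) * G ^ 2 * M < (k + 3) * P)
    (h2 : 4 * ((k : ℝ) + 2) * S * G ^ (k + 2) + k * (k + 3) * M * P ≤
      (k + 1) * (k + 4) * M ^ 2 * G ^ 2) :
    S ^ 2 * P ^ (k + 1) < kap k * M ^ (k + 4) * ((k + 3) * P - k * G ^ 2 * M) := by
  have hk0 : (0 : ℝ) ≤ k := Nat.cast_nonneg k
  have hk1 : (0 : ℝ) < (k : ℝ) + 1 := by positivity
  have hk2 : (0 : ℝ) < (k : ℝ) + 2 := by positivity
  have hk3 : (0 : ℝ) < (k : ℝ) + 3 := by positivity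
  obtain ⟨h, hh⟩ : ∃ h : ℝ, P = (k + 1) * M * G ^ 2 * (1 + h) / (k + 3) := by
    refine ⟨(k + 3) * P / ((k + 1) * M * G ^ 2) - 1, ?_⟩
    field_simp
    ring
  obtain ⟨β, hβ⟩ : ∃ β : ℝ, S = β * (k + 1) * M ^ 2 / ((k + 2) * G ^ k) := by
    refine ⟨(k + 2) * S * G ^ k / ((k + 1) * M ^ 2), ?_⟩
    field_simp
  have hh0 : 0 < h := by
    by_contra hcon
    push Not at hcon
    have e : ((k : ℝ) + 3) * P = (k + 1) * M * G ^ 2 * (1 + h) := by rw [hh]; field_simp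
    have : 0 ≤ -h * ((k + 1) * M * G ^ 2) := by
      have : 0 ≤ -h := by linarith
      positivity
    nlinarith
  have hβ0 : 0 ≤ β := by
    have e : β = (k + 2) * S * G ^ k / ((k + 1) * M ^ 2) := by
      rw [hβ]; field_simp
    rw [e]; positivity
  have hQ : 4 * β + k * (1 + h) ≤ k + 4 := by
    have e1 : 4 * ((k : ℝ) + 2) * S * G ^ (k + 2) = 4 * β * ((k + 1) * M ^ 2 * G ^ 2) := by
      rw [hβ, pow_add]; field_simp
    have e2 : (k : ℝ) * (k + 3) * M * P = k * (1 + h) * ((k + 1) * M ^ 2 * G ^ 2) := by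
      rw [hh]; field_simp
    rw [e1, e2] at h2
    have e3 : ((k : ℝ) + 1) * (k + 4) * M ^ 2 * G ^ 2 = (k + 4) * ((k + 1) * M ^ 2 * G ^ 2) := by
      ring
    rw [e3] at h2
    have hp : 0 < ((k : ℝ) + 1) * M ^ 2 * G ^ 2 := by positivity
    nlinarith
  have hkh : (k : ℝ) * h ≤ 4 := by nlinarith
  have he := elem_lt k hk hh0 hkh
  have hb2 : β ^ 2 ≤ (1 - k * h / 4) ^ 2 := by
    apply pow_le_pow_left₀ hβ0
    nlinarith
  have hfin : β ^ 2 * (1 + h) ^ (k + 1) < 1 + (k + 1) * h :=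
    (mul_le_mul_of_nonneg_right hb2 (by positivity)).trans_lt he
  have eL : S ^ 2 * P ^ (k + 1) = kap k * M ^ (k + 5) * G ^ 2 * (β ^ 2 * (1 + h) ^ (k + 1)) := by
    rw [hβ, hh, kap]
    simp only [div_pow, mul_pow]
    field_simp
    ring
  have eR : kap k * M ^ (k + 4) * ((k + 3) * P - k * G ^ 2 * M) =
      kap k * M ^ (k + 5) * G ^ 2 * (1 + (k + 1) * h) := by
    have : ((k : ℝ) + 3) * P = (k + 1) * M * G ^ 2 * (1 + h) := by rw [hh]; field_simp
    rw [this]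
    ring
  rw [eL, eR]
  apply mul_lt_mul_of_pos_left hfin
  have : 0 < kap k := by unfold kap; positivity
  positivity

/-! ### the main function -/

/-- `Φ = κ M ^ (k + 3) / P ^ k + S² / M - R` -/
noncomputable def Phi (b : ℝ) (g : ℝ → ℝ) (k : ℕ) (s : ℝ) : ℝ :=
  kap k * ((∫ t in s..b, g t ^ k) ^ (k + 3) / (∫ t in s..b, g t ^ (k + 2)) ^ k) +
    ((∫ t in s..b, t * g t ^ k) - s * (∫ t in s..b, g t ^ k)) ^ 2 / (∫ t in s..b, g t ^ k) -
    ((∫ t in s..b, t ^ 2 * g t ^ k) - 2 * s * (∫ t in s..b, t * g t ^ k) +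
      s ^ 2 * (∫ t in s..b, g t ^ k))

theorem Dat.derPhi (D : Dat b g d) {k : ℕ} (hk : 1 ≤ k) (hb : 0 < b) {s : ℝ} (hs : s ∈ Ioo 0 b) :
    HasDerivAt (Phi b g k)
      (g s ^ k / ((∫ t in s..b, g t ^ k) ^ 2 * (∫ t in s..b, g t ^ (k + 2)) ^ (k + 1)) *
        (((∫ t in s..b, t * g t ^ k) - s * (∫ t in s..b, g t ^ k)) ^ 2 *
          (∫ t in s..b, g t ^ (k + 2)) ^ (k + 1) -
          kap k * (∫ t in s..b, g t ^ k) ^ (k + 4) * ((k + 3) * (∫ t in s..b, g t ^ (k + 2)) -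
            k * g s ^ 2 * (∫ t in s..b, g t ^ k)))) s := by
  have dM := tail_deriv (D.ii k hb) (D.ci k) hs
  have dP := tail_deriv (D.ii (k + 2) hb) (D.ci (k + 2)) hs
  have dT := tail_deriv (D.ii1 k hb) (D.ci1 k) hs
  have dU := tail_deriv (D.ii2 k hb) (D.ci2 k) hs
  have dS := D.derS k hb hs
  have hm := D.Mpos k hb hs.1.le hs.2
  have hp := D.Mpos (k + 2) hb hs.1.le hs.2
  have dR : HasDerivAt (fun s => (∫ t in s..b, t ^ 2 * g t ^ k) -
      2 * s * (∫ t in s..b, t * g t ^ k) + s ^ 2 * (∫ t in s..b, g t ^ k))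
      (-2 * ((∫ t in s..b, t * g t ^ k) - s * (∫ t in s..b, g t ^ k))) s := by
    have h1 := (dU.sub (((hasDerivAt_id s).const_mul 2).mul dT)).add
      (((hasDerivAt_id s).pow 2).mul dM)
    refine h1.congr_deriv ?_
    simp only [id, Pi.pow_apply]
    push_cast
    ring
  have a1 := ((dM.pow (k + 3)).div (dP.pow k) (pow_pos hp k).ne').const_mul (kap k)
  have a2 := (dS.pow 2).div dM hm.ne'
  have h := (a1.add a2).sub dR
  obtain ⟨j, rfl⟩ : ∃ j, k = j + 1 := ⟨k - 1, by omega⟩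
  refine h.congr_deriv ?_
  simp only [Pi.pow_apply, Nat.add_sub_cancel]
  generalize (∫ t in s..b, g t ^ (j + 1)) = M at *
  generalize (∫ t in s..b, g t ^ (j + 1 + 2)) = P at *
  generalize (∫ t in s..b, t * g t ^ (j + 1)) = T at *
  push_cast
  field_simp
  ring

theorem Dat.Phi_anti (D : Dat b g d) {k : ℕ} (hk : 1 ≤ k) (hb : 0 < b) :
    AntitoneOn (Phi b g k) (Ioo 0 b) := by
  apply antitoneOn_of_deriv_nonpos (convex_Ioo 0 b)
  · intro s hs
    exact (D.derPhi hk hb hs).continuousAt.continuousWithinAt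
  · intro s hs
    rw [interior_Ioo] at hs
    exact (D.derPhi hk hb hs).differentiableAt.differentiableWithinAt
  · intro s hs
    rw [interior_Ioo] at hs
    rw [(D.derPhi hk hb hs).deriv]
    have hm := D.Mpos k hb hs.1.le hs.2
    have hp := D.Mpos (k + 2) hb hs.1.le hs.2
    have hg := D.pos s hs
    have key := decC_key k hk hg hm hp (D.S_nonneg k hb ⟨hs.1.le, hs.2.le⟩) (D.G k hb hs)
      (D.Q k hb hs)
    apply mul_nonpos_of_nonneg_of_nonpos (by positivity)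
    linarith

theorem Dat.Phi_nonneg (D : Dat b g d) {k : ℕ} (hk : 1 ≤ k) (hb : 0 < b) {s : ℝ}
    (hs : s ∈ Ioo 0 b) : 0 ≤ Phi b g k s := by
  have h1 := tail_lim hb (D.ii k hb)
  have h2 := tail_lim hb (D.ii1 k hb)
  have h3 := tail_lim hb (D.ii2 k hb)
  have h4 : Tendsto (fun s : ℝ => s) (𝓝[<] b) (𝓝 b) := tendsto_id.mono_left nhdsWithin_le_nhds
  have hE : Tendsto (fun s => (∫ t in s..b, t ^ 2 * g t ^ k) -
      2 * s * (∫ t in s..b, t * g t ^ k) + s ^ 2 * (∫ t in s..b, g t ^ k)) (𝓝[<] b) (𝓝 0) := by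
    have := (h3.sub ((h4.const_mul 2).mul h2)).add ((h4.pow 2).mul h1)
    simpa using this
  apply lim_tool hs.2 hE
  intro c hc
  have hcI : c ∈ Ioo 0 b := ⟨hs.1.trans hc.1, hc.2⟩
  refine le_trans ?_ (D.Phi_anti hk hb hs hcI hc.1.le)
  have hm := D.Mpos k hb hcI.1.le hcI.2
  have hp := D.Mpos (k + 2) hb hcI.1.le hcI.2
  have hkap : 0 ≤ kap k := by unfold kap; positivity
  unfold Phi
  have a1 : 0 ≤ kap k * ((∫ t in c..b, g t ^ k) ^ (k + 3) / (∫ t in c..b, g t ^ (k + 2)) ^ k) := by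
    positivity
  have a2 : 0 ≤ ((∫ t in c..b, t * g t ^ k) - c * (∫ t in c..b, g t ^ k)) ^ 2 /
      (∫ t in c..b, g t ^ k) := by positivity
  linarith

theorem Dat.Phi_zero (D : Dat b g d) {k : ℕ} (hk : 1 ≤ k) (hb : 0 < b) {s : ℝ}
    (hs : s ∈ Ioo 0 b) : Phi b g k s ≤ Phi b g k 0 := by
  have hm := D.Mpos k hb le_rfl hb
  have hp := D.Mpos (k + 2) hb le_rfl hb
  have h0 : (0 : ℝ) ∈ Icc 0 b := ⟨le_rfl, hb.le⟩
  have c1 := (tail_cont hb.le (D.ii k hb)) 0 h0
  have c2 := (tail_cont hb.le (D.ii (k + 2) hb)) 0 h0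
  have c3 := (tail_cont hb.le (D.ii1 k hb)) 0 h0
  have c4 := (tail_cont hb.le (D.ii2 k hb)) 0 h0
  have hid : ContinuousWithinAt (fun s : ℝ => s) (Icc 0 b) 0 := continuousWithinAt_id
  have hc : ContinuousWithinAt (Phi b g k) (Icc 0 b) 0 := by
    have a1 := ((c1.pow (k + 3)).div (c2.pow k) (pow_pos hp k).ne').const_mul (kap k)
    have a2 := ((c3.sub (hid.mul c1)).pow 2).div c1 hm.ne'
    have a3 := (c4.sub (((continuousWithinAt_const (b := (2 : ℝ))).mul hid).mul c3)).add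
      ((hid.pow 2).mul c1)
    exact (a1.add a2).sub a3
  have ht : Tendsto (Phi b g k) (𝓝[>] 0) (𝓝 (Phi b g k 0)) := by
    apply hc.tendsto.mono_left
    rw [nhdsWithin_le_iff]
    filter_upwards [Ioo_mem_nhdsGT hb] with c hc
    exact ⟨hc.1.le, hc.2.le⟩
  apply ge_of_tendsto ht
  filter_upwards [Ioo_mem_nhdsGT hs.1] with c hc
  exact D.Phi_anti hk hb ⟨hc.1, hc.2.trans hs.2⟩ hs hc.2.le

theorem Dat.Phi_at_zero (D : Dat b g d) {k : ℕ} (hb : 0 < b) :
    Phi b g k 0 * ((∫ t in (0 : ℝ)..b, g t ^ k) * (∫ t in (0 : ℝ)..b, g t ^ (k + 2)) ^ k) =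
      kap k * (∫ t in (0 : ℝ)..b, g t ^ k) ^ (k + 4) -
      ((∫ t in (0 : ℝ)..b, g t ^ k) * (∫ t in (0 : ℝ)..b, t ^ 2 * g t ^ k) -
        (∫ t in (0 : ℝ)..b, t * g t ^ k) ^ 2) * (∫ t in (0 : ℝ)..b, g t ^ (k + 2)) ^ k := by
  have hm := D.Mpos k hb le_rfl hb
  have hp := D.Mpos (k + 2) hb le_rfl hb
  unfold Phi
  generalize (∫ t in (0 : ℝ)..b, g t ^ k) = M at *
  generalize (∫ t in (0 : ℝ)..b, g t ^ (k + 2)) = P at *
  generalize (∫ t in (0 : ℝ)..b, t * g t ^ k) = T at *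
  generalize (∫ t in (0 : ℝ)..b, t ^ 2 * g t ^ k) = U at *
  field_simp
  ring

/-- the inequality -/
theorem Dat.ineq (D : Dat b g d) {k : ℕ} (hk : 1 ≤ k) (hb : 0 < b) :
    ((∫ t in (0 : ℝ)..b, g t ^ k) * (∫ t in (0 : ℝ)..b, t ^ 2 * g t ^ k) -
        (∫ t in (0 : ℝ)..b, t * g t ^ k) ^ 2) * (∫ t in (0 : ℝ)..b, g t ^ (k + 2)) ^ k ≤
      kap k * (∫ t in (0 : ℝ)..b, g t ^ k) ^ (k + 4) := by
  have hm := D.Mpos k hb le_rfl hb
  have hp := D.Mpos (k + 2) hb le_rfl hb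
  have h1 : b / 2 ∈ Ioo 0 b := ⟨by linarith, by linarith⟩
  have h2 := (D.Phi_nonneg hk hb h1).trans (D.Phi_zero hk hb h1)
  have h3 := D.Phi_at_zero (k := k) hb
  have h4 : 0 ≤ Phi b g k 0 * ((∫ t in (0 : ℝ)..b, g t ^ k) *
      (∫ t in (0 : ℝ)..b, g t ^ (k + 2)) ^ k) := mul_nonneg h2 (by positivity)
  linarith

/-- equality: the pointwise consequence -/
theorem Dat.eqG (D : Dat b g d) {k : ℕ} (hk : 1 ≤ k) (hb : 0 < b)
    (heq : kap k * (∫ t in (0 : ℝ)..b, g t ^ k) ^ (k + 4) ≤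
      ((∫ t in (0 : ℝ)..b, g t ^ k) * (∫ t in (0 : ℝ)..b, t ^ 2 * g t ^ k) -
        (∫ t in (0 : ℝ)..b, t * g t ^ k) ^ 2) * (∫ t in (0 : ℝ)..b, g t ^ (k + 2)) ^ k)
    {s : ℝ} (hs : s ∈ Ioo 0 b) :
    (k + 3) * (∫ t in s..b, g t ^ (k + 2)) - (k + 1) * g s ^ 2 * (∫ t in s..b, g t ^ k) = 0 := by
  have hm := D.Mpos k hb le_rfl hb
  have hp := D.Mpos (k + 2) hb le_rfl hb
  have h0 : Phi b g k 0 ≤ 0 := by
    have h3 := D.Phi_at_zero (k := k) hb
    have h4 : 0 < (∫ t in (0 : ℝ)..b, g t ^ k) * (∫ t in (0 : ℝ)..b, g t ^ (k + 2)) ^ k := by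
      positivity
    by_contra hcon
    push Not at hcon
    have := mul_pos hcon h4
    linarith
  have hz : ∀ c ∈ Ioo 0 b, Phi b g k c = 0 := fun c hc =>
    le_antisymm ((D.Phi_zero hk hb hc).trans h0) (D.Phi_nonneg hk hb hc)
  have hd0 : HasDerivAt (Phi b g k) 0 s := by
    apply (hasDerivAt_const s (0 : ℝ)).congr_of_eventuallyEq
    filter_upwards [Ioo_mem_nhds hs.1 hs.2] with c hc
    exact hz c hc
  have he := (D.derPhi hk hb hs).unique hd0
  have hms := D.Mpos k hb hs.1.le hs.2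
  have hps := D.Mpos (k + 2) hb hs.1.le hs.2
  have hg := D.pos s hs
  have hcoef : 0 < g s ^ k / ((∫ t in s..b, g t ^ k) ^ 2 *
      (∫ t in s..b, g t ^ (k + 2)) ^ (k + 1)) := by positivity
  have he2 := (mul_eq_zero.1 he).resolve_left hcoef.ne'
  have hG := D.G k hb hs
  rcases hG.eq_or_lt with h | h
  · linarith
  · have := key_lt k hk hg hms hps (D.S_nonneg k hb ⟨hs.1.le, hs.2.le⟩) h (D.Q k hb hs)
    linarith

/-- functions with right derivative zero are constant -/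
theorem const_tool {F : ℝ → ℝ} {b : ℝ} (hc : ContinuousOn F (Ioo 0 b))
    (hd : ∀ t ∈ Ioo 0 b, HasDerivWithinAt F 0 (Ici t) t) {s t : ℝ} (hs : s ∈ Ioo 0 b)
    (ht : t ∈ Ioo 0 b) : F s = F t := by
  have main : ∀ s t, s ∈ Ioo 0 b → t ∈ Ioo 0 b → s ≤ t → F s = F t := by
    intro s t hs ht hst
    have hsub : Icc s t ⊆ Ioo 0 b := fun u hu => ⟨hs.1.trans_le hu.1, hu.2.trans_lt ht.2⟩
    exact (constant_of_has_deriv_right_zero (hc.mono hsub)
      (fun u hu => hd u (hsub ⟨hu.1, hu.2.le⟩)) t ⟨hst, le_rfl⟩).symm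
  rcases le_total s t with h | h
  · exact main s t hs ht h
  · exact (main t s ht hs h).symm

theorem Dat.affine (D : Dat b g d) {k : ℕ} (hb : 0 < b)
    (h : ∀ s ∈ Ioo 0 b, (k + 3) * (∫ t in s..b, g t ^ (k + 2)) -
      (k + 1) * g s ^ 2 * (∫ t in s..b, g t ^ k) = 0) :
    ∃ c : ℝ, 0 < c ∧ ∀ s ∈ Ioo 0 b, g s = c * (b - s) := by
  have hmid : b / 2 ∈ Ioo 0 b := ⟨by linarith, by linarith⟩
  -- equality in `theta`
  have hθ : ∀ t ∈ Ioo 0 b, g t ^ (k + 1) = (k + 1) * (-d t) * (∫ u in t..b, g u ^ k) := by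
    intro t ht
    have h1 := D.derG k hb ht
    have h2 : HasDerivWithinAt (fun t => (k + 3) * (∫ u in t..b, g u ^ (k + 2)) -
        (k + 1) * g t ^ 2 * (∫ u in t..b, g u ^ k)) 0 (Ici t) t := by
      apply (hasDerivWithinAt_const t (Ici t) (0 : ℝ)).congr_of_eventuallyEq
      · filter_upwards [mem_nhdsWithin_of_mem_nhds (Ioo_mem_nhds ht.1 ht.2)] with c hc
        exact h c hc
      · exact h t ht
    have h3 := (uniqueDiffWithinAt_Ici t).eq_deriv _ h1 h2
    have h4 := D.pos t ht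
    have h5 : 2 * g t * (g t ^ (k + 1) - (k + 1) * (-d t) * (∫ u in t..b, g u ^ k)) = 0 := by
      linarith
    have h6 := (mul_eq_zero.1 h5).resolve_left (by positivity)
    linarith
  -- `g ^ (k + 1) / M` is constant
  have hq : ∀ t ∈ Ioo 0 b, g t ^ (k + 1) / (∫ u in t..b, g u ^ k) =
      g (b / 2) ^ (k + 1) / (∫ u in (b / 2)..b, g u ^ k) := by
    intro t ht
    refine const_tool (F := fun t => g t ^ (k + 1) / (∫ u in t..b, g u ^ k)) ?_ ?_ ht hmid
    · intro u hu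
      have hc1 := ((D.cont u hu).pow (k + 1))
      have hc2 := (tail_deriv (D.ii k hb) (D.ci k) hu).continuousAt.continuousWithinAt
        (s := Ioo 0 b)
      exact hc1.div hc2 (D.Mpos k hb hu.1.le hu.2).ne'
    · intro u hu
      have h1 := ((D.der u hu).pow (k + 1)).div
        ((tail_deriv (D.ii k hb) (D.ci k) hu).hasDerivWithinAt (s := Ici u))
        (D.Mpos k hb hu.1.le hu.2).ne'
      refine h1.congr_deriv ?_
      have h2 := hθ u hu
      have h3 : (((k + 1 : ℕ) : ℝ) * g u ^ (k + 1 - 1) * d u * (∫ t in u..b, g t ^ k) -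
          (g ^ (k + 1)) u * -(g u ^ k)) = 0 := by
        simp only [Pi.pow_apply, Nat.add_sub_cancel]
        push_cast
        rw [h2]
        ring
      rw [h3, zero_div]
  set C : ℝ := g (b / 2) ^ (k + 1) / (∫ u in (b / 2)..b, g u ^ k) with hC
  have hCpos : 0 < C := div_pos (pow_pos (D.pos _ hmid) _) (D.Mpos k hb hmid.1.le hmid.2)
  have hgM : ∀ t ∈ Ioo 0 b, g t ^ (k + 1) = C * (∫ u in t..b, g u ^ k) := by
    intro t ht
    have h1 := hq t ht
    have h2 := D.Mpos k hb ht.1.le ht.2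
    rw [div_eq_iff h2.ne'] at h1
    exact h1
  have hd : ∀ t ∈ Ioo 0 b, d t = -(C / (k + 1)) := by
    intro t ht
    have h1 := hθ t ht
    rw [hgM t ht] at h1
    have h2 := D.Mpos k hb ht.1.le ht.2
    have h3 : C = (k + 1) * (-d t) := mul_right_cancel₀ h2.ne' h1
    rw [h3]
    have : (k : ℝ) + 1 ≠ 0 := by positivity
    field_simp
  have hlin : ∀ t ∈ Ioo 0 b, g t + C / (k + 1) * t = g (b / 2) + C / (k + 1) * (b / 2) := by
    intro t ht
    refine const_tool (F := fun t => g t + C / (k + 1) * t) ?_ ?_ ht hmid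
    · exact D.cont.add (continuousOn_const.mul continuousOn_id)
    · intro u hu
      have h1 := (D.der u hu).add (((hasDerivAt_id u).const_mul (C / (k + 1))).hasDerivWithinAt
        (s := Ici u))
      refine h1.congr_deriv ?_
      rw [hd u hu]
      ring
  set A : ℝ := g (b / 2) + C / (k + 1) * (b / 2) with hA
  have hgA : ∀ t ∈ Ioo 0 b, g t = A - C / (k + 1) * t := fun t ht => by
    have := hlin t ht
    linarith
  have hlim1 : Tendsto (fun t => g t ^ (k + 1)) (𝓝[<] b) (𝓝 0) := by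
    have h1 := (tail_lim hb (D.ii k hb)).const_mul C
    rw [mul_zero] at h1
    apply h1.congr'
    filter_upwards [Ioo_mem_nhdsLT hb] with c hc
    exact (hgM c hc).symm
  have hlim2 : Tendsto (fun t => g t ^ (k + 1)) (𝓝[<] b) (𝓝 ((A - C / (k + 1) * b) ^ (k + 1))) := by
    have h4 : Tendsto (fun s : ℝ => s) (𝓝[<] b) (𝓝 b) :=
      tendsto_id.mono_left nhdsWithin_le_nhds
    have h1 : Tendsto (fun s : ℝ => (A - C / (k + 1) * s) ^ (k + 1)) (𝓝[<] b)
        (𝓝 ((A - C / (k + 1) * b) ^ (k + 1))) := ((h4.const_mul _).const_sub _).pow _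
    apply h1.congr'
    filter_upwards [Ioo_mem_nhdsLT hb] with c hc
    rw [hgA c hc]
  have hAb : A - C / (k + 1) * b = 0 := by
    have := tendsto_nhds_unique hlim2 hlim1
    exact pow_eq_zero_iff (by omega) |>.1 this
  refine ⟨C / (k + 1), by positivity, fun s hs => ?_⟩
  rw [hgA s hs]
  linarith

/-! ### final statements -/

/-- a concave decreasing function which vanishes somewhere before `b` has zero integral -/
theorem pos_of_integral {k : ℕ} (hk : 1 ≤ k) {b : ℝ} (_hb : 0 < b) {g : ℝ → ℝ}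
    (hconc : ConcaveOn ℝ (Icc 0 b) g) (hanti : AntitoneOn g (Icc 0 b))
    (hpos : ∀ s ∈ Icc 0 b, 0 ≤ g s) (hM : (∫ t in (0 : ℝ)..b, g t ^ k) ≠ 0) :
    ∀ s ∈ Ioo 0 b, 0 < g s := by
  intro s hs
  by_contra hcon
  push Not at hcon
  apply hM
  have hsI : s ∈ Icc 0 b := ⟨hs.1.le, hs.2.le⟩
  have hbI : b ∈ Icc 0 b := ⟨(hs.1.trans hs.2).le, le_rfl⟩
  have hgs : g s = 0 := le_antisymm hcon (hpos s hsI)
  have hz : ∀ t ∈ Icc 0 b, g t = 0 := by
    intro t ht
    rcases le_or_gt s t with h | h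
    · exact le_antisymm ((hanti hsI ht h).trans hcon) (hpos t ht)
    · -- `s` is between `t` and `b`
      have hbt : 0 < b - t := by linarith [hs.2]
      have q1 : 0 ≤ (b - s) / (b - t) := div_nonneg (by linarith [hs.2]) hbt.le
      have q2 : 0 ≤ (s - t) / (b - t) := div_nonneg (by linarith) hbt.le
      have q3 : (b - s) / (b - t) + (s - t) / (b - t) = 1 := by
        field_simp
        ring
      have h1 := hconc.2 ht hbI q1 q2 q3
      have h2 : ((b - s) / (b - t)) • t + ((s - t) / (b - t)) • b = s := by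
        simp only [smul_eq_mul]
        field_simp
        ring
      rw [h2, hgs] at h1
      simp only [smul_eq_mul] at h1
      have h3 := hpos b hbI
      have h4 : 0 ≤ (s - t) / (b - t) * g b := mul_nonneg (div_nonneg (by linarith) hbt.le) h3
      have h5 : 0 < (b - s) / (b - t) := div_pos (by linarith [hs.2]) hbt
      have h6 := hpos t ht
      have h7 : (b - s) / (b - t) * g t ≤ 0 := by linarith
      by_contra hne
      have h8 : 0 < g t := lt_of_le_of_ne h6 (Ne.symm hne)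
      have := mul_pos h5 h8
      linarith
  have : (∫ t in (0 : ℝ)..b, g t ^ k) = ∫ _t in (0 : ℝ)..b, (0 : ℝ) := by
    apply intervalIntegral.integral_congr
    intro t ht
    rw [uIcc_of_le hbI.1] at ht
    simp only
    rw [hz t ht, zero_pow (by omega)]
  rw [this]
  simp

/-- [A4] -/
theorem dec_concave (k : ℕ) (hk : 1 ≤ k) {b : ℝ} (hb : 0 ≤ b) {g : ℝ → ℝ}
    (hconc : ConcaveOn ℝ (Icc 0 b) g) (hanti : AntitoneOn g (Icc 0 b))
    (hpos : ∀ s ∈ Icc 0 b, 0 ≤ g s) :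
    ((∫ t in (0 : ℝ)..b, g t ^ k) * (∫ t in (0 : ℝ)..b, t ^ 2 * g t ^ k) -
        (∫ t in (0 : ℝ)..b, t * g t ^ k) ^ 2) * (∫ t in (0 : ℝ)..b, g t ^ (k + 2)) ^ k ≤
      kap k * (∫ t in (0 : ℝ)..b, g t ^ k) ^ (k + 4) := by
  rcases hb.eq_or_lt with rfl | hb
  · simp
  by_cases hM : (∫ t in (0 : ℝ)..b, g t ^ k) = 0
  · rw [hM, zero_mul, zero_pow (by omega), mul_zero]
    have hP : 0 ≤ (∫ t in (0 : ℝ)..b, g t ^ (k + 2)) ^ k :=
      pow_nonneg (intervalIntegral.integral_nonneg hb.le fun t ht => pow_nonneg (hpos t ht) _) _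
    nlinarith [sq_nonneg (∫ t in (0 : ℝ)..b, t * g t ^ k),
      mul_nonneg (sq_nonneg (∫ t in (0 : ℝ)..b, t * g t ^ k)) hP]
  · obtain ⟨d, D⟩ := exists_dat hconc hanti hpos (pos_of_integral hk hb hconc hanti hpos hM)
    exact D.ineq hk hb

/-- [Q1a] equality case, decreasing functions -/
theorem dec_eq (k : ℕ) (hk : 1 ≤ k) {b : ℝ} (hb : 0 < b) {g : ℝ → ℝ}
    (hconc : ConcaveOn ℝ (Icc 0 b) g) (hanti : AntitoneOn g (Icc 0 b))
    (hpos : ∀ s ∈ Icc 0 b, 0 ≤ g s) (hM : 0 < ∫ t in (0 : ℝ)..b, g t ^ k)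
    (heq : kap k * (∫ t in (0 : ℝ)..b, g t ^ k) ^ (k + 4) ≤
      ((∫ t in (0 : ℝ)..b, g t ^ k) * (∫ t in (0 : ℝ)..b, t ^ 2 * g t ^ k) -
        (∫ t in (0 : ℝ)..b, t * g t ^ k) ^ 2) * (∫ t in (0 : ℝ)..b, g t ^ (k + 2)) ^ k) :
    ∃ c : ℝ, 0 < c ∧ ∀ s ∈ Ioo 0 b, g s = c * (b - s) := by
  obtain ⟨d, D⟩ := exists_dat hconc hanti hpos (pos_of_integral hk hb hconc hanti hpos hM.ne')
  exact D.affine hb fun s hs => D.eqG hk hb heq hs

end Vale.Agent.P254.Perm.DE492
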