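import Vale.Agent.P254.Defs

/-!
P254, convex bodies which are invariant under the permutations of the coordinates: definitions.
-/

open MeasureTheory Set

namespace Vale.Agent.P254.Perm

/-- The constant of the one-dimensional inequality. -/
noncomputable def kap (k : ℕ) : ℝ :=
  ((k : ℝ) + 1) ^ (k + 3) / (((k : ℝ) + 2) ^ 2 * ((k : ℝ) + 3) ^ (k + 1))

/-- Invariance under the permutations of the `n + 1` numbers `x₁, …, xₙ, -(x₁ + ⋯ + xₙ)`. -/
def Sym {n : ℕ} (K : Set (Fin n → ℝ)) : Prop :=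
  (∀ σ : Equiv.Perm (Fin n), ∀ x ∈ K, (fun i => x (σ i)) ∈ K) ∧
    ∀ i, ∀ x ∈ K, Function.update x i (-∑ j, x j) ∈ K

/-- The constant in `Bd`. -/
noncomputable def gam (n : ℕ) : ℝ :=
  (n.factorial : ℝ) ^ 2 * (n : ℝ) ^ n / (((n : ℝ) + 1) ^ (2 * n) * ((n : ℝ) + 2) ^ n)

/-- The bound for the second moment in dimension `n`. -/
def Bd (n : ℕ) : Prop :=
  ∀ K : Set (Fin n → ℝ), Convex ℝ K → IsCompact K → Sym K → ∀ i,
    (∫ x in K, x i ^ 2) ^ n ≤ gam n * (volume K).toReal ^ (n + 2)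

end Vale.Agent.P254.Perm
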