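import Vale.Agent.P254.Perm.Defs

open MeasureTheory Set

namespace Vale.Agent.P254.Perm

/-- Equality in `Bd` forces a simplex. -/
def EqBd (n : ℕ) : Prop :=
  ∀ K : Set (Fin n → ℝ), Convex ℝ K → IsCompact K → Sym K → 0 < (volume K).toReal → ∀ i,
    gam n * (volume K).toReal ^ (n + 2) ≤ (∫ x in K, x i ^ 2) ^ n → IsSimplex K

end Vale.Agent.P254.Perm
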