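import Vale.Agent.P254.Perm.Defs
import Vale.Agent.P254.Criterion
import Vale.Agent.P254.Unc.Near

/-! P254, permutation invariant bodies: the determinant of the covariance matrix. -/

open MeasureTheory Set Matrix

namespace Vale.Agent.P254.Perm

namespace D449

variable {m : ℕ}

/-- `(s, y) ↦ x` with `x_{i+1} = y_i + s/(m+1)`, `x_0 = s/(m+1) - ∑ y`. -/
noncomputable def U (p : ℝ × (Fin m → ℝ)) : Fin (m + 1) → ℝ :=
  Fin.cons (p.1 / (m + 1) - ∑ i, p.2 i) fun i => p.2 i + p.1 / (m + 1)

/-- The inverse of `U`. -/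
noncomputable def T (x : Fin (m + 1) → ℝ) : ℝ × (Fin m → ℝ) :=
  (∑ i, x i, fun i => x i.succ - (∑ j, x j) / (m + 1))

lemma sum_U (p : ℝ × (Fin m → ℝ)) : ∑ i, U p i = p.1 := by
  rw [Fin.sum_univ_succ]
  simp only [U, Fin.cons_zero, Fin.cons_succ, Finset.sum_add_distrib, Finset.sum_const,
    Finset.card_univ, Fintype.card_fin, nsmul_eq_mul]
  field_simp
  ring

lemma T_U (p : ℝ × (Fin m → ℝ)) : T (U p) = p := by
  refine Prod.ext ?_ ?_
  · exact sum_U p
  · funext i
    show U p i.succ - (∑ j, U p j) / (m + 1) = p.2 i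
    rw [sum_U]
    simp [U]

lemma U_T (x : Fin (m + 1) → ℝ) : U (T x) = x := by
  funext i
  refine Fin.cases ?_ (fun k => ?_) i
  · simp only [U, T, Fin.cons_zero, Finset.sum_sub_distrib, Finset.sum_const,
      Finset.card_univ, Fintype.card_fin, nsmul_eq_mul]
    rw [Fin.sum_univ_succ]
    field_simp
    ring
  · simp [U, T]

lemma continuous_U : Continuous (U (m := m)) := by
  refine continuous_pi fun i => ?_
  refine Fin.cases ?_ (fun k => ?_) i
  · simp only [U, Fin.cons_zero]
    fun_prop
  · simp only [U, Fin.cons_succ]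
    fun_prop

lemma continuous_T : Continuous (T (m := m)) := by
  unfold T
  fun_prop

/-- `U` as a homeomorphism. -/
noncomputable def Uh : (ℝ × (Fin m → ℝ)) ≃ₜ (Fin (m + 1) → ℝ) where
  toFun := U
  invFun := T
  left_inv := T_U
  right_inv := U_T
  continuous_toFun := continuous_U
  continuous_invFun := continuous_T

lemma mp_U : MeasurePreserving (U (m := m)) volume volume := by
  have h1 : MeasurePreserving (fun p : ℝ × (Fin m → ℝ) => (p.1, p.2 + fun _ => p.1 / (m + 1)))
      (volume.prod volume) (volume.prod volume) := by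
    refine (MeasurePreserving.id (volume : Measure ℝ)).skew_product
      (g := fun s y => y + fun _ => s / ((m : ℝ) + 1)) (by fun_prop) ?_
    refine Filter.Eventually.of_forall fun s => ?_
    exact (measurePreserving_add_right (volume : Measure (Fin m → ℝ)) _).map_eq
  have h2 : MeasurePreserving (fun p : (Fin m → ℝ) × ℝ => (p.1, p.2 - ∑ i, p.1 i))
      (volume.prod volume) (volume.prod volume) := by
    refine (MeasurePreserving.id (volume : Measure (Fin m → ℝ))).skew_product
      (g := fun z s => s - ∑ i, z i) (by fun_prop) ?_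
    refine Filter.Eventually.of_forall fun s => ?_
    exact (measurePreserving_sub_right (volume : Measure ℝ) _).map_eq
  have h3 := (volume_preserving_piFinSuccAbove (fun _ : Fin (m + 1) => ℝ) 0).symm
  have h4 : MeasurePreserving (Prod.swap : ℝ × (Fin m → ℝ) → (Fin m → ℝ) × ℝ)
      (volume.prod volume) (volume.prod volume) := Measure.measurePreserving_swap
  have h5 : MeasurePreserving (Prod.swap : (Fin m → ℝ) × ℝ → ℝ × (Fin m → ℝ))
      (volume.prod volume) (volume.prod volume) := Measure.measurePreserving_swap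
  have h := h3.comp (h5.comp (h2.comp (h4.comp h1)))
  have e : (⇑(MeasurableEquiv.piFinSuccAbove (fun _ : Fin (m + 1) => ℝ) 0).symm ∘
      Prod.swap ∘ (fun p : (Fin m → ℝ) × ℝ => (p.1, p.2 - ∑ i, p.1 i)) ∘ Prod.swap ∘
        fun p : ℝ × (Fin m → ℝ) => (p.1, p.2 + fun _ => p.1 / ((m : ℝ) + 1))) = U := by
    symm
    funext p
    funext i
    refine Fin.cases ?_ (fun k => ?_) i
    · simp only [U, Fin.cons_zero, Function.comp_apply, Prod.swap]
      show _ = (Fin.insertNth (α := fun _ => ℝ) 0
        (p.1 - ∑ i, (p.2 i + p.1 / ((m : ℝ) + 1)))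
        (fun i => p.2 i + p.1 / ((m : ℝ) + 1)) : Fin (m + 1) → ℝ) 0
      rw [Fin.insertNth_apply_same]
      simp only [Finset.sum_add_distrib, Finset.sum_const,
        Finset.card_univ, Fintype.card_fin, nsmul_eq_mul]
      field_simp
      ring
    · simp only [U, Fin.cons_succ, Function.comp_apply, Prod.swap]
      show _ = (Fin.insertNth (α := fun _ => ℝ) 0
        (p.1 - ∑ i, (p.2 i + p.1 / ((m : ℝ) + 1)))
        (fun i => p.2 i + p.1 / ((m : ℝ) + 1)) : Fin (m + 1) → ℝ) k.succ
      rw [← Fin.succAbove_zero_apply, Fin.insertNth_apply_succAbove]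
  rw [← e]
  exact h

lemma int_U (K : Set (Fin (m + 1) → ℝ)) (f : ℝ × (Fin m → ℝ) → ℝ) :
    ∫ p in U ⁻¹' K, f p = ∫ x in K, f (T x) := by
  have h := mp_U.setIntegral_preimage_emb (Uh (m := m)).measurableEmbedding (fun x => f (T x)) K
  simp only [T_U] at h
  exact h

lemma vol_U (K : Set (Fin (m + 1) → ℝ)) : volume (U ⁻¹' K) = volume K :=
  mp_U.measure_preimage_emb (Uh (m := m)).measurableEmbedding K

lemma convex_U {K : Set (Fin (m + 1) → ℝ)} (hK : Convex ℝ K) : Convex ℝ (U ⁻¹' K) := by
  intro p hp q hq a b ha hb hab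
  have e : U (a • p + b • q) = a • U p + b • U q := by
    funext i
    refine Fin.cases ?_ (fun k => ?_) i
    · simp only [U, Fin.cons_zero, Pi.add_apply, Pi.smul_apply, smul_eq_mul, Prod.fst_add,
        Prod.snd_add, Prod.smul_fst, Prod.smul_snd, Finset.sum_add_distrib, ← Finset.mul_sum]
      ring
    · simp only [U, Fin.cons_succ, Pi.add_apply, Pi.smul_apply, smul_eq_mul, Prod.fst_add,
        Prod.snd_add, Prod.smul_fst, Prod.smul_snd]
      ring
  show U (a • p + b • q) ∈ K
  rw [e]
  exact hK hp hq ha hb hab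

lemma compact_U {K : Set (Fin (m + 1) → ℝ)} (hK : IsCompact K) : IsCompact (U ⁻¹' K) :=
  (Uh (m := m)).isCompact_preimage.2 hK

lemma sym_U {K : Set (Fin (m + 1) → ℝ)}
    (hp : ∀ σ : Equiv.Perm (Fin (m + 1)), ∀ x ∈ K, (fun i => x (σ i)) ∈ K) (s : ℝ) :
    Sym {y : Fin m → ℝ | (s, y) ∈ U ⁻¹' K} := by
  constructor
  · intro σ y hy
    have h := hp (Equiv.Perm.decomposeFin.symm (0, σ)) _ hy
    show U (s, fun i => y (σ i)) ∈ K
    convert h using 1
    funext i
    refine Fin.cases ?_ (fun k => ?_) i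
    · rw [Equiv.Perm.decomposeFin_symm_apply_zero]
      simp only [U, Fin.cons_zero]
      rw [Equiv.sum_comp σ y]
    · rw [Equiv.Perm.decomposeFin_symm_apply_succ]
      simp [U]
  · intro i y hy
    have h := hp (Equiv.swap 0 i.succ) _ hy
    show U (s, Function.update y i (-∑ j, y j)) ∈ K
    convert h using 1
    funext k
    have hsum : ∑ j, Function.update y i (-∑ j, y j) j = -y i := by
      rw [Finset.sum_update_of_mem (Finset.mem_univ i)]
      have := Finset.add_sum_erase Finset.univ y (Finset.mem_univ i)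
      rw [Finset.sdiff_singleton_eq_erase]
      linarith
    refine Fin.cases ?_ (fun k => ?_) k
    · rw [Equiv.swap_apply_left]
      simp only [U, Fin.cons_zero, Fin.cons_succ]
      rw [hsum]
      ring
    · by_cases hk : k = i
      · subst hk
        rw [Equiv.swap_apply_right]
        simp only [U, Fin.cons_zero, Fin.cons_succ, Function.update_self]
        ring
      · rw [Equiv.swap_apply_of_ne_of_ne (Fin.succ_ne_zero k)
          (fun h => hk (Fin.succ_injective _ h))]
        simp only [U, Fin.cons_succ]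
        rw [Function.update_of_ne hk]

lemma int_perm {K : Set (Fin (m + 1) → ℝ)}
    (hp : ∀ σ : Equiv.Perm (Fin (m + 1)), ∀ x ∈ K, (fun i => x (σ i)) ∈ K)
    (σ : Equiv.Perm (Fin (m + 1))) (f : (Fin (m + 1) → ℝ) → ℝ) :
    ∫ x in K, f (fun i => x (σ i)) = ∫ x in K, f x := by
  have hmp := volume_measurePreserving_piCongrLeft (fun _ : Fin (m + 1) => ℝ) σ.symm
  have hfun : ∀ x : Fin (m + 1) → ℝ,
      (MeasurableEquiv.piCongrLeft (fun _ : Fin (m + 1) => ℝ) σ.symm) x = fun i => x (σ i) := by
    intro x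
    funext i
    obtain ⟨a, rfl⟩ := σ.symm.surjective i
    rw [Equiv.apply_symm_apply]
    exact Equiv.piCongrLeft_apply_apply (fun _ : Fin (m + 1) => ℝ) σ.symm x a
  have h := hmp.setIntegral_preimage_emb (MeasurableEquiv.measurableEmbedding _) f K
  have e : (MeasurableEquiv.piCongrLeft (fun _ : Fin (m + 1) => ℝ) σ.symm) ⁻¹' K = K := by
    ext x
    rw [mem_preimage, hfun]
    constructor
    · intro hx
      have := hp σ.symm _ hx
      simpa using this
    · exact hp σ x
  rw [e] at h
  simp only [hfun] at h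
  exact h

lemma centroid_perm {K : Set (Fin (m + 1) → ℝ)}
    (hp : ∀ σ : Equiv.Perm (Fin (m + 1)), ∀ x ∈ K, (fun i => x (σ i)) ∈ K)
    (σ : Equiv.Perm (Fin (m + 1))) (i : Fin (m + 1)) : centroid K (σ i) = centroid K i := by
  simp only [centroid]
  rw [int_perm hp σ (fun x => x i)]

lemma cov_perm {K : Set (Fin (m + 1) → ℝ)}
    (hp : ∀ σ : Equiv.Perm (Fin (m + 1)), ∀ x ∈ K, (fun i => x (σ i)) ∈ K)
    (σ : Equiv.Perm (Fin (m + 1))) (i j : Fin (m + 1)) :
    covMatrix K (σ i) (σ j) = covMatrix K i j := by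
  simp only [covMatrix]
  rw [centroid_perm hp, centroid_perm hp,
    int_perm hp σ (fun x => (x i - centroid K i) * (x j - centroid K j))]

/-- The determinant of `(α - β) 1 + β J`. -/
lemma det_ab (hm : 1 ≤ m) (α β : ℝ) :
    (Matrix.of fun i j : Fin (m + 1) => if i = j then α else β).det =
      (α - β) ^ m * (α + m * β) := by
  rcases eq_or_ne α β with h | h
  · subst h
    rw [sub_self, zero_pow (by omega), zero_mul]
    have h01 : (0 : Fin (m + 1)) ≠ Fin.last m := by
      intro h
      have := congrArg Fin.val h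
      simp at this
      omega
    refine det_zero_of_row_eq h01 ?_
    funext j
    simp
  · have hne : α - β ≠ 0 := sub_ne_zero.2 h
    have e : (Matrix.of fun i j : Fin (m + 1) => if i = j then α else β) =
        (α - β) • (1 + replicateCol Unit (fun _ : Fin (m + 1) => β / (α - β)) *
          replicateRow Unit (fun _ : Fin (m + 1) => (1 : ℝ))) := by
      ext i j
      simp only [of_apply, Matrix.smul_apply, Matrix.add_apply, Matrix.one_apply, Matrix.mul_apply,
        replicateCol_apply, replicateRow_apply, smul_eq_mul, mul_one, Finset.univ_unique,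
        Finset.sum_const, Finset.card_singleton, one_smul]
      split_ifs
      · field_simp
        ring
      · field_simp
        ring
    rw [e, det_smul, det_one_add_replicateCol_mul_replicateRow]
    simp only [Fintype.card_fin, dotProduct, one_mul, Finset.sum_const, Finset.card_univ,
      nsmul_eq_mul]
    rw [pow_succ]
    push_cast
    field_simp
    ring

/-- The statement of `slices`, with `Bd m` proved. -/
def SlSt (m : ℕ) : Prop := ∀ {L : Set (ℝ × (Fin m → ℝ))}, Convex ℝ L → IsCompact L →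
    (∀ s, Sym {y | (s, y) ∈ L}) → ∀ i : Fin m,
    (∫ p in L, p.2 i ^ 2) ^ m *
        ((volume L).toReal * (∫ p in L, p.1 ^ 2) - (∫ p in L, p.1) ^ 2) ≤
        gam m * kap m * (volume L).toReal ^ (m + 4)

theorem det_le_of (hm : 1 ≤ m) (hsl : SlSt m) {K : Set (Fin (m + 1) → ℝ)} (hK : IsConvexBody K)
    (hp : ∀ σ : Equiv.Perm (Fin (m + 1)), ∀ x ∈ K, (fun i => x (σ i)) ∈ K) :
    (covMatrix K).det ≤ ((m + 1).factorial : ℝ) ^ 2 /
      (((m : ℝ) + 2) ^ (m + 2) * ((m : ℝ) + 3) ^ (m + 1)) * (volume K).toReal ^ 2 := by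
  have hV : 0 < (volume K).toReal :=
    ENNReal.toReal_pos ((isOpen_interior.measure_pos volume hK.2.2).trans_le
      (measure_mono interior_subset)).ne' hK.2.1.measure_ne_top
  have hc := hK.2.1
  set V := (volume K).toReal with hVdef
  set i0 : Fin m := ⟨0, hm⟩ with hi0
  set α := covMatrix K 0 0 with hα
  set β := covMatrix K 0 i0.succ with hβ
  have hne0 : (0 : Fin (m + 1)) ≠ i0.succ := (Fin.succ_ne_zero i0).symm
  have hdiag : ∀ i, covMatrix K i i = α := by
    intro i
    have := cov_perm hp (Equiv.swap 0 i) 0 0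
    rwa [Equiv.swap_apply_left] at this
  have hoff1 : ∀ i j k, j ≠ i → k ≠ i → covMatrix K i j = covMatrix K i k := by
    intro i j k hj hk
    have := cov_perm hp (Equiv.swap k j) i k
    rwa [Equiv.swap_apply_left, Equiv.swap_apply_of_ne_of_ne hk.symm hj.symm] at this
  have hoff : ∀ i j, i ≠ j → covMatrix K i j = β := by
    intro i j hij
    by_cases h0 : i = 0
    · subst h0
      exact hoff1 0 j i0.succ hij.symm hne0.symm
    · rw [hoff1 i j 0 hij.symm (Ne.symm h0), covMatrix_symm K i 0]
      exact hoff1 0 i i0.succ h0 hne0.symm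
  have hM : covMatrix K = Matrix.of fun i j : Fin (m + 1) => if i = j then α else β := by
    ext i j
    rw [of_apply]
    split_ifs with h
    · rw [h]
      exact hdiag j
    · exact hoff i j h
  -- quadratic form
  have hquad : ∀ y : Fin (m + 1) → ℝ, ∑ i, ∑ j, y i * covMatrix K i j * y j =
      (α - β) * ∑ i, y i ^ 2 + β * (∑ i, y i) ^ 2 := by
    intro y
    have e : ∀ i j, y i * covMatrix K i j * y j =
        (if i = j then (α - β) * (y i * y j) else 0) + β * (y i * y j) := by
      intro i j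
      rw [hM, of_apply]
      split_ifs <;> ring
    simp_rw [e, Finset.sum_add_distrib, Finset.sum_ite_eq, Finset.mem_univ, if_true,
      ← Finset.mul_sum]
    congr 1
    · congr 1
      exact Finset.sum_congr rfl fun i _ => by ring
    · congr 1
      rw [sq, Finset.sum_mul]
  -- the two variances
  set c := centroid K 0 with hcdef
  have hcen : ∀ i, centroid K i = c := by
    intro i
    have := centroid_perm hp (Equiv.swap 0 i) 0
    rwa [Equiv.swap_apply_left] at this
  have hN : (0 : ℝ) < (m : ℝ) + 1 := by positivity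
  have hm0 : (0 : ℝ) < m := by exact_mod_cast hm
  set Is := ∫ x in K, (∑ i, x i) with hIs
  set Iss := ∫ x in K, (∑ i, x i) ^ 2 with hIss
  set Iy := ∫ x in K, (x i0.succ - (∑ j, x j) / (m + 1)) ^ 2 with hIy
  have hy : (α - β) * (m / (m + 1)) = V⁻¹ * Iy := by
    have h := hquad (fun i => (if i = i0.succ then 1 else 0) - 1 / ((m : ℝ) + 1))
    rw [cov_quad hc] at h
    have e1 : ∀ x : Fin (m + 1) → ℝ, ∑ i, ((if i = i0.succ then (1 : ℝ) else 0) -
        1 / ((m : ℝ) + 1)) * (x i - centroid K i) = x i0.succ - (∑ j, x j) / (m + 1) := by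
      intro x
      simp_rw [hcen, sub_mul, ite_mul, one_mul, zero_mul, Finset.sum_sub_distrib,
        Finset.sum_ite_eq', Finset.mem_univ, if_true, ← Finset.mul_sum, Finset.sum_sub_distrib,
        Finset.sum_const, Finset.card_univ, Fintype.card_fin, nsmul_eq_mul]
      push_cast
      field_simp
      ring
    simp_rw [e1] at h
    rw [← hIy] at h
    rw [h]
    have e2 : ∑ i : Fin (m + 1), ((if i = i0.succ then (1 : ℝ) else 0) - 1 / ((m : ℝ) + 1)) ^ 2 =
        (m : ℝ) / ((m : ℝ) + 1) := by
      have e3 : ∀ i : Fin (m + 1), ((if i = i0.succ then (1 : ℝ) else 0) -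
          1 / ((m : ℝ) + 1)) ^ 2 = (if i = i0.succ then 1 - 2 / ((m : ℝ) + 1) else 0) +
            1 / ((m : ℝ) + 1) ^ 2 := by
        intro i
        split_ifs
        · field_simp
          ring
        · field_simp
          ring
      simp_rw [e3, Finset.sum_add_distrib, Finset.sum_ite_eq', Finset.mem_univ, if_true,
        Finset.sum_const, Finset.card_univ, Fintype.card_fin, nsmul_eq_mul]
      push_cast
      field_simp
      ring
    have e4 : ∑ i : Fin (m + 1), ((if i = i0.succ then (1 : ℝ) else 0) - 1 / ((m : ℝ) + 1)) = 0 := by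
      rw [Finset.sum_sub_distrib, Finset.sum_ite_eq', if_pos (Finset.mem_univ _),
        Finset.sum_const, Finset.card_univ, Fintype.card_fin, nsmul_eq_mul]
      push_cast
      field_simp
      ring
    rw [e2, e4]
    ring
  have hs : ((m : ℝ) + 1) * (α + m * β) = (V * Iss - Is ^ 2) / V ^ 2 := by
    have h := hquad (fun _ => 1)
    rw [cov_quad hc] at h
    simp only [one_mul, one_pow, Finset.sum_const, Finset.card_univ, Fintype.card_fin,
      nsmul_eq_mul, mul_one] at h
    push_cast at h
    have e1 : ∀ x : Fin (m + 1) → ℝ, (∑ i, (x i - centroid K i)) ^ 2 =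
        (∑ i, x i) ^ 2 - 2 * (((m : ℝ) + 1) * c) * (∑ i, x i) + (((m : ℝ) + 1) * c) ^ 2 := by
      intro x
      simp_rw [hcen, Finset.sum_sub_distrib, Finset.sum_const, Finset.card_univ,
        Fintype.card_fin, nsmul_eq_mul]
      push_cast
      ring
    simp_rw [e1] at h
    have e2 : ∫ x in K, ((∑ i, x i) ^ 2 - 2 * (((m : ℝ) + 1) * c) * (∑ i, x i) +
        (((m : ℝ) + 1) * c) ^ 2) =
        Iss - 2 * (((m : ℝ) + 1) * c) * Is + V * (((m : ℝ) + 1) * c) ^ 2 := by
      rw [integral_add, integral_sub, integral_const_mul, setIntegral_const, smul_eq_mul,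
        Measure.real]
      · exact intOn hc (by fun_prop)
      · exact intOn hc (by fun_prop)
      · exact intOn hc (by fun_prop)
      · exact intOn hc (by fun_prop)
    have e3 : ((m : ℝ) + 1) * c = V⁻¹ * Is := by
      have : Is = ∑ i : Fin (m + 1), ∫ x in K, x i :=
        integral_finsetSum _ (fun i _ => intOn hc (by fun_prop))
      have h5 : ∀ i : Fin (m + 1), ∫ x in K, x i = V * c := by
        intro i
        rw [← hcen i, centroid]
        rw [← hVdef]
        field_simp
      simp_rw [h5, Finset.sum_const, Finset.card_univ, Fintype.card_fin, nsmul_eq_mul] at this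
      rw [this]
      push_cast
      field_simp
    rw [e2, e3, ← hVdef] at h
    have h6 : ((m : ℝ) + 1) * (α + m * β) = (α - β) * (m + 1) + β * (m + 1) ^ 2 := by ring
    rw [h6, ← h]
    field_simp
    ring
  -- the inequality of the slices
  have hsl' := hsl (L := U ⁻¹' K) (convex_U hK.1) (compact_U hc) (sym_U hp) i0
  rw [vol_U, int_U K (fun p => p.2 i0 ^ 2), int_U K (fun p => p.1 ^ 2),
    int_U K (fun p => p.1)] at hsl'
  simp only [T] at hsl'
  rw [← hVdef, ← hIs, ← hIss, ← hIy] at hsl'
  have hdet : (covMatrix K).det = (α - β) ^ m * (α + m * β) := by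
    rw [hM]
    exact det_ab hm α β
  have hαβ : α - β = V⁻¹ * Iy * ((m + 1) / m) := by
    rw [← hy]
    field_simp
  have hαmβ : α + m * β = (V * Iss - Is ^ 2) / V ^ 2 / (m + 1) := by
    rw [← hs]
    field_simp
  rw [hdet, hαβ, hαmβ]
  have e5 : (V⁻¹ * Iy * (((m : ℝ) + 1) / m)) ^ m * ((V * Iss - Is ^ 2) / V ^ 2 / (m + 1)) =
      ((m : ℝ) + 1) ^ m / (m ^ m * (m + 1) * V ^ (m + 2)) * (Iy ^ m * (V * Iss - Is ^ 2)) := by
    rw [mul_pow, mul_pow, div_pow, inv_pow, pow_add V m 2]
    field_simp
  rw [e5]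
  have hfac : (0 : ℝ) ≤ ((m : ℝ) + 1) ^ m / (m ^ m * (m + 1) * V ^ (m + 2)) := by positivity
  refine (mul_le_mul_of_nonneg_left hsl' hfac).trans (le_of_eq ?_)
  unfold gam kap
  rw [Nat.factorial_succ]
  push_cast
  have e6 : V ^ (m + 4) = V ^ (m + 2) * V ^ 2 := by rw [← pow_add]
  have e7 : ((m : ℝ) + 1) ^ (2 * m) = ((m : ℝ) + 1) ^ m * ((m : ℝ) + 1) ^ m := by
    rw [← pow_add]; congr 1; ring
  have e8 : ((m : ℝ) + 1) ^ (m + 3) = ((m : ℝ) + 1) ^ m * ((m : ℝ) + 1) ^ 3 := by rw [← pow_add]
  have e9 : ((m : ℝ) + 2) ^ (m + 2) = ((m : ℝ) + 2) ^ m * ((m : ℝ) + 2) ^ 2 := by rw [← pow_add]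
  rw [e6, e7, e8, e9]
  field_simp

end D449

end Vale.Agent.P254.Perm
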