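import Vale.Agent.P254.Perm.Defs
import Vale.Agent.P254.Criterion

/-! P254/Perm, leaf det_le: the change of variables `x ↦ (Σ x, x_{i+1} - Σ x / (m+1))` and the
covariance matrix of a permutation invariant body. -/

open MeasureTheory Set Matrix

namespace Vale.Agent.P254.Perm

section cov

variable {n : ℕ} {K : Set (Fin n → ℝ)}

/-- `K` is invariant under all permutations of the coordinates. -/
def dPermInv {n : ℕ} (K : Set (Fin n → ℝ)) : Prop :=
  ∀ σ : Equiv.Perm (Fin n), ∀ x ∈ K, (fun i => x (σ i)) ∈ K

theorem d_mp_perm (σ : Equiv.Perm (Fin n)) :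
    MeasurePreserving (fun x : Fin n → ℝ => fun i => x (σ i)) volume volume := by
  have h := volume_measurePreserving_piCongrLeft (fun _ : Fin n => ℝ) σ.symm
  have e : ⇑(MeasurableEquiv.piCongrLeft (fun _ : Fin n => ℝ) σ.symm)
      = fun x : Fin n → ℝ => fun i => x (σ i) := by
    funext x i
    have := MeasurableEquiv.piCongrLeft_apply_apply (β := fun _ : Fin n => ℝ) σ.symm x (σ i)
    simpa using this
  rwa [e] at h

theorem d_emb_perm (σ : Equiv.Perm (Fin n)) :
    MeasurableEmbedding (fun x : Fin n → ℝ => fun i => x (σ i)) := by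
  have e : ⇑(MeasurableEquiv.piCongrLeft (fun _ : Fin n => ℝ) σ.symm)
      = fun x : Fin n → ℝ => fun i => x (σ i) := by
    funext x i
    have := MeasurableEquiv.piCongrLeft_apply_apply (β := fun _ : Fin n => ℝ) σ.symm x (σ i)
    simpa using this
  rw [← e]
  exact MeasurableEquiv.measurableEmbedding _

theorem d_preimage_perm (hP : dPermInv K) (σ : Equiv.Perm (Fin n)) :
    (fun x : Fin n → ℝ => fun i => x (σ i)) ⁻¹' K = K := by
  ext x
  constructor
  · intro h
    have h2 := hP σ.symm _ h
    simpa using h2
  · intro h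
    exact hP σ x h

theorem d_int_perm (hP : dPermInv K) (σ : Equiv.Perm (Fin n)) (f : (Fin n → ℝ) → ℝ) :
    ∫ x in K, f (fun i => x (σ i)) = ∫ x in K, f x := by
  have h := (d_mp_perm σ).setIntegral_preimage_emb (d_emb_perm σ) f K
  rwa [d_preimage_perm hP σ] at h

theorem d_int_coord (hP : dPermInv K) (i j : Fin n) : ∫ x in K, x i = ∫ x in K, x j := by
  have h := d_int_perm hP (Equiv.swap i j) (fun x => x j)
  simpa using h

theorem d_centroid_eq (hP : dPermInv K) (i j : Fin n) : centroid K i = centroid K j := by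
  simp only [centroid, d_int_coord hP i j]

theorem d_cov_perm (hP : dPermInv K) (σ : Equiv.Perm (Fin n)) (i j : Fin n) :
    covMatrix K (σ i) (σ j) = covMatrix K i j := by
  have h := d_int_perm hP σ (fun x => (x i - centroid K i) * (x j - centroid K j))
  simp only [covMatrix]
  rw [← h, d_centroid_eq hP (σ i) i, d_centroid_eq hP (σ j) j]

theorem d_cov_diag (hP : dPermInv K) (i j : Fin n) : covMatrix K i i = covMatrix K j j := by
  have h := d_cov_perm hP (Equiv.swap i j) j j
  simpa using h

theorem d_cov_off (hP : dPermInv K) {i j k l : Fin n} (hij : i ≠ j) (hkl : k ≠ l) :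
    covMatrix K i j = covMatrix K k l := by
  obtain ⟨σ, h1, h2⟩ : ∃ σ : Equiv.Perm (Fin n), σ k = i ∧ σ l = j := by
    by_cases h : Equiv.swap k i l = j
    · exact ⟨Equiv.swap k i, by simp, h⟩
    · refine ⟨Equiv.swap (Equiv.swap k i l) j * Equiv.swap k i, ?_, ?_⟩
      · simp only [Equiv.Perm.coe_mul, Function.comp_apply, Equiv.swap_apply_left]
        refine Equiv.swap_apply_of_ne_of_ne ?_ hij
        intro h3
        have : Equiv.swap k i k = Equiv.swap k i l := by simpa using h3
        exact hkl ((Equiv.swap k i).injective this)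
      · simp
  rw [← h1, ← h2]
  exact d_cov_perm hP σ k l

/-- Determinant of a matrix with equal diagonal and equal off-diagonal entries. -/
theorem d_det_ab {n : ℕ} (M : Matrix (Fin (n + 1)) (Fin (n + 1)) ℝ) (a b : ℝ)
    (hd : ∀ i, M i i = a) (ho : ∀ i j, i ≠ j → M i j = b) :
    M.det = (a - b) ^ n * (a + n * b) := by
  by_cases hab : a - b = 0
  · have hM : ∀ i j, M i j = b := by
      intro i j
      by_cases h : i = j
      · subst h; rw [hd]; linarith
      · exact ho i j h
    rcases n with _ | n
    · simp [hM]; linarith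
    · have : M.det = 0 := by
        refine Matrix.det_zero_of_row_eq (i := 0) (j := 1) (by simp) ?_
        funext j
        rw [hM, hM]
      rw [this, hab]
      simp
  · have hM : M = (a - b) • (1 + replicateCol Unit (fun _ : Fin (n + 1) => b / (a - b)) *
        replicateRow Unit (fun _ : Fin (n + 1) => (1 : ℝ))) := by
      ext i j
      by_cases h : i = j
      · subst h
        rw [hd]
        simp [Matrix.mul_apply]
        field_simp
        ring
      · rw [ho i j h]
        simp [Matrix.mul_apply, Matrix.one_apply_ne h]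
        field_simp
    rw [hM, det_smul, det_one_add_replicateCol_mul_replicateRow]
    simp [dotProduct]
    field_simp
    ring

/-- Quadratic form of a matrix with equal diagonal and equal off-diagonal entries. -/
theorem d_quad_ab {n : ℕ} (M : Matrix (Fin n) (Fin n) ℝ) (a b : ℝ)
    (hd : ∀ i, M i i = a) (ho : ∀ i j, i ≠ j → M i j = b) (y : Fin n → ℝ) :
    ∑ i, ∑ j, y i * M i j * y j = (a - b) * ∑ i, y i ^ 2 + b * (∑ i, y i) ^ 2 := by
  have h : ∀ i j, y i * M i j * y j
      = (if i = j then (a - b) * y i ^ 2 else 0) + b * (y i * y j) := by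
    intro i j
    by_cases e : i = j
    · subst e; rw [hd]; simp; ring
    · rw [ho i j e]; simp [e]; ring
  simp_rw [h, Finset.sum_add_distrib]
  congr 1
  · simp [Finset.mul_sum]
  · rw [sq, Finset.sum_mul_sum, Finset.mul_sum]
    refine Finset.sum_congr rfl fun i _ => ?_
    rw [Finset.mul_sum]

end cov

section chg

variable {m : ℕ}

/-- The change of variables. -/
noncomputable def dF (m : ℕ) (x : Fin (m + 1) → ℝ) : ℝ × (Fin m → ℝ) :=
  (∑ i, x i, fun i => x i.succ - (∑ i, x i) / ((m : ℝ) + 1))

/-- Its inverse. -/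
noncomputable def dG (m : ℕ) (p : ℝ × (Fin m → ℝ)) : Fin (m + 1) → ℝ :=
  Fin.cons (p.1 / ((m : ℝ) + 1) - ∑ i, p.2 i) (fun i => p.2 i + p.1 / ((m : ℝ) + 1))

theorem dF_continuous : Continuous (dF m) := by
  unfold dF
  fun_prop

theorem dF_injective : Function.Injective (dF m) := by
  intro x y h
  have h1 : ∑ i, x i = ∑ i, y i := congrArg Prod.fst h
  have h2 : ∀ i, x (Fin.succ i) = y i.succ := by
    intro i
    have := congrFun (congrArg Prod.snd h) i
    simp only [dF] at this
    rw [h1] at this
    linarith
  funext i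
  refine Fin.cases ?_ (fun j => h2 j) i
  rw [Fin.sum_univ_succ, Fin.sum_univ_succ (f := y)] at h1
  simp only [h2] at h1
  linarith

theorem dF_dG (p : ℝ × (Fin m → ℝ)) : dF m (dG m p) = p := by
  have hm : (m : ℝ) + 1 ≠ 0 := by positivity
  have hs : ∑ i, dG m p i = p.1 := by
    rw [Fin.sum_univ_succ]
    simp only [dG, Fin.cons_zero, Fin.cons_succ, Finset.sum_add_distrib, Finset.sum_const,
      Finset.card_univ, Fintype.card_fin, nsmul_eq_mul]
    field_simp
    ring
  refine Prod.ext hs ?_
  funext i
  simp only [dF, hs]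
  simp only [dG, Fin.cons_succ]
  ring

theorem dG_dF (x : Fin (m + 1) → ℝ) : dG m (dF m x) = x := dF_injective (dF_dG _)

theorem dF_mem {K : Set (Fin (m + 1) → ℝ)} {p : ℝ × (Fin m → ℝ)} :
    p ∈ dF m '' K ↔ dG m p ∈ K := by
  constructor
  · rintro ⟨x, hx, rfl⟩
    rwa [dG_dF]
  · intro h
    exact ⟨_, h, dF_dG p⟩

theorem dF_mp : MeasurePreserving (dF m) volume volume := by
  have h0 := volume_preserving_piFinSuccAbove (fun _ : Fin (m + 1) => ℝ) 0
  have h1 : MeasurePreserving (Prod.swap : ℝ × (Fin m → ℝ) → (Fin m → ℝ) × ℝ)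
      (volume.prod volume) (volume.prod volume) := Measure.measurePreserving_swap
  have h2 : MeasurePreserving (fun q : (Fin m → ℝ) × ℝ => (id q.1, q.2 + ∑ i, q.1 i))
      (volume.prod volume) (volume.prod volume) := by
    refine MeasurePreserving.skew_product (MeasurePreserving.id volume)
      (g := fun (w : Fin m → ℝ) (t : ℝ) => t + ∑ i, w i) ?_ ?_
    · exact Measurable.add measurable_snd
        (Finset.measurable_sum _ fun i _ => (measurable_pi_apply i).comp measurable_fst)
    · exact Filter.Eventually.of_forall fun w => map_add_right_eq_self volume _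
  have h3 : MeasurePreserving (Prod.swap : (Fin m → ℝ) × ℝ → ℝ × (Fin m → ℝ))
      (volume.prod volume) (volume.prod volume) := Measure.measurePreserving_swap
  have h4 : MeasurePreserving
      (fun q : ℝ × (Fin m → ℝ) => (id q.1, q.2 + fun _ => -(q.1 / ((m : ℝ) + 1))))
      (volume.prod volume) (volume.prod volume) := by
    refine MeasurePreserving.skew_product (MeasurePreserving.id volume)
      (g := fun (s : ℝ) (w : Fin m → ℝ) => w + fun _ => -(s / ((m : ℝ) + 1))) ?_ ?_
    · refine Measurable.add measurable_snd (measurable_pi_lambda _ fun i => ?_)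
      exact (measurable_fst.div_const _).neg
    · exact Filter.Eventually.of_forall fun w => map_add_right_eq_self volume _
  have h5 := h4.comp (h3.comp (h2.comp (h1.comp h0)))
  have e : dF m = (fun q : ℝ × (Fin m → ℝ) => (id q.1, q.2 + fun _ => -(q.1 / ((m : ℝ) + 1))))
      ∘ (Prod.swap ∘ ((fun q : (Fin m → ℝ) × ℝ => (id q.1, q.2 + ∑ i, q.1 i)) ∘
        (Prod.swap ∘ (MeasurableEquiv.piFinSuccAbove (fun _ : Fin (m + 1) => ℝ) 0)))) := by
    funext x
    have hs : x 0 + ∑ i : Fin m, x i.succ = ∑ i, x i := (Fin.sum_univ_succ _).symm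
    refine Prod.ext ?_ ?_
    · simp only [dF, Function.comp_apply, MeasurableEquiv.piFinSuccAbove_apply, Fin.insertNthEquiv,
        Prod.swap, id]
      simpa [Fin.tail] using hs.symm
    · funext i
      simp only [dF, Function.comp_apply, MeasurableEquiv.piFinSuccAbove_apply, Fin.insertNthEquiv,
        Prod.swap, id]
      simp only [Pi.add_apply]
      rw [← hs]
      simp [Fin.tail]
      ring
  rw [e]
  exact h5

theorem dF_emb : MeasurableEmbedding (dF m) := dF_continuous.measurableEmbedding dF_injective

theorem dF_int (K : Set (Fin (m + 1) → ℝ)) (f : ℝ × (Fin m → ℝ) → ℝ) :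
    ∫ p in dF m '' K, f p = ∫ x in K, f (dF m x) := by
  have h := dF_mp.setIntegral_preimage_emb dF_emb f (dF m '' K)
  rw [dF_injective.preimage_image] at h
  exact h.symm

theorem dF_vol (K : Set (Fin (m + 1) → ℝ)) : volume (dF m '' K) = volume K := by
  have h := dF_mp.measure_preimage_emb dF_emb (dF m '' K)
  rw [dF_injective.preimage_image] at h
  exact h.symm

theorem d_sum_update (y : Fin m → ℝ) (i : Fin m) (c : ℝ) :
    ∑ j, Function.update y i c j = c + (∑ j, y j) - y i := by
  rw [Finset.sum_update_of_mem (Finset.mem_univ i)]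
  have h := Finset.add_sum_erase Finset.univ y (Finset.mem_univ i)
  rw [Finset.sdiff_singleton_eq_erase]
  linarith

theorem dF_sym {K : Set (Fin (m + 1) → ℝ)} (hP : dPermInv K) (s : ℝ) :
    Sym {y | (s, y) ∈ dF m '' K} := by
  constructor
  · intro σ y hy
    have h := hP (Equiv.Perm.decomposeFin.symm (0, σ)) _ (dF_mem.1 hy)
    refine dF_mem.2 ?_
    convert h using 1
    funext k
    refine Fin.cases ?_ (fun j => ?_) k
    · have e : ∑ i, y (σ i) = ∑ i, y i := Equiv.sum_comp σ y
      simp [dG, e]
    · simp [dG]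
  · intro i y hy
    have h := hP (Equiv.swap 0 i.succ) _ (dF_mem.1 hy)
    refine dF_mem.2 ?_
    convert h using 1
    funext k
    refine Fin.cases ?_ (fun j => ?_) k
    · rw [Equiv.swap_apply_left]
      simp only [dG, Fin.cons_zero, Fin.cons_succ, d_sum_update]
      ring
    · by_cases hj : j = i
      · subst hj
        rw [Equiv.swap_apply_right]
        simp only [dG, Fin.cons_zero, Fin.cons_succ, Function.update_self]
        ring
      · rw [Equiv.swap_apply_of_ne_of_ne (Fin.succ_ne_zero j)
          (fun h => hj (Fin.succ_injective _ h))]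
        simp only [dG, Fin.cons_succ]
        rw [Function.update_of_ne hj]

theorem dF_convex {K : Set (Fin (m + 1) → ℝ)} (hK : Convex ℝ K) : Convex ℝ (dF m '' K) := by
  have : IsLinearMap ℝ (dF m) := by
    constructor
    · intro x y
      refine Prod.ext ?_ ?_
      · simp [dF, Finset.sum_add_distrib]
      · funext i
        simp [dF, Finset.sum_add_distrib]
        ring
    · intro c x
      refine Prod.ext ?_ ?_
      · simp [dF, Finset.mul_sum]
      · funext i
        simp [dF, ← Finset.mul_sum]
        ring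
  exact hK.is_linear_image this

theorem dF_compact {K : Set (Fin (m + 1) → ℝ)} (hK : IsCompact K) : IsCompact (dF m '' K) :=
  hK.image dF_continuous

end chg

end Vale.Agent.P254.Perm
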