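import Vale.Agent.P254.Perm.DetB

/-! P254/Perm, leaf det_eq, from the slice statement. -/

open MeasureTheory Set Matrix

namespace Vale.Agent.P254.Perm

/-- `dG` as a linear map. -/
noncomputable def dGl (m : ℕ) : ℝ × (Fin m → ℝ) →ₗ[ℝ] (Fin (m + 1) → ℝ) where
  toFun := dG m
  map_add' p q := by
    funext k
    refine Fin.cases ?_ (fun j => ?_) k
    · simp [dG, Finset.sum_add_distrib]
      ring
    · simp [dG]
      ring
  map_smul' c p := by
    funext k
    refine Fin.cases ?_ (fun j => ?_) k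
    · simp [dG, ← Finset.mul_sum]
      ring
    · simp [dG]
      ring

/-- The identity behind `det_le_of`. -/
theorem det_id (m : ℕ) (hm : 1 ≤ m) {K : Set (Fin (m + 1) → ℝ)} (hK : IsConvexBody K)
    (hp : ∀ σ : Equiv.Perm (Fin (m + 1)), ∀ x ∈ K, (fun i => x (σ i)) ∈ K) (i0 : Fin m) :
    (∫ p in dF m '' K, p.2 i0 ^ 2) ^ m *
        ((volume (dF m '' K)).toReal * (∫ p in dF m '' K, p.1 ^ 2)
          - (∫ p in dF m '' K, p.1) ^ 2) =
      (volume K).toReal ^ (m + 2) * ((covMatrix K).det *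
        ((m : ℝ) ^ m / ((m : ℝ) + 1) ^ m * ((m : ℝ) + 1))) := by
  obtain ⟨hconv, hcomp, hint⟩ := hK
  have hP : dPermInv K := hp
  have h0 : (0 : ℝ) < m := by exact_mod_cast hm
  have hV : 0 < (volume K).toReal := by
    refine ENNReal.toReal_pos ?_ hcomp.measure_ne_top
    have : 0 < volume (interior K) := isOpen_interior.measure_pos _ hint
    exact (this.trans_le (measure_mono interior_subset)).ne'
  set V := (volume K).toReal with hVdef
  rw [dF_vol, dF_int, dF_int, dF_int]
  rw [← hVdef]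
  -- entries
  set a := covMatrix K 0 0 with ha
  set b := covMatrix K 0 i0.succ with hb
  have hd : ∀ i, covMatrix K i i = a := fun i => d_cov_diag hP i 0
  have ho : ∀ i j, i ≠ j → covMatrix K i j = b := fun i j hij =>
    d_cov_off hP hij (Fin.succ_ne_zero i0).symm
  have hdet := d_det_ab (covMatrix K) a b hd ho
  -- the sum
  have hq1 := cov_quad hcomp (fun _ => (1 : ℝ))
  rw [d_quad_ab _ a b hd ho, ← hVdef] at hq1
  simp only [one_pow, one_mul, Finset.sum_const, Finset.card_univ, Fintype.card_fin,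
    nsmul_eq_mul, mul_one] at hq1
  set c := centroid K 0 with hc
  have hce : ∀ i, centroid K i = c := fun i => d_centroid_eq hP i 0
  have hsum : ∀ x : Fin (m + 1) → ℝ, ∑ i, (x i - centroid K i)
      = (∑ i, x i) - ((m : ℝ) + 1) * c := by
    intro x
    rw [Finset.sum_sub_distrib]
    simp [hce]
  have hcen : ∀ i, ∫ x in K, x i = V * c := by
    intro i
    rw [← hce i]
    simp only [centroid]
    rw [← hVdef]
    field_simp
  have hSint : ∫ x in K, ∑ i, x i = ((m : ℝ) + 1) * (V * c) := by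
    rw [integral_finsetSum _ (fun i _ => intOn hcomp (by fun_prop))]
    simp [hcen]
  have hA : ∫ x in K, (∑ i, (x i - centroid K i)) ^ 2
      = (∫ x in K, (∑ i, x i) ^ 2) - 2 * (((m : ℝ) + 1) * c) * (((m : ℝ) + 1) * (V * c))
        + V * (((m : ℝ) + 1) * c) ^ 2 := by
    have e : ∀ x : Fin (m + 1) → ℝ, (∑ i, (x i - centroid K i)) ^ 2
        = (∑ i, x i) ^ 2 - 2 * (((m : ℝ) + 1) * c) * (∑ i, x i) + (((m : ℝ) + 1) * c) ^ 2 := by
      intro x
      rw [hsum]; ring
    simp_rw [e]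
    rw [integral_add (intOn hcomp (by fun_prop)) (intOn hcomp (by fun_prop)),
      integral_sub (intOn hcomp (by fun_prop)) (intOn hcomp (by fun_prop)),
      integral_const_mul, setIntegral_const, hSint, smul_eq_mul, Measure.real]
  have hA2 : V * (∫ x in K, (∑ i, x i) ^ 2) - (∫ x in K, ∑ i, x i) ^ 2
      = V ^ 2 * (((m : ℝ) + 1) * (a + m * b)) := by
    have h1 : ∫ x in K, (∑ i, (x i - centroid K i)) ^ 2
        = V * (((m : ℝ) + 1) * (a + m * b)) := by
      have : V⁻¹ * ∫ x in K, (∑ i, (x i - centroid K i)) ^ 2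
          = ((m : ℝ) + 1) * (a + m * b) := by
        rw [← hq1]; push_cast; ring
      rw [← this]
      field_simp
    rw [hA] at h1
    rw [hSint]
    linear_combination V * h1
  -- the other second moment
  have hq2 := cov_quad hcomp (fun k => (if k = i0.succ then (1 : ℝ) else 0) - 1 / ((m : ℝ) + 1))
  rw [d_quad_ab _ a b hd ho, ← hVdef] at hq2
  have hs1 : ∑ k : Fin (m + 1), ((if k = i0.succ then (1 : ℝ) else 0) - 1 / ((m : ℝ) + 1)) = 0 := by
    rw [Finset.sum_sub_distrib]
    simp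
    field_simp
    simp
  have hs2 : ∑ k : Fin (m + 1), ((if k = i0.succ then (1 : ℝ) else 0) - 1 / ((m : ℝ) + 1)) ^ 2
      = m / ((m : ℝ) + 1) := by
    have e : ∀ k : Fin (m + 1), ((if k = i0.succ then (1 : ℝ) else 0) - 1 / ((m : ℝ) + 1)) ^ 2
        = (if k = i0.succ then (1 : ℝ) else 0) * (1 - 2 / ((m : ℝ) + 1))
          + 1 / ((m : ℝ) + 1) ^ 2 := by
      intro k
      have hm1' : ((m : ℝ) + 1) ≠ 0 := by positivity
      by_cases hk : k = i0.succ
      · rw [if_pos hk]
        field_simp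
        ring
      · rw [if_neg hk]
        field_simp
        ring
    simp_rw [e]
    have hm1' : ((m : ℝ) + 1) ≠ 0 := by positivity
    rw [Finset.sum_add_distrib, ← Finset.sum_mul, Finset.sum_ite_eq' Finset.univ i0.succ,
      if_pos (Finset.mem_univ _), Finset.sum_const, Finset.card_univ, Fintype.card_fin,
      nsmul_eq_mul]
    push_cast
    field_simp
    ring
  rw [hs1, hs2] at hq2
  have hB : ∀ x : Fin (m + 1) → ℝ,
      ∑ k, ((if k = i0.succ then (1 : ℝ) else 0) - 1 / ((m : ℝ) + 1)) * (x k - centroid K k)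
        = (dF m x).2 i0 := by
    intro x
    simp_rw [sub_mul]
    rw [Finset.sum_sub_distrib, ← Finset.mul_sum, hsum]
    simp only [ite_mul, one_mul, zero_mul, Finset.sum_ite_eq', Finset.mem_univ, if_true, hce, dF]
    field_simp
    ring
  simp_rw [hB] at hq2
  have hQ : ∫ x in K, (dF m x).2 i0 ^ 2 = V * ((a - b) * (m / ((m : ℝ) + 1))) := by
    have : V⁻¹ * ∫ x in K, (dF m x).2 i0 ^ 2 = (a - b) * (m / ((m : ℝ) + 1)) := by
      rw [← hq2]; ring
    rw [← this]
    field_simp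
  have hX : ∀ X Y : ℝ, X = V * ((a - b) * (m / ((m : ℝ) + 1))) →
      Y = V ^ 2 * (((m : ℝ) + 1) * (a + m * b)) →
      X ^ m * Y = V ^ (m + 2) * (((a - b) ^ m * (a + m * b)) *
        ((m : ℝ) ^ m / ((m : ℝ) + 1) ^ m * ((m : ℝ) + 1))) := by
    rintro X Y rfl rfl
    rw [mul_pow, mul_pow, div_pow, pow_add]
    ring
  rw [hdet]
  exact hX _ _ hQ hA2

/-- `det_eq` from the slice statement for `dF m '' K`. -/
theorem det_eq_of (m : ℕ) (hm : 1 ≤ m) {K : Set (Fin (m + 1) → ℝ)} (hK : IsConvexBody K)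
    (hp : ∀ σ : Equiv.Perm (Fin (m + 1)), ∀ x ∈ K, (fun i => x (σ i)) ∈ K)
    (hS : 0 < (volume (dF m '' K)).toReal → ∀ i : Fin m,
      gam m * kap m * (volume (dF m '' K)).toReal ^ (m + 4) ≤
        (∫ p in dF m '' K, p.2 i ^ 2) ^ m *
        ((volume (dF m '' K)).toReal * (∫ p in dF m '' K, p.1 ^ 2)
          - (∫ p in dF m '' K, p.1) ^ 2) →
      ∃ v : Fin (m + 2) → ℝ × (Fin m → ℝ), AffineIndependent ℝ v ∧
        dF m '' K = convexHull ℝ (range v))
    (heq : ((m + 1).factorial : ℝ) ^ 2 /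
      (((m : ℝ) + 2) ^ (m + 2) * ((m : ℝ) + 3) ^ (m + 1)) * (volume K).toReal ^ 2 ≤
      (covMatrix K).det) : IsSimplex K := by
  have h0 : (0 : ℝ) < m := by exact_mod_cast hm
  have hV : 0 < (volume K).toReal := by
    refine ENNReal.toReal_pos ?_ hK.2.1.measure_ne_top
    have : 0 < volume (interior K) := isOpen_interior.measure_pos _ hK.2.2
    exact (this.trans_le (measure_mono interior_subset)).ne'
  have hid := det_id m hm hK hp ⟨0, hm⟩
  have hk : 0 < (m : ℝ) ^ m / ((m : ℝ) + 1) ^ m * ((m : ℝ) + 1) := by positivity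
  obtain ⟨v, hv, hL⟩ := hS (by rw [dF_vol]; exact hV) ⟨0, hm⟩ (by
    rw [hid, dF_vol, ← d_const m hm] at *
    have p1 : ((m : ℝ) + 1) ^ m ≠ 0 := by positivity
    have p4 : (m : ℝ) ^ m ≠ 0 := by positivity
    have p5 : (m : ℝ) + 1 ≠ 0 := by positivity
    have e2 : gam m * kap m * (volume K).toReal ^ (m + 4) = (volume K).toReal ^ (m + 2) *
        ((gam m * kap m * (((m : ℝ) + 1) ^ m / (((m : ℝ) + 1) * (m : ℝ) ^ m)) *
          (volume K).toReal ^ 2) * ((m : ℝ) ^ m / ((m : ℝ) + 1) ^ m * ((m : ℝ) + 1))) := by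
      rw [show m + 4 = (m + 2) + 2 by ring, pow_add]
      field_simp
    rw [e2]
    exact mul_le_mul_of_nonneg_left (mul_le_mul_of_nonneg_right heq hk.le) (by positivity))
  refine ⟨dG m ∘ v, ?_, ?_⟩
  · exact hv.map' (dGl m).toAffineMap (fun p q h => by
      have h' : dG m p = dG m q := h
      rw [← dF_dG p, h', dF_dG])
  · have h1 : K = (dGl m) '' (dF m '' K) := by
      ext x
      constructor
      · intro hx
        exact ⟨_, ⟨x, hx, rfl⟩, dG_dF x⟩
      · rintro ⟨_, ⟨y, hy, rfl⟩, rfl⟩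
        have : dGl m (dF m y) = y := dG_dF y
        rwa [this]
    rw [h1, hL, LinearMap.image_convexHull, ← range_comp]
    rfl

end Vale.Agent.P254.Perm
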