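import Vale.Agent.P254.Perm.Det449
import Vale.Agent.P254.Perm.Defs2

/-! P254, permutation invariant bodies: equality of the determinant forces a simplex. -/

open MeasureTheory Set Matrix

namespace Vale.Agent.P254.Perm

namespace D461

open D449

variable {m : ℕ}

/-- The determinant in terms of the two variances. -/
theorem det_formula (hm : 1 ≤ m) {K : Set (Fin (m + 1) → ℝ)} (hK : IsConvexBody K)
    (hp : ∀ σ : Equiv.Perm (Fin (m + 1)), ∀ x ∈ K, (fun i => x (σ i)) ∈ K) :
    (covMatrix K).det = ((m : ℝ) + 1) ^ m / (m ^ m * (m + 1) * (volume K).toReal ^ (m + 2)) *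
      ((∫ x in K, (x (⟨0, hm⟩ : Fin m).succ - (∑ j, x j) / (m + 1)) ^ 2) ^ m *
        ((volume K).toReal * (∫ x in K, (∑ i, x i) ^ 2) - (∫ x in K, (∑ i, x i)) ^ 2)) := by
  have hV : 0 < (volume K).toReal :=
    ENNReal.toReal_pos ((isOpen_interior.measure_pos volume hK.2.2).trans_le
      (measure_mono interior_subset)).ne' hK.2.1.measure_ne_top
  have hc := hK.2.1
  set V := (volume K).toReal with hVdef
  set i0 : Fin m := ⟨0, hm⟩ with hi0
  set α := covMatrix K 0 0 with hα
  set β := covMatrix K 0 i0.succ with hβ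
  have hne0 : (0 : Fin (m + 1)) ≠ i0.succ := (Fin.succ_ne_zero i0).symm
  have hdiag : ∀ i, covMatrix K i i = α := by
    intro i
    have := cov_perm hp (Equiv.swap 0 i) 0 0
    rwa [Equiv.swap_apply_left] at this
  have hoff1 : ∀ i j k, j ≠ i → k ≠ i → covMatrix K i j = covMatrix K i k := by
    intro i j k hj hk
    have := cov_perm hp (Equiv.swap k j) i k
    rwa [Equiv.swap_apply_left, Equiv.swap_apply_of_ne_of_ne hk.symm hj.symm] at this
  have hoff : ∀ i j, i ≠ j → covMatrix K i j = β := by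
    intro i j hij
    by_cases h0 : i = 0
    · subst h0
      exact hoff1 0 j i0.succ hij.symm hne0.symm
    · rw [hoff1 i j 0 hij.symm (Ne.symm h0), covMatrix_symm K i 0]
      exact hoff1 0 i i0.succ h0 hne0.symm
  have hM : covMatrix K = Matrix.of fun i j : Fin (m + 1) => if i = j then α else β := by
    ext i j
    rw [of_apply]
    split_ifs with h
    · rw [h]
      exact hdiag j
    · exact hoff i j h
  -- quadratic form
  have hquad : ∀ y : Fin (m + 1) → ℝ, ∑ i, ∑ j, y i * covMatrix K i j * y j =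
      (α - β) * ∑ i, y i ^ 2 + β * (∑ i, y i) ^ 2 := by
    intro y
    have e : ∀ i j, y i * covMatrix K i j * y j =
        (if i = j then (α - β) * (y i * y j) else 0) + β * (y i * y j) := by
      intro i j
      rw [hM, of_apply]
      split_ifs <;> ring
    simp_rw [e, Finset.sum_add_distrib, Finset.sum_ite_eq, Finset.mem_univ, if_true,
      ← Finset.mul_sum]
    congr 1
    · congr 1
      exact Finset.sum_congr rfl fun i _ => by ring
    · congr 1
      rw [sq, Finset.sum_mul]
  -- the two variances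
  set c := centroid K 0 with hcdef
  have hcen : ∀ i, centroid K i = c := by
    intro i
    have := centroid_perm hp (Equiv.swap 0 i) 0
    rwa [Equiv.swap_apply_left] at this
  have hN : (0 : ℝ) < (m : ℝ) + 1 := by positivity
  have hm0 : (0 : ℝ) < m := by exact_mod_cast hm
  set Is := ∫ x in K, (∑ i, x i) with hIs
  set Iss := ∫ x in K, (∑ i, x i) ^ 2 with hIss
  set Iy := ∫ x in K, (x i0.succ - (∑ j, x j) / (m + 1)) ^ 2 with hIy
  have hy : (α - β) * (m / (m + 1)) = V⁻¹ * Iy := by
    have h := hquad (fun i => (if i = i0.succ then 1 else 0) - 1 / ((m : ℝ) + 1))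
    rw [cov_quad hc] at h
    have e1 : ∀ x : Fin (m + 1) → ℝ, ∑ i, ((if i = i0.succ then (1 : ℝ) else 0) -
        1 / ((m : ℝ) + 1)) * (x i - centroid K i) = x i0.succ - (∑ j, x j) / (m + 1) := by
      intro x
      simp_rw [hcen, sub_mul, ite_mul, one_mul, zero_mul, Finset.sum_sub_distrib,
        Finset.sum_ite_eq', Finset.mem_univ, if_true, ← Finset.mul_sum, Finset.sum_sub_distrib,
        Finset.sum_const, Finset.card_univ, Fintype.card_fin, nsmul_eq_mul]
      push_cast
      field_simp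
      ring
    simp_rw [e1] at h
    rw [← hIy] at h
    rw [h]
    have e2 : ∑ i : Fin (m + 1), ((if i = i0.succ then (1 : ℝ) else 0) - 1 / ((m : ℝ) + 1)) ^ 2 =
        (m : ℝ) / ((m : ℝ) + 1) := by
      have e3 : ∀ i : Fin (m + 1), ((if i = i0.succ then (1 : ℝ) else 0) -
          1 / ((m : ℝ) + 1)) ^ 2 = (if i = i0.succ then 1 - 2 / ((m : ℝ) + 1) else 0) +
            1 / ((m : ℝ) + 1) ^ 2 := by
        intro i
        split_ifs
        · field_simp
          ring
        · field_simp
          ring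
      simp_rw [e3, Finset.sum_add_distrib, Finset.sum_ite_eq', Finset.mem_univ, if_true,
        Finset.sum_const, Finset.card_univ, Fintype.card_fin, nsmul_eq_mul]
      push_cast
      field_simp
      ring
    have e4 : ∑ i : Fin (m + 1), ((if i = i0.succ then (1 : ℝ) else 0) - 1 / ((m : ℝ) + 1)) = 0 := by
      rw [Finset.sum_sub_distrib, Finset.sum_ite_eq', if_pos (Finset.mem_univ _),
        Finset.sum_const, Finset.card_univ, Fintype.card_fin, nsmul_eq_mul]
      push_cast
      field_simp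
      ring
    rw [e2, e4]
    ring
  have hs : ((m : ℝ) + 1) * (α + m * β) = (V * Iss - Is ^ 2) / V ^ 2 := by
    have h := hquad (fun _ => 1)
    rw [cov_quad hc] at h
    simp only [one_mul, one_pow, Finset.sum_const, Finset.card_univ, Fintype.card_fin,
      nsmul_eq_mul, mul_one] at h
    push_cast at h
    have e1 : ∀ x : Fin (m + 1) → ℝ, (∑ i, (x i - centroid K i)) ^ 2 =
        (∑ i, x i) ^ 2 - 2 * (((m : ℝ) + 1) * c) * (∑ i, x i) + (((m : ℝ) + 1) * c) ^ 2 := by
      intro x
      simp_rw [hcen, Finset.sum_sub_distrib, Finset.sum_const, Finset.card_univ,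
        Fintype.card_fin, nsmul_eq_mul]
      push_cast
      ring
    simp_rw [e1] at h
    have e2 : ∫ x in K, ((∑ i, x i) ^ 2 - 2 * (((m : ℝ) + 1) * c) * (∑ i, x i) +
        (((m : ℝ) + 1) * c) ^ 2) =
        Iss - 2 * (((m : ℝ) + 1) * c) * Is + V * (((m : ℝ) + 1) * c) ^ 2 := by
      rw [integral_add, integral_sub, integral_const_mul, setIntegral_const, smul_eq_mul,
        Measure.real]
      · exact intOn hc (by fun_prop)
      · exact intOn hc (by fun_prop)
      · exact intOn hc (by fun_prop)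
      · exact intOn hc (by fun_prop)
    have e3 : ((m : ℝ) + 1) * c = V⁻¹ * Is := by
      have : Is = ∑ i : Fin (m + 1), ∫ x in K, x i :=
        integral_finsetSum _ (fun i _ => intOn hc (by fun_prop))
      have h5 : ∀ i : Fin (m + 1), ∫ x in K, x i = V * c := by
        intro i
        rw [← hcen i, centroid]
        rw [← hVdef]
        field_simp
      simp_rw [h5, Finset.sum_const, Finset.card_univ, Fintype.card_fin, nsmul_eq_mul] at this
      rw [this]
      push_cast
      field_simp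
    rw [e2, e3, ← hVdef] at h
    have h6 : ((m : ℝ) + 1) * (α + m * β) = (α - β) * (m + 1) + β * (m + 1) ^ 2 := by ring
    rw [h6, ← h]
    field_simp
    ring
  have hdet : (covMatrix K).det = (α - β) ^ m * (α + m * β) := by
    rw [hM]
    exact det_ab hm α β
  have hαβ : α - β = V⁻¹ * Iy * ((m + 1) / m) := by
    rw [← hy]
    field_simp
  have hαmβ : α + m * β = (V * Iss - Is ^ 2) / V ^ 2 / (m + 1) := by
    rw [← hs]
    field_simp
  rw [hdet, hαβ, hαmβ]
  have e5 : (V⁻¹ * Iy * (((m : ℝ) + 1) / m)) ^ m * ((V * Iss - Is ^ 2) / V ^ 2 / (m + 1)) =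
      ((m : ℝ) + 1) ^ m / (m ^ m * (m + 1) * V ^ (m + 2)) * (Iy ^ m * (V * Iss - Is ^ 2)) := by
    rw [mul_pow, mul_pow, div_pow, inv_pow, pow_add V m 2]
    field_simp
  exact e5

/-- The statement of `slices_simplex`, with `Bd m` and `EqBd m` proved. -/
def SimSt (m : ℕ) : Prop := ∀ {L : Set (ℝ × (Fin m → ℝ))}, Convex ℝ L → IsCompact L →
    (∀ s, Sym {y | (s, y) ∈ L}) → 0 < (volume L).toReal → ∀ i : Fin m,
    gam m * kap m * (volume L).toReal ^ (m + 4) ≤ (∫ p in L, p.2 i ^ 2) ^ m *
        ((volume L).toReal * (∫ p in L, p.1 ^ 2) - (∫ p in L, p.1) ^ 2) →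
    ∃ v : Fin (m + 2) → ℝ × (Fin m → ℝ), AffineIndependent ℝ v ∧ L = convexHull ℝ (range v)

/-- `U` as a linear map. -/
noncomputable def Ul : (ℝ × (Fin m → ℝ)) →ₗ[ℝ] (Fin (m + 1) → ℝ) where
  toFun := U
  map_add' p q := by
    funext i
    refine Fin.cases ?_ (fun k => ?_) i
    · simp only [U, Fin.cons_zero, Pi.add_apply, Prod.fst_add,
        Prod.snd_add, Finset.sum_add_distrib]
      ring
    · simp only [U, Fin.cons_succ, Pi.add_apply, Prod.fst_add,
        Prod.snd_add]
      ring
  map_smul' a p := by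
    funext i
    refine Fin.cases ?_ (fun k => ?_) i
    · simp only [U, Fin.cons_zero, Pi.smul_apply, smul_eq_mul,
        Prod.smul_fst, Prod.smul_snd, ← Finset.mul_sum, RingHom.id_apply]
      ring
    · simp only [U, Fin.cons_succ, Pi.smul_apply, smul_eq_mul,
        Prod.smul_fst, Prod.smul_snd, RingHom.id_apply]
      ring

lemma Ul_inj : Function.Injective (Ul (m := m)) := (Uh (m := m)).injective

/-- A simplex upstairs gives a simplex downstairs. -/
lemma simplex_of {K : Set (Fin (m + 1) → ℝ)} {v : Fin (m + 2) → ℝ × (Fin m → ℝ)}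
    (hv : AffineIndependent ℝ v) (hL : U ⁻¹' K = convexHull ℝ (range v)) : IsSimplex K := by
  refine ⟨fun i => Ul (v i), ?_, ?_⟩
  · exact hv.map' Ul.toAffineMap Ul_inj
  · have e : K = Ul '' (U ⁻¹' K) := by
      ext x
      constructor
      · intro hx
        refine ⟨T x, ?_, U_T x⟩
        show U (T x) ∈ K
        rwa [U_T]
      · rintro ⟨p, hp, rfl⟩
        exact hp
    rw [e, hL, Ul.image_convexHull, ← range_comp]
    rfl

theorem det_eq_of (hm : 1 ≤ m) (hsim : SimSt m) {K : Set (Fin (m + 1) → ℝ)}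
    (hK : IsConvexBody K)
    (hp : ∀ σ : Equiv.Perm (Fin (m + 1)), ∀ x ∈ K, (fun i => x (σ i)) ∈ K)
    (heq : ((m + 1).factorial : ℝ) ^ 2 /
      (((m : ℝ) + 2) ^ (m + 2) * ((m : ℝ) + 3) ^ (m + 1)) * (volume K).toReal ^ 2 ≤
      (covMatrix K).det) : IsSimplex K := by
  have hV : 0 < (volume K).toReal :=
    ENNReal.toReal_pos ((isOpen_interior.measure_pos volume hK.2.2).trans_le
      (measure_mono interior_subset)).ne' hK.2.1.measure_ne_top
  have hc := hK.2.1
  have hm0 : (0 : ℝ) < m := by exact_mod_cast hm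
  set i0 : Fin m := ⟨0, hm⟩ with hi0
  rw [det_formula hm hK hp] at heq
  obtain ⟨v, hv, hvL⟩ := hsim (L := U ⁻¹' K) (convex_U hK.1) (compact_U hc) (sym_U hp)
    (by rw [vol_U]; exact hV) i0 (by
      rw [vol_U, int_U K (fun p => p.2 i0 ^ 2), int_U K (fun p => p.1 ^ 2),
        int_U K (fun p => p.1)]
      simp only [T]
      set V := (volume K).toReal with hVdef
      set Is := ∫ x in K, (∑ i, x i) with hIs
      set Iss := ∫ x in K, (∑ i, x i) ^ 2 with hIss
      set Iy := ∫ x in K, (x i0.succ - (∑ j, x j) / (m + 1)) ^ 2 with hIy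
      have hfac : (0 : ℝ) < ((m : ℝ) + 1) ^ m / (m ^ m * (m + 1) * V ^ (m + 2)) := by positivity
      refine le_of_mul_le_mul_left (le_trans (le_of_eq ?_) heq) hfac
      unfold gam kap
      rw [Nat.factorial_succ]
      push_cast
      have e6 : V ^ (m + 4) = V ^ (m + 2) * V ^ 2 := by rw [← pow_add]
      have e7 : ((m : ℝ) + 1) ^ (2 * m) = ((m : ℝ) + 1) ^ m * ((m : ℝ) + 1) ^ m := by
        rw [← pow_add]; congr 1; ring
      have e8 : ((m : ℝ) + 1) ^ (m + 3) = ((m : ℝ) + 1) ^ m * ((m : ℝ) + 1) ^ 3 := by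
        rw [← pow_add]
      have e9 : ((m : ℝ) + 2) ^ (m + 2) = ((m : ℝ) + 2) ^ m * ((m : ℝ) + 2) ^ 2 := by
        rw [← pow_add]
      rw [e6, e7, e8, e9]
      field_simp)
  exact simplex_of hv hvL

end D461

end Vale.Agent.P254.Perm
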