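import Vale.Agent.P254.Perm.Defs

/-! # P254 Perm: the elementary inequality `(1 - k h / 4)² (1 + h)^(k+1) ≤ 1 + (k+1) h` -/

namespace Vale.Agent.P254.Perm

theorem elem (k : ℕ) (_hk : 1 ≤ k) {h : ℝ} (h0 : 0 ≤ h) (h1 : (k : ℝ) * h ≤ 4) :
    (1 - k * h / 4) ^ 2 * (1 + h) ^ (k + 1) ≤ 1 + (k + 1) * h := by
  -- `G x = (1 - k x / 4)² (1 + x)^(k+1) / (1 + (k+1) x)` is antitone on `[0, h]`
  set G : ℝ → ℝ := fun x => (1 - k * x / 4) ^ 2 * (1 + x) ^ (k + 1) / (1 + (k + 1) * x) with hG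
  have hk : (0 : ℝ) ≤ k := Nat.cast_nonneg k
  have hd : ∀ x : ℝ, 0 ≤ x → HasDerivAt G
      (-((1 - k * x / 4) * (1 + x) ^ k * (1 / 2 - k * x / 2 + (k + 1) * (k + 2) * x ^ 2 / 4) * k)
        / (1 + (k + 1) * x) ^ 2) x := by
    intro x hx
    have hp : 0 < 1 + ((k : ℝ) + 1) * x := by positivity
    have e1 : HasDerivAt (fun x : ℝ => 1 - k * x / 4) (-(k / 4)) x := by
      have := ((hasDerivAt_id x).const_mul (k : ℝ)).div_const 4
      simpa using this.const_sub 1
    have e2 : HasDerivAt (fun x : ℝ => 1 + x) 1 x := by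
      simpa using (hasDerivAt_id x).const_add 1
    have e3 : HasDerivAt (fun x : ℝ => 1 + ((k : ℝ) + 1) * x) ((k : ℝ) + 1) x := by
      simpa using ((hasDerivAt_id x).const_mul ((k : ℝ) + 1)).const_add 1
    have e := ((e1.pow 2).mul (e2.pow (k + 1))).div e3 hp.ne'
    refine e.congr_deriv ?_
    simp only [Pi.pow_apply, Nat.cast_add, Nat.cast_one, Nat.add_sub_cancel, Nat.cast_ofNat,
      Pi.mul_apply]
    rw [div_left_inj' (by positivity)]
    ring
  have hanti : AntitoneOn G (Set.Icc 0 h) := by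
    apply antitoneOn_of_deriv_nonpos (convex_Icc 0 h)
    · exact fun x hx => (hd x hx.1).continuousAt.continuousWithinAt
    · intro x hx
      rw [interior_Icc] at hx
      exact (hd x hx.1.le).differentiableAt.differentiableWithinAt
    · intro x hx
      rw [interior_Icc] at hx
      rw [(hd x hx.1.le).deriv]
      have hx0 := hx.1.le
      have a1 : 0 ≤ 1 - k * x / 4 := by
        have : (k : ℝ) * x ≤ k * h := mul_le_mul_of_nonneg_left hx.2.le hk
        linarith
      have a2 : 0 ≤ 1 / 2 - k * x / 2 + ((k : ℝ) + 1) * (k + 2) * x ^ 2 / 4 := by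
        nlinarith [sq_nonneg ((k : ℝ) * x - 1), mul_nonneg hk (sq_nonneg x), sq_nonneg x]
      have a3 : 0 ≤ (1 + x) ^ k := by positivity
      apply div_nonpos_of_nonpos_of_nonneg _ (by positivity)
      have := mul_nonneg (mul_nonneg (mul_nonneg a1 a3) a2) hk
      linarith
  have := hanti (Set.left_mem_Icc.2 h0) (Set.right_mem_Icc.2 h0) h0
  have g0 : G 0 = 1 := by simp [hG]
  rw [g0, hG] at this
  have hp : 0 < 1 + ((k : ℝ) + 1) * h := by positivity
  simp only at this
  rwa [div_le_one hp] at this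

end Vale.Agent.P254.Perm
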