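import Vale.Agent.P254.Perm.DecC673

open MeasureTheory Set Filter Topology

namespace Vale.Agent.P254.Perm.H673

theorem elem (k : ℕ) (hk : 1 ≤ k) {h : ℝ} (h0 : 0 ≤ h) (h1 : (k : ℝ) * h ≤ 4) :
    (1 - k * h / 4) ^ 2 * (1 + h) ^ (k + 1) ≤ 1 + (k + 1) * h := by
  have k1 : (0 : ℝ) < k := by exact_mod_cast hk
  let G : ℝ → ℝ := fun x => (1 - k * x / 4) ^ 2 * (1 + x) ^ (k + 1) / (1 + (k + 1) * x)
  have den : ∀ x ∈ Icc (0 : ℝ) h, 0 < 1 + ((k : ℝ) + 1) * x := fun x hx => by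
    have := mul_nonneg (by positivity : (0 : ℝ) ≤ (k : ℝ) + 1) hx.1
    linarith
  have hG : AntitoneOn G (Icc 0 h) := by
    refine antitoneOn_of_hasDerivWithinAt_nonpos (convex_Icc 0 h) ?_ (f' := fun x =>
      ((2 * (1 - k * x / 4) * (-(k / 4)) * (1 + x) ^ (k + 1) +
        (1 - k * x / 4) ^ 2 * ((k + 1) * (1 + x) ^ k)) * (1 + (k + 1) * x) -
        (1 - k * x / 4) ^ 2 * (1 + x) ^ (k + 1) * (k + 1)) / (1 + (k + 1) * x) ^ 2) ?_ ?_
    · exact ContinuousOn.div (by fun_prop) (by fun_prop) fun x hx => (den x hx).ne'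
    · intro x hx
      have hx' := interior_subset hx
      have a1 : HasDerivAt (fun x : ℝ => 1 - k * x / 4) (-(k / 4)) x := by
        have := (((hasDerivAt_id x).const_mul (k : ℝ)).div_const 4).const_sub 1
        simpa using this
      have a2 : HasDerivAt (fun x : ℝ => 1 + x) 1 x := by
        simpa using (hasDerivAt_id x).const_add 1
      have a3 : HasDerivAt (fun x : ℝ => 1 + ((k : ℝ) + 1) * x) ((k : ℝ) + 1) x := by
        simpa using ((hasDerivAt_id x).const_mul ((k : ℝ) + 1)).const_add 1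
      have a4 := (((a1.pow 2).mul (a2.pow (k + 1))).div a3 (den x hx').ne').hasDerivWithinAt
        (s := interior (Icc 0 h))
      refine a4.congr_deriv ?_
      simp only [Pi.pow_apply, Pi.mul_apply]
      push_cast
      simp only [pow_one, mul_one, Nat.add_sub_cancel]
    · intro x hx
      have hx' := interior_subset hx
      apply div_nonpos_of_nonpos_of_nonneg _ (by positivity)
      have x0 : 0 ≤ x := hx'.1
      have x1 : 0 ≤ 1 - k * x / 4 := by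
        have : (k : ℝ) * x ≤ k * h := mul_le_mul_of_nonneg_left hx'.2 k1.le
        linarith
      have e : (2 * (1 - k * x / 4) * (-(k / 4)) * (1 + x) ^ (k + 1) +
          (1 - k * x / 4) ^ 2 * ((k + 1) * (1 + x) ^ k)) * (1 + (k + 1) * x) -
          (1 - k * x / 4) ^ 2 * (1 + x) ^ (k + 1) * (k + 1) =
          -(k / 2 * (1 - k * x / 4) * (1 + x) ^ k *
            ((1 - k * x / 2) ^ 2 + (k ^ 2 / 4 + 3 * k / 2 + 1) * x ^ 2)) := by ring
      rw [e]
      have : 0 ≤ k / 2 * (1 - k * x / 4) * (1 + x) ^ k *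
            ((1 - k * x / 2) ^ 2 + (k ^ 2 / 4 + 3 * k / 2 + 1) * x ^ 2) := by positivity
      linarith
  have h2 := hG ⟨le_rfl, h0⟩ ⟨h0, le_rfl⟩ h0
  simp only [G] at h2
  rw [div_le_iff₀ (den h ⟨h0, le_rfl⟩)] at h2
  simpa using h2

/-- [A3] -/
theorem dec_C1 (k : ℕ) (hk : 1 ≤ k) {b : ℝ} (hb : 0 < b) {g g' : ℝ → ℝ}
    (hc : ContinuousOn g (Icc 0 b))
    (hd : ∀ s ∈ Ioo 0 b, HasDerivAt g (g' s) s) (hconc : ConcaveOn ℝ (Icc 0 b) g)
    (hanti : AntitoneOn g (Icc 0 b)) (hpos : ∀ s ∈ Icc 0 b, 0 < g s) :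
    ((∫ t in (0 : ℝ)..b, g t ^ k) * (∫ t in (0 : ℝ)..b, t ^ 2 * g t ^ k) -
        (∫ t in (0 : ℝ)..b, t * g t ^ k) ^ 2) * (∫ t in (0 : ℝ)..b, g t ^ (k + 2)) ^ k ≤
      kap k * (∫ t in (0 : ℝ)..b, g t ^ k) ^ (k + 4) :=
  dec_C1_of k hk (fun _ h0 h1 => elem k hk h0 h1) hb hc hd hconc hanti hpos

end Vale.Agent.P254.Perm.H673
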