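import Vale.Agent.P254.Perm.BdSucc
import Vale.Agent.P254.Perm.SymInt

/-!
P254/Perm: the induction step for the case of equality, from the statement about slices.
-/

open MeasureTheory Set

namespace Vale.Agent.P254.Perm

namespace EqSucc

/-- The mixed second moments. -/
theorem mixed {m : ℕ} {K : Set (Fin (m + 1) → ℝ)} (hK : IsCompact K) (hs : Sym K) (i : Fin m) :
    ∫ x in K, x 0 * x i.succ = -(∫ x in K, x 0 ^ 2) / (m + 1) := by
  have hint : ∀ φ : (Fin (m + 1) → ℝ) → ℝ, Continuous φ → IntegrableOn φ K := fun φ hφ =>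
    hφ.continuousOn.integrableOn_compact hK
  have h := SymInt.int_inv (SymInt.refl 0) (SymInt.refl_inv 0) (K := K)
    (fun x hx => hs.2 0 x hx) (fun x => x 0 * x i.succ)
  have h1 : ∀ x : Fin (m + 1) → ℝ, SymInt.refl 0 x 0 * SymInt.refl 0 x i.succ =
      -∑ j, x j * x i.succ := by
    intro x
    rw [SymInt.refl_apply, Function.update_self, Function.update_of_ne (Fin.succ_ne_zero i),
      neg_mul, Finset.sum_mul]
  simp only [h1] at h
  rw [integral_neg, integral_finsetSum _ fun j _ => hint _ (by fun_prop)] at h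
  have h2 : ∀ j : Fin (m + 1), j ≠ i.succ →
      ∫ x in K, x j * x i.succ = ∫ x in K, x 0 * x i.succ := by
    intro j hj
    have h3 := SymInt.int_inv (SymInt.tr 0 j) (SymInt.tr_inv 0 j) (K := K)
      (fun x hx => hs.1 (Equiv.swap 0 j) x hx) (fun x => x 0 * x i.succ)
    rw [← h3]
    refine integral_congr_ae (Filter.Eventually.of_forall fun x => ?_)
    change x j * x i.succ = x (Equiv.swap 0 j 0) * x (Equiv.swap 0 j i.succ)
    rw [Equiv.swap_apply_left, Equiv.swap_apply_of_ne_of_ne (Fin.succ_ne_zero i) (Ne.symm hj)]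
  have h3 : ∫ x in K, x i.succ * x i.succ = ∫ x in K, x 0 ^ 2 := by
    rw [← sym_sq hs i.succ 0]
    refine integral_congr_ae (Filter.Eventually.of_forall fun x => ?_)
    change x i.succ * x i.succ = x i.succ ^ 2
    ring
  rw [← Finset.sum_erase_add _ _ (Finset.mem_univ i.succ), h3,
    Finset.sum_congr rfl (fun j hj => h2 j (Finset.ne_of_mem_erase hj)), Finset.sum_const,
    Finset.card_erase_of_mem (Finset.mem_univ _), Finset.card_univ, Fintype.card_fin,
    nsmul_eq_mul] at h
  have hm1 : (m : ℝ) + 1 ≠ 0 := by positivity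
  rw [eq_div_iff hm1]
  have h4 : ((m + 1 - 1 : ℕ) : ℝ) = m := by simp
  rw [h4] at h
  linarith

/-- The inverse of the shear, as an affine map. -/
noncomputable def unshear (m : ℕ) : (ℝ × (Fin m → ℝ)) →ₗ[ℝ] (Fin (m + 1) → ℝ) where
  toFun := (shear m).symm
  map_add' p q := by
    have := symm_affine m p q 1 1
    simpa using this
  map_smul' c p := by
    have := symm_affine m p 0 c 0
    simpa using this

theorem unshear_apply (m : ℕ) (p : ℝ × (Fin m → ℝ)) : unshear m p = (shear m).symm p := rfl

theorem simplex_of {m : ℕ} {K : Set (Fin (m + 1) → ℝ)} {L : Set (ℝ × (Fin m → ℝ))}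
    (hL : K = (shear m).symm '' L) {v : Fin (m + 2) → ℝ × (Fin m → ℝ)}
    (hv : AffineIndependent ℝ v) (hLv : L = convexHull ℝ (range v)) : IsSimplex K := by
  refine ⟨fun j => unshear m (v j), ?_, ?_⟩
  · have h := hv.map' (unshear m).toAffineMap (shear m).symm.injective
    exact h
  · rw [hL, hLv]
    have h := (unshear m).image_convexHull (range v)
    rw [← range_comp] at h
    exact h

end EqSucc

/-- The induction step for the case of equality, from the statement about slices. -/
theorem eq_succ_of (m : ℕ) (hm : 1 ≤ m)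
    (hss : ∀ L : Set (ℝ × (Fin m → ℝ)), Convex ℝ L → IsCompact L →
      (∀ s, Sym {y | (s, y) ∈ L}) → 0 < (volume L).toReal → ∀ i : Fin m,
      gam m * kap m * (volume L).toReal ^ (m + 4) ≤ (∫ p in L, p.2 i ^ 2) ^ m *
          ((volume L).toReal * (∫ p in L, p.1 ^ 2) - (∫ p in L, p.1) ^ 2) →
      ∃ v : Fin (m + 2) → ℝ × (Fin m → ℝ), AffineIndependent ℝ v ∧ L = convexHull ℝ (range v))
    (K : Set (Fin (m + 1) → ℝ)) (hc : Convex ℝ K) (hK : IsCompact K) (hs : Sym K)
    (hpos : 0 < (volume K).toReal) (i₀ : Fin (m + 1))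
    (heq : gam (m + 1) * (volume K).toReal ^ (m + 1 + 2) ≤ (∫ x in K, x i₀ ^ 2) ^ (m + 1)) :
    IsSimplex K := by
  have hm' : (0 : ℝ) < m := by exact_mod_cast hm
  rw [sym_sq hs i₀ 0] at heq
  set i : Fin m := ⟨0, hm⟩ with hi
  set L : Set (ℝ × (Fin m → ℝ)) := {p | (shear m).symm p ∈ K} with hLdef
  have hpre : (shear m) ⁻¹' L = K := by
    ext x
    simp [hLdef]
  have hLimg : L = (shear m) '' K := by
    rw [Homeomorph.image_eq_preimage_symm]; rfl
  have hKimg : K = (shear m).symm '' L := by
    rw [hLimg, image_image]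
    simp only [Homeomorph.symm_apply_apply, image_id']
  have hLc : Convex ℝ L := by
    intro p hp q hq a b ha hb hab
    show (shear m).symm (a • p + b • q) ∈ K
    rw [symm_affine]
    exact hc hp hq ha hb hab
  have hLK : IsCompact L := by
    rw [hLimg]; exact hK.image (shear m).continuous
  have hLs : ∀ s, Sym {y | (s, y) ∈ L} := by
    intro s
    constructor
    · intro σ y hy
      have h1 := hs.1 (Equiv.Perm.decomposeFin.symm (0, σ)) _ hy
      show (shear m).symm (s, fun i => y (σ i)) ∈ K
      convert h1 using 1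
      funext j
      refine Fin.cases ?_ (fun k => ?_) j
      · rw [shear_symm_zero]
        simp [shear_symm_zero]
      · rw [shear_symm_succ]
        rw [Equiv.Perm.decomposeFin_symm_apply_succ]
        simp [shear_symm_succ]
    · intro k y hy
      have h1 := hs.2 k.succ _ hy
      show (shear m).symm (s, Function.update y k (-∑ j, y j)) ∈ K
      convert h1 using 1
      funext j
      refine Fin.cases ?_ (fun l => ?_) j
      · rw [shear_symm_zero, Function.update_of_ne (Fin.succ_ne_zero k).symm, shear_symm_zero]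
      · rw [shear_symm_succ]
        dsimp only
        by_cases hlk : l = k
        · subst hlk
          rw [Function.update_self, Function.update_self, Fin.sum_univ_succ, shear_symm_zero]
          simp only [shear_symm_succ, Finset.sum_sub_distrib, Finset.sum_const, Finset.card_univ,
            Fintype.card_fin, nsmul_eq_mul]
          field_simp
          ring
        · rw [Function.update_of_ne hlk, Function.update_of_ne (fun h => hlk (Fin.succ_injective _ h)),
            shear_symm_succ]
  have tr : ∀ φ : ℝ × (Fin m → ℝ) → ℝ, ∫ p in L, φ p = ∫ x in K, φ (shear m x) := by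
    intro φ
    rw [← (mp_shear m).setIntegral_preimage_emb (shear m).measurableEmbedding φ L, hpre]
  have hvol : volume L = volume K := by
    rw [← hpre, (mp_shear m).measure_preimage hLK.measurableSet.nullMeasurableSet]
  have hint : ∀ φ : (Fin (m + 1) → ℝ) → ℝ, Continuous φ → IntegrableOn φ K := fun φ hφ =>
    hφ.continuousOn.integrableOn_compact hK
  set W : ℝ := ∫ x in K, x 0 ^ 2 with hW
  set v : ℝ := (volume K).toReal with hv
  have e0 : ∫ p in L, p.1 = 0 := by
    rw [tr]
    simpa using sym_mean hK hs 0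
  have e1 : ∫ p in L, p.1 ^ 2 = W := by rw [tr]; rfl
  have e2 : ∫ x in K, x 0 * x i.succ = -W / (m + 1) := EqSucc.mixed hK hs i
  have e3 : ∫ p in L, p.2 i ^ 2 = W * (1 - 1 / ((m : ℝ) + 1) ^ 2) := by
    rw [tr]
    have : ∫ x in K, (shear m x).2 i ^ 2 = (∫ x in K, x i.succ ^ 2) +
        (2 / ((m : ℝ) + 1)) * (∫ x in K, x 0 * x i.succ) +
        (1 / ((m : ℝ) + 1) ^ 2) * (∫ x in K, x 0 ^ 2) := by
      rw [← integral_const_mul, ← integral_const_mul, ← integral_add, ← integral_add]
      · refine integral_congr_ae (Filter.Eventually.of_forall fun x => ?_)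
        have hm1 : (m : ℝ) + 1 ≠ 0 := by positivity
        simp only [shear_snd]
        field_simp
        ring
      · exact hint _ (by fun_prop)
      · exact hint _ (by fun_prop)
      · exact hint _ (by fun_prop)
      · exact hint _ (by fun_prop)
    rw [this, sym_sq hs i.succ 0, ← hW, e2]
    have : (m : ℝ) + 1 ≠ 0 := by positivity
    field_simp
    ring
  have hlam : (0 : ℝ) < (1 - 1 / ((m : ℝ) + 1) ^ 2) ^ m := by
    apply pow_pos
    have : (1 : ℝ) < ((m : ℝ) + 1) ^ 2 := by nlinarith
    rw [sub_pos, div_lt_one (by positivity)]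
    exact this
  have h3 : gam m * kap m * (volume L).toReal ^ (m + 4) ≤ (∫ p in L, p.2 i ^ 2) ^ m *
      ((volume L).toReal * (∫ p in L, p.1 ^ 2) - (∫ p in L, p.1) ^ 2) := by
    rw [e0, e1, e3, hvol, ← hv, gam_succ m hm, mul_pow]
    calc gam (m + 1) * (1 - 1 / ((m : ℝ) + 1) ^ 2) ^ m * v ^ (m + 4)
        = (gam (m + 1) * v ^ (m + 1 + 2)) * ((1 - 1 / ((m : ℝ) + 1) ^ 2) ^ m * v) := by ring
      _ ≤ W ^ (m + 1) * ((1 - 1 / ((m : ℝ) + 1) ^ 2) ^ m * v) :=
          mul_le_mul_of_nonneg_right heq (mul_nonneg hlam.le hpos.le)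
      _ = W ^ m * (1 - 1 / ((m : ℝ) + 1) ^ 2) ^ m * (v * W - 0 ^ 2) := by ring
  obtain ⟨w, hw1, hw2⟩ := hss L hLc hLK hLs (by rw [hvol]; exact hpos) i h3
  exact EqSucc.simplex_of hKimg hw1 hw2

end Vale.Agent.P254.Perm
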