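import Vale.Agent.P254.Perm.Defs

/-!
P254, permutation invariant bodies: the equality case of the slice inequality, from the equality
case of the one-dimensional inequality and the cone lemma (both as hypotheses).
-/

open MeasureTheory Set

namespace Vale.Agent.P254.Perm.H77

/-- Statement of `one_dim_eq` for the exponent `k`. -/
def OneEqSt (k : ℕ) : Prop :=
  ∀ {a b : ℝ}, a < b → ∀ {g : ℝ → ℝ}, ConcaveOn ℝ (Icc a b) g → (∀ s ∈ Icc a b, 0 ≤ g s) →
    (0 < ∫ t in a..b, g t ^ k) →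
    (kap k * (∫ t in a..b, g t ^ k) ^ (k + 4) ≤
      ((∫ t in a..b, g t ^ k) * (∫ t in a..b, t ^ 2 * g t ^ k) -
        (∫ t in a..b, t * g t ^ k) ^ 2) * (∫ t in a..b, g t ^ (k + 2)) ^ k) →
    ∃ c : ℝ, 0 < c ∧ ((∀ s ∈ Ioo a b, g s = c * (b - s)) ∨ ∀ s ∈ Ioo a b, g s = c * (s - a))

/-- Statement of `cone_simplex` in dimension `m`. -/
def ConeSt (m : ℕ) : Prop :=
  ∀ {L : Set (ℝ × (Fin m → ℝ))}, Convex ℝ L → IsCompact L → ∀ {a b c : ℝ}, a < b → 0 < c →
    (∀ s ∈ Ioo a b, (volume {y | (s, y) ∈ L}).toReal = (c * (b - s)) ^ m) →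
    (∀ s ∉ Icc a b, {y | (s, y) ∈ L} = ∅) →
    (∀ᵐ s ∂(volume.restrict (Ioo a b)), IsSimplex {y | (s, y) ∈ L}) →
    ∃ v : Fin (m + 2) → ℝ × (Fin m → ℝ), AffineIndependent ℝ v ∧ L = convexHull ℝ (range v)

/-- Equality in `Bd` forces a simplex. -/
def EqBdSt (n : ℕ) : Prop :=
  ∀ K : Set (Fin n → ℝ), Convex ℝ K → IsCompact K → Sym K → 0 < (volume K).toReal → ∀ i,
    gam n * (volume K).toReal ^ (n + 2) ≤ (∫ x in K, x i ^ 2) ^ n → IsSimplex K

/-- Statement of `slices_eq` in dimension `m`. -/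
def SliceEqSt (m : ℕ) : Prop :=
  ∀ {L : Set (ℝ × (Fin m → ℝ))}, Convex ℝ L → IsCompact L →
    (∀ s, Sym {y | (s, y) ∈ L}) → Bd m → 0 < (volume L).toReal → ∀ i : Fin m,
    gam m * kap m * (volume L).toReal ^ (m + 4) ≤ (∫ p in L, p.2 i ^ 2) ^ m *
        ((volume L).toReal * (∫ p in L, p.1 ^ 2) - (∫ p in L, p.1) ^ 2) →
    ∃ (a b : ℝ) (g : ℝ → ℝ), a < b ∧ ConcaveOn ℝ (Icc a b) g ∧
      (∀ s ∈ Icc a b, 0 ≤ g s) ∧ (∀ s ∈ Icc a b, g s ^ m = (volume {y | (s, y) ∈ L}).toReal) ∧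
      (∀ s ∉ Icc a b, {y | (s, y) ∈ L} = ∅) ∧ (0 < ∫ t in a..b, g t ^ m) ∧
      kap m * (∫ t in a..b, g t ^ m) ^ (m + 4) ≤
        ((∫ t in a..b, g t ^ m) * (∫ t in a..b, t ^ 2 * g t ^ m) -
          (∫ t in a..b, t * g t ^ m) ^ 2) * (∫ t in a..b, g t ^ (m + 2)) ^ m ∧
      ∀ᵐ s ∂(volume.restrict (Ioo a b)), gam m * (volume {y | (s, y) ∈ L}).toReal ^ (m + 2) ≤
        (∫ y in {y | (s, y) ∈ L}, y i ^ 2) ^ m

theorem sec_convex {m : ℕ} {L : Set (ℝ × (Fin m → ℝ))} (hc : Convex ℝ L) (s : ℝ) :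
    Convex ℝ {y | (s, y) ∈ L} := by
  intro y hy z hz α β hα hβ hαβ
  have h := hc hy hz hα hβ hαβ
  have e : (s, α • y + β • z) = α • (s, y) + β • (s, z) := by
    ext
    · simp only [Prod.fst_add, Prod.smul_fst, smul_eq_mul]
      rw [← add_mul, hαβ, one_mul]
    · simp
  show (s, α • y + β • z) ∈ L
  rw [e]
  exact h

theorem sec_compact {m : ℕ} {L : Set (ℝ × (Fin m → ℝ))} (hL : IsCompact L) (s : ℝ) :
    IsCompact {y | (s, y) ∈ L} := by
  have h1 : IsClosed {y : Fin m → ℝ | (s, y) ∈ L} :=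
    hL.isClosed.preimage (by fun_prop : Continuous fun y : Fin m → ℝ => (s, y))
  refine (hL.image continuous_snd).of_isClosed_subset h1 ?_
  intro y hy
  exact ⟨(s, y), hy, rfl⟩

/-- the reflection of the first coordinate -/
def refl (m : ℕ) : (ℝ × (Fin m → ℝ)) ≃ₗ[ℝ] (ℝ × (Fin m → ℝ)) :=
  LinearEquiv.prodCongr (LinearEquiv.neg ℝ) (LinearEquiv.refl ℝ _)

theorem refl_apply (m : ℕ) (s : ℝ) (y : Fin m → ℝ) : refl m (s, y) = (-s, y) := rfl

theorem refl_refl (m : ℕ) (p : ℝ × (Fin m → ℝ)) : refl m (refl m p) = p := by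
  obtain ⟨s, y⟩ := p
  simp [refl_apply]

/-- the cone lemma for cones with the apex on the left -/
theorem cone_left {m : ℕ} (hC : ConeSt m) {L : Set (ℝ × (Fin m → ℝ))} (hc : Convex ℝ L)
    (hL : IsCompact L) {a b c : ℝ} (hab : a < b) (hc0 : 0 < c)
    (hA : ∀ s ∈ Ioo a b, (volume {y | (s, y) ∈ L}).toReal = (c * (s - a)) ^ m)
    (hout : ∀ s ∉ Icc a b, {y | (s, y) ∈ L} = ∅)
    (hsimp : ∀ᵐ s ∂(volume.restrict (Ioo a b)), IsSimplex {y | (s, y) ∈ L}) :
    ∃ v : Fin (m + 2) → ℝ × (Fin m → ℝ), AffineIndependent ℝ v ∧ L = convexHull ℝ (range v) := by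
  set L' : Set (ℝ × (Fin m → ℝ)) := {p | refl m p ∈ L} with hL'
  have hsec : ∀ s, {y | (s, y) ∈ L'} = {y | (-s, y) ∈ L} := fun s => by
    ext y
    simp [hL', refl_apply]
  have h1 : Convex ℝ L' := hc.linear_preimage (refl m).toLinearMap
  have himg : L' = refl m '' L := by
    ext p
    constructor
    · intro hp
      exact ⟨refl m p, hp, refl_refl m p⟩
    · rintro ⟨q, hq, rfl⟩
      show refl m (refl m q) ∈ L
      rwa [refl_refl]
  have hcont : Continuous (refl m) := by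
    have : (refl m : ℝ × (Fin m → ℝ) → ℝ × (Fin m → ℝ)) = fun p => (-p.1, p.2) := by
      funext p
      rfl
    rw [this]
    fun_prop
  have h2 : IsCompact L' := by
    rw [himg]
    exact hL.image hcont
  have hA' : ∀ s ∈ Ioo (-b) (-a), (volume {y | (s, y) ∈ L'}).toReal = (c * (-a - s)) ^ m := by
    intro s hs
    rw [hsec, hA (-s) ⟨by linarith [hs.2], by linarith [hs.1]⟩]
    congr 2
    ring
  have hout' : ∀ s ∉ Icc (-b) (-a), {y | (s, y) ∈ L'} = ∅ := by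
    intro s hs
    rw [hsec]
    apply hout
    intro h
    exact hs ⟨by linarith [h.2], by linarith [h.1]⟩
  have hsimp' : ∀ᵐ s ∂(volume.restrict (Ioo (-b) (-a))), IsSimplex {y | (s, y) ∈ L'} := by
    rw [ae_restrict_iff' measurableSet_Ioo] at hsimp ⊢
    have h3 := (Measure.measurePreserving_neg (volume : Measure ℝ)).quasiMeasurePreserving.ae hsimp
    filter_upwards [h3] with s hs hs2
    rw [hsec]
    exact hs ⟨by linarith [hs2.2], by linarith [hs2.1]⟩
  obtain ⟨v, hv, hv2⟩ := hC h1 h2 (neg_lt_neg hab) hc0 hA' hout' hsimp'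
  refine ⟨fun i => refl m (v i), ?_, ?_⟩
  · exact hv.map' (refl m).toLinearMap.toAffineMap (refl m).injective
  · have h4 : L = refl m '' L' := by
      ext p
      constructor
      · intro hp
        refine ⟨refl m p, ?_, refl_refl m p⟩
        show refl m (refl m p) ∈ L
        rwa [refl_refl]
      · rintro ⟨q, hq, rfl⟩
        exact hq
    have h5 := (refl m).toLinearMap.image_convexHull (range v)
    rw [h4, hv2]
    have h6 : range (fun i => refl m (v i)) = (refl m).toLinearMap '' range v := by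
      rw [← range_comp]
      rfl
    rw [h6, ← h5]
    rfl

/-- [Q3'] from `slices_eq`, `one_dim_eq`, `cone_simplex` -/
theorem slices_simplex_of (m : ℕ) (hSE : SliceEqSt m) (hOE : OneEqSt m) (hC : ConeSt m)
    {L : Set (ℝ × (Fin m → ℝ))} (hc : Convex ℝ L)
    (hL : IsCompact L) (hs : ∀ s, Sym {y | (s, y) ∈ L}) (hB : Bd m) (hE : EqBdSt m)
    (hvol : 0 < (volume L).toReal) (i : Fin m)
    (heq : gam m * kap m * (volume L).toReal ^ (m + 4) ≤ (∫ p in L, p.2 i ^ 2) ^ m *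
        ((volume L).toReal * (∫ p in L, p.1 ^ 2) - (∫ p in L, p.1) ^ 2)) :
    ∃ v : Fin (m + 2) → ℝ × (Fin m → ℝ), AffineIndependent ℝ v ∧ L = convexHull ℝ (range v) := by
  obtain ⟨a, b, g, hab, hg, hg0, hgv, hout, hM, hk, hae⟩ := hSE hc hL hs hB hvol i heq
  obtain ⟨c, hc0, hcase⟩ := hOE hab hg hg0 hM hk
  have key : (∀ s ∈ Ioo a b, 0 < g s) →
      ∀ᵐ s ∂(volume.restrict (Ioo a b)), IsSimplex {y | (s, y) ∈ L} := by
    intro hpos
    rw [ae_restrict_iff' measurableSet_Ioo] at hae ⊢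
    filter_upwards [hae] with s h1 h2
    refine hE _ (sec_convex hc s) (sec_compact hL s) (hs s) ?_ i (h1 h2)
    rw [← hgv s (Ioo_subset_Icc_self h2)]
    exact pow_pos (hpos s h2) m
  rcases hcase with hcase | hcase
  · refine hC hc hL hab hc0 ?_ hout (key ?_)
    · intro s h
      rw [← hgv s (Ioo_subset_Icc_self h), hcase s h]
    · intro s h
      rw [hcase s h]
      exact mul_pos hc0 (by linarith [h.2])
  · refine cone_left hC hc hL hab hc0 ?_ hout (key ?_)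
    · intro s h
      rw [← hgv s (Ioo_subset_Icc_self h), hcase s h]
    · intro s h
      rw [hcase s h]
      exact mul_pos hc0 (by linarith [h.1])

end Vale.Agent.P254.Perm.H77
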