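import Vale.Agent.P254.Perm.Main
import Vale.Agent.P254.Perm.OneEq
import Vale.Agent.P254.Perm.SlicesEq
import Vale.Agent.P254.Perm.SlicesSimplex77
import Vale.Agent.P254.Perm.Cone
import Vale.Agent.P254.Perm.EqOne
import Vale.Agent.P254.Perm.EqSuccCore
import Vale.Agent.P254.Perm.DetEqOf461

/-!
P254, permutation invariant bodies: the case of equality.
-/

open MeasureTheory Set Matrix

namespace Vale.Agent.P254.Perm

/-- [Q3'] -/
theorem slices_simplex (m : ℕ) (hm : 1 ≤ m) {L : Set (ℝ × (Fin m → ℝ))} (hc : Convex ℝ L)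
    (hL : IsCompact L) (hs : ∀ s, Sym {y | (s, y) ∈ L}) (hB : Bd m) (hE : EqBd m)
    (hvol : 0 < (volume L).toReal) (i : Fin m)
    (heq : gam m * kap m * (volume L).toReal ^ (m + 4) ≤ (∫ p in L, p.2 i ^ 2) ^ m *
        ((volume L).toReal * (∫ p in L, p.1 ^ 2) - (∫ p in L, p.1) ^ 2)) :
    ∃ v : Fin (m + 2) → ℝ × (Fin m → ℝ), AffineIndependent ℝ v ∧ L = convexHull ℝ (range v) :=
  H77.slices_simplex_of m
    (fun h1 h2 h3 h4 h5 i h6 => slices_eq_of hm (fun a b c => sec m hm a b c)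
      (fun a _ b c => one_dim m hm a b c) h1 h2 h3 h4 h5 i h6)
    (fun h1 _ h2 h3 h4 h5 => one_dim_eq m hm h1 h2 h3 h4 h5)
    (fun h1 h2 _ _ _ h3 h4 h5 h6 h7 => cone_simplex m hm h1 h2 h3 h4 h5 h6 h7)
    hc hL hs hB hE hvol i heq

/-- [Q5] the induction step -/
theorem eq_succ (m : ℕ) (hm : 1 ≤ m) (hE : EqBd m) : EqBd (m + 1) :=
  fun K hc hK hs hpos i h => eq_succ_of m hm
    (fun _ a b c d j e => slices_simplex m hm a b c (bd_all m hm) hE d j e) K hc hK hs hpos i h

theorem eq_all (m : ℕ) (hm : 1 ≤ m) : EqBd m := by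
  induction m, hm using Nat.le_induction with
  | base => exact eq_one
  | succ m hm ih => exact eq_succ m hm ih

/-- [Q6] -/
theorem det_eq (m : ℕ) (hm : 1 ≤ m) {K : Set (Fin (m + 1) → ℝ)} (hK : IsConvexBody K)
    (hp : ∀ σ : Equiv.Perm (Fin (m + 1)), ∀ x ∈ K, (fun i => x (σ i)) ∈ K)
    (heq : ((m + 1).factorial : ℝ) ^ 2 /
      (((m : ℝ) + 2) ^ (m + 2) * ((m : ℝ) + 3) ^ (m + 1)) * (volume K).toReal ^ 2 ≤
      (covMatrix K).det) : IsSimplex K :=
  D461.det_eq_of hm (fun a b c d i e =>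
    slices_simplex m hm a b c (bd_all m hm) (eq_all m hm) d i e) hK hp heq

/-- A permutation invariant convex body with the isotropic constant of the simplex is a simplex. -/
theorem simplex_of_isoConst_eq {n : ℕ} (hn : 1 ≤ n) {K S : Set (Fin n → ℝ)}
    (hK : IsConvexBody K) (hS : IsSimplex S)
    (hp : ∀ σ : Equiv.Perm (Fin n), ∀ x ∈ K, (fun i => x (σ i)) ∈ K)
    (heq : isoConst K = isoConst S) : IsSimplex K := by
  rcases Nat.lt_or_ge n 2 with h | h
  · have h1 : n = 1 := by omega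
    subst h1
    exact isSimplex_of_dim_one hK
  · obtain ⟨m, rfl⟩ : ∃ m, n = m + 1 := ⟨n - 1, by omega⟩
    have hm : 1 ≤ m := by omega
    have hV := volume_pos_of_body hK
    refine det_eq m hm hK hp ?_
    by_contra hlt
    rw [not_le] at hlt
    have h2 : (covMatrix K).det / (volume K).toReal ^ 2 < FV.simpC (m + 1) := by
      rw [div_lt_iff₀ (by positivity)]
      refine hlt.trans_le (le_of_eq ?_)
      congr 1
      unfold FV.simpC
      push_cast
      rw [mul_pow]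
      rw [show (m : ℝ) + 1 + 1 = m + 2 by ring, show (m : ℝ) + 1 + 2 = m + 3 by ring, pow_succ]
      ring
    refine absurd heq (ne_of_lt ?_)
    rw [isoConst_simplex hS, isoConst, isoConst, FV.det_simplex (by omega)]
    exact Real.rpow_lt_rpow (div_nonneg (covMatrix_posSemidef hK.2.1).det_nonneg (by positivity))
      h2 (by positivity)

/-- The same for the affine images. -/
theorem simplex_of_isoConst_aff_eq {n : ℕ} (hn : 1 ≤ n) {K S : Set (Fin n → ℝ)}
    (hS : IsSimplex S)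
    (h : ∃ (A : Matrix (Fin n) (Fin n) ℝ) (b : Fin n → ℝ) (U : Set (Fin n → ℝ)), A.det ≠ 0 ∧
      IsConvexBody U ∧ (∀ σ : Equiv.Perm (Fin n), ∀ x ∈ U, (fun i => x (σ i)) ∈ U) ∧
      K = (fun x => A *ᵥ x + b) '' U)
    (heq : isoConst K = isoConst S) : IsSimplex K := by
  obtain ⟨A, b, U, hA, hU, hp, rfl⟩ := h
  have e : isoConst ((fun x => A *ᵥ x + b) '' U) = isoConst U :=
    isoConst_aff_image hA b hU.2.1 (volume_pos_of_body hU).ne'
  rw [e] at heq
  obtain ⟨v, hv, hUv⟩ := simplex_of_isoConst_eq hn hU hS hp heq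
  let f : (Fin n → ℝ) →ᵃ[ℝ] (Fin n → ℝ) :=
    { toFun := fun x => A *ᵥ x + b
      linear := Matrix.toLin' A
      map_vadd' := fun p v => by
        simp only [vadd_eq_add, Matrix.mulVec_add, Matrix.toLin'_apply]
        rw [add_assoc] }
  have hf : ∀ x, f x = A *ᵥ x + b := fun _ => rfl
  have hinj : Function.Injective f := by
    intro x y hxy
    rw [hf, hf] at hxy
    have h1 : A *ᵥ x = A *ᵥ y := add_right_cancel hxy
    have h2 : IsUnit A := (Matrix.isUnit_iff_isUnit_det A).2 (isUnit_iff_ne_zero.2 hA)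
    exact (Matrix.mulVec_injective_iff_isUnit.2 h2) h1
  refine ⟨fun j => f (v j), hv.map' f hinj, ?_⟩
  have h3 : (fun x => A *ᵥ x + b) '' U = f '' U := rfl
  rw [h3, hUv, f.image_convexHull, ← range_comp]
  rfl

end Vale.Agent.P254.Perm
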