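import Vale.Agent.P254.Perm.BdSucc

/-!
P254/Perm: the induction step of the equality case (from the statements about slices).
-/

open MeasureTheory Set

namespace Vale.Agent.P254.Perm

theorem shear_facts (m : ℕ) (hm : 1 ≤ m) {K : Set (Fin (m + 1) → ℝ)} (hc : Convex ℝ K)
    (hK : IsCompact K) (hs : Sym K)
    (hmean : ∀ K : Set (Fin (m + 1) → ℝ), IsCompact K → Sym K → ∀ i, ∫ x in K, x i = 0)
    (hsq : ∀ K : Set (Fin (m + 1) → ℝ), Sym K → ∀ i j, ∫ x in K, x i ^ 2 = ∫ x in K, x j ^ 2)
    {L : Set (ℝ × (Fin m → ℝ))} (hLdef : L = {p | (shear m).symm p ∈ K}) :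
    Convex ℝ L ∧ IsCompact L ∧ (∀ s, Sym {y | (s, y) ∈ L}) ∧ volume L = volume K ∧
      (∫ p in L, p.1 = 0) ∧ (∫ p in L, p.1 ^ 2 = ∫ x in K, x 0 ^ 2) ∧
      ∀ i : Fin m, (∫ p in L, p.1 * p.2 i = 0) →
        ∫ p in L, p.2 i ^ 2 = (∫ x in K, x 0 ^ 2) * (1 - 1 / ((m : ℝ) + 1) ^ 2) := by
  have hm' : (0 : ℝ) < m := by exact_mod_cast hm
  have hpre : (shear m) ⁻¹' L = K := by
    ext x
    simp [hLdef]
  have hLimg : L = (shear m) '' K := by
    rw [Homeomorph.image_eq_preimage_symm]; exact hLdef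
  have hLc : Convex ℝ L := by
    intro p hp q hq a b ha hb hab
    rw [hLdef] at hp hq ⊢
    show (shear m).symm (a • p + b • q) ∈ K
    rw [symm_affine]
    exact hc hp hq ha hb hab
  have hLK : IsCompact L := by
    rw [hLimg]; exact hK.image (shear m).continuous
  have hLs : ∀ s, Sym {y | (s, y) ∈ L} := by
    intro s
    rw [hLdef]
    constructor
    · intro σ y hy
      -- extend the permutation by fixing 0
      have h1 := hs.1 (Equiv.Perm.decomposeFin.symm (0, σ)) _ hy
      show (shear m).symm (s, fun i => y (σ i)) ∈ K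
      convert h1 using 1
      funext j
      refine Fin.cases ?_ (fun k => ?_) j
      · rw [shear_symm_zero]
        simp [shear_symm_zero]
      · rw [shear_symm_succ]
        rw [Equiv.Perm.decomposeFin_symm_apply_succ]
        simp [shear_symm_succ]
    · intro k y hy
      have h1 := hs.2 k.succ _ hy
      show (shear m).symm (s, Function.update y k (-∑ j, y j)) ∈ K
      convert h1 using 1
      funext j
      refine Fin.cases ?_ (fun l => ?_) j
      · rw [shear_symm_zero, Function.update_of_ne (Fin.succ_ne_zero k).symm, shear_symm_zero]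
      · rw [shear_symm_succ]
        dsimp only
        by_cases hlk : l = k
        · subst hlk
          rw [Function.update_self, Function.update_self, Fin.sum_univ_succ, shear_symm_zero]
          simp only [shear_symm_succ, Finset.sum_sub_distrib, Finset.sum_const, Finset.card_univ,
            Fintype.card_fin, nsmul_eq_mul]
          field_simp
          ring
        · rw [Function.update_of_ne hlk, Function.update_of_ne (fun h => hlk (Fin.succ_injective _ h)),
            shear_symm_succ]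
  have tr : ∀ φ : ℝ × (Fin m → ℝ) → ℝ, ∫ p in L, φ p = ∫ x in K, φ (shear m x) := by
    intro φ
    rw [← (mp_shear m).setIntegral_preimage_emb (shear m).measurableEmbedding φ L, hpre]
  have hvol : volume L = volume K := by
    rw [← hpre, (mp_shear m).measure_preimage hLK.measurableSet.nullMeasurableSet]
  have hint : ∀ φ : (Fin (m + 1) → ℝ) → ℝ, Continuous φ → IntegrableOn φ K := fun φ hφ =>
    hφ.continuousOn.integrableOn_compact hK
  set W : ℝ := ∫ x in K, x 0 ^ 2 with hW
  have e0 : ∫ p in L, p.1 = 0 := by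
    rw [tr]
    simpa using hmean K hK hs 0
  have e1 : ∫ p in L, p.1 ^ 2 = W := by rw [tr]; rfl
  refine ⟨hLc, hLK, hLs, hvol, e0, e1, fun i h2 => ?_⟩
  have e2 : ∫ x in K, x 0 * x i.succ = -W / (m + 1) := by
    rw [tr] at h2
    have : ∫ x in K, (shear m x).1 * (shear m x).2 i =
        (∫ x in K, x 0 * x i.succ) + (∫ x in K, x 0 ^ 2) / (m + 1) := by
      rw [← integral_div, ← integral_add]
      · refine integral_congr_ae (Filter.Eventually.of_forall fun x => ?_)
        simp only [shear_fst, shear_snd]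
        ring
      · exact hint _ (by fun_prop)
      · exact hint _ (by fun_prop)
    rw [this, ← hW] at h2
    have : (m : ℝ) + 1 ≠ 0 := by positivity
    field_simp
    field_simp at h2
    linarith
  rw [tr]
  have : ∫ x in K, (shear m x).2 i ^ 2 = (∫ x in K, x i.succ ^ 2) +
      (2 / ((m : ℝ) + 1)) * (∫ x in K, x 0 * x i.succ) +
      (1 / ((m : ℝ) + 1) ^ 2) * (∫ x in K, x 0 ^ 2) := by
    rw [← integral_const_mul, ← integral_const_mul, ← integral_add, ← integral_add]
    · refine integral_congr_ae (Filter.Eventually.of_forall fun x => ?_)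
      have hm1 : (m : ℝ) + 1 ≠ 0 := by positivity
      simp only [shear_snd]
      field_simp
      ring
    · exact hint _ (by fun_prop)
    · exact hint _ (by fun_prop)
    · exact hint _ (by fun_prop)
    · exact hint _ (by fun_prop)
  rw [this, hsq K hs i.succ 0, ← hW, e2]
  have : (m : ℝ) + 1 ≠ 0 := by positivity
  field_simp
  ring

/-- the inverse shear as a linear map -/
noncomputable def symmLin (m : ℕ) : (ℝ × (Fin m → ℝ)) →ₗ[ℝ] (Fin (m + 1) → ℝ) where
  toFun := (shear m).symm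
  map_add' p q := by simpa using symm_affine m p q 1 1
  map_smul' a p := by simpa using symm_affine m p p a 0

theorem simplex_of_shear (m : ℕ) {K : Set (Fin (m + 1) → ℝ)} {L : Set (ℝ × (Fin m → ℝ))}
    (hLdef : L = {p | (shear m).symm p ∈ K}) {v : Fin (m + 2) → ℝ × (Fin m → ℝ)}
    (hv : AffineIndependent ℝ v) (hL : L = convexHull ℝ (range v)) :
    ∃ w : Fin (m + 1 + 1) → (Fin (m + 1) → ℝ), AffineIndependent ℝ w ∧
      K = convexHull ℝ (range w) := by
  refine ⟨fun i => (shear m).symm (v i), ?_, ?_⟩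
  · have := hv.map' (symmLin m).toAffineMap (fun x y h => (shear m).symm.injective h)
    exact this
  · have h1 : K = (shear m).symm '' L := by
      rw [Homeomorph.image_eq_preimage_symm]
      ext x
      simp [hLdef]
    have h2 : (shear m).symm '' L = (symmLin m) '' L := rfl
    rw [h1, h2, hL, LinearMap.image_convexHull]
    congr 1
    rw [← range_comp]
    rfl

/-- the induction step of the equality case, from `slices`, `slices_simplex`, `sym_mean`,
`sym_sq` -/
theorem eq_succ_of682 (m : ℕ) (hm : 1 ≤ m)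
    (hsl : ∀ L : Set (ℝ × (Fin m → ℝ)), Convex ℝ L → IsCompact L →
      (∀ s, Sym {y | (s, y) ∈ L}) → ∀ i : Fin m, (∫ p in L, p.1 * p.2 i) = 0)
    (hss : ∀ L : Set (ℝ × (Fin m → ℝ)), Convex ℝ L → IsCompact L →
      (∀ s, Sym {y | (s, y) ∈ L}) → 0 < (volume L).toReal → ∀ i : Fin m,
      gam m * kap m * (volume L).toReal ^ (m + 4) ≤ (∫ p in L, p.2 i ^ 2) ^ m *
        ((volume L).toReal * (∫ p in L, p.1 ^ 2) - (∫ p in L, p.1) ^ 2) →
      ∃ v : Fin (m + 2) → ℝ × (Fin m → ℝ), AffineIndependent ℝ v ∧ L = convexHull ℝ (range v))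
    (hmean : ∀ K : Set (Fin (m + 1) → ℝ), IsCompact K → Sym K → ∀ i, ∫ x in K, x i = 0)
    (hsq : ∀ K : Set (Fin (m + 1) → ℝ), Sym K → ∀ i j, ∫ x in K, x i ^ 2 = ∫ x in K, x j ^ 2)
    {K : Set (Fin (m + 1) → ℝ)} (hc : Convex ℝ K) (hK : IsCompact K) (hs : Sym K)
    (hpos : 0 < (volume K).toReal) (i₀ : Fin (m + 1))
    (heq : gam (m + 1) * (volume K).toReal ^ (m + 1 + 2) ≤ (∫ x in K, x i₀ ^ 2) ^ (m + 1)) :
    IsSimplex K := by
  have hm' : (0 : ℝ) < m := by exact_mod_cast hm
  obtain ⟨h1, h2, h3, h4, h5, h6, h7⟩ := shear_facts m hm hc hK hs hmean hsq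
    (L := {p | (shear m).symm p ∈ K}) rfl
  set L : Set (ℝ × (Fin m → ℝ)) := {p | (shear m).symm p ∈ K} with hL
  set i : Fin m := ⟨0, hm⟩ with hi
  rw [hsq K hs i₀ 0] at heq
  have h8 := h7 i (hsl L h1 h2 h3 i)
  obtain ⟨v, hv, hLv⟩ := hss L h1 h2 h3 (by rwa [h4]) i (by
    rw [h4, h5, h6, h8, gam_succ m hm, mul_pow]
    set W : ℝ := ∫ x in K, x 0 ^ 2 with hW
    set u : ℝ := (volume K).toReal with hu
    have hlam : (0 : ℝ) ≤ (1 - 1 / ((m : ℝ) + 1) ^ 2) ^ m := by
      apply pow_nonneg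
      have : (1 : ℝ) < ((m : ℝ) + 1) ^ 2 := by nlinarith
      rw [sub_nonneg, div_le_one (by positivity)]
      exact this.le
    calc gam (m + 1) * (1 - 1 / ((m : ℝ) + 1) ^ 2) ^ m * u ^ (m + 4)
        = (gam (m + 1) * u ^ (m + 1 + 2)) * ((1 - 1 / ((m : ℝ) + 1) ^ 2) ^ m * u) := by ring
      _ ≤ W ^ (m + 1) * ((1 - 1 / ((m : ℝ) + 1) ^ 2) ^ m * u) :=
          mul_le_mul_of_nonneg_right heq (mul_nonneg hlam hpos.le)
      _ = W ^ m * (1 - 1 / ((m : ℝ) + 1) ^ 2) ^ m * (u * W - 0 ^ 2) := by ring)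
  exact simplex_of_shear m hL hv hLv

end Vale.Agent.P254.Perm
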