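import Vale.Agent.P254.Perm.Defs

/-! # P254, one-dimensional inequality for decreasing concave functions (right derivatives). -/

open MeasureTheory Set Filter Topology

namespace Vale.Agent.P254.Perm.J504

structure Dat (k : ℕ) (b : ℝ) (g : ℝ → ℝ) : Prop where
  hk : 1 ≤ k
  hb : 0 < b
  conc : ConcaveOn ℝ (Icc 0 b) g
  anti : AntitoneOn g (Icc 0 b)
  nn : ∀ s ∈ Icc 0 b, 0 ≤ g s
  pos : ∀ s ∈ Ico 0 b, 0 < g s

theorem tail_deriv {φ : ℝ → ℝ} {b s : ℝ} (hi : IntervalIntegrable φ volume 0 b)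
    (hc : ContinuousOn φ (Ioo 0 b)) (hs : s ∈ Ioo 0 b) :
    HasDerivAt (fun u => ∫ t in u..b, φ t) (-φ s) s := by
  have h1 : IntervalIntegrable φ volume s b := hi.mono_set (by
    rw [uIcc_of_le hs.2.le, uIcc_of_le (hs.1.trans hs.2).le]
    exact Icc_subset_Icc hs.1.le le_rfl)
  exact intervalIntegral.integral_hasDerivAt_left h1
    (hc.stronglyMeasurableAtFilter isOpen_Ioo s hs) (hc.continuousAt (Ioo_mem_nhds hs.1 hs.2))

theorem tail_cont {φ : ℝ → ℝ} {b : ℝ} (hb : 0 ≤ b) (hi : IntervalIntegrable φ volume 0 b) :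
    ContinuousOn (fun u => ∫ t in u..b, φ t) (Icc 0 b) := by
  have h := intervalIntegral.continuousOn_primitive_interval_left (μ := volume) (f := φ) (a := 0) (b := b)
    (by rw [uIcc_of_le hb]; exact (intervalIntegrable_iff_integrableOn_Icc_of_le hb).1 hi)
  rwa [uIcc_of_le hb] at h

theorem right_anti {F F' : ℝ → ℝ} {a c : ℝ} (hac : a ≤ c) (hc : ContinuousOn F (Icc a c))
    (hd : ∀ x ∈ Ico a c, HasDerivWithinAt F (F' x) (Ici x) x) (hle : ∀ x ∈ Ico a c, F' x ≤ 0) :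
    F c ≤ F a :=
  image_le_of_deriv_right_le_deriv_boundary (B := fun _ => F a) (B' := fun _ => 0) hc hd le_rfl
    continuousOn_const (fun x _ => hasDerivWithinAt_const x (Ici x) (F a)) hle (right_mem_Icc.2 hac)

namespace Dat

variable {k : ℕ} {b : ℝ} {g : ℝ → ℝ}

theorem contg (D : Dat k b g) : ContinuousOn g (Ioo 0 b) := by
  intro s hs
  have hs' : s ∈ interior (Icc 0 b) := by rwa [interior_Icc]
  have h1 : ContinuousWithinAt (-g) (Ioi s) s :=
    (D.conc.neg.differentiableWithinAt_Ioi_of_mem_interior hs').continuousWithinAt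
  have h2 : ContinuousWithinAt (-g) (Iio s) s :=
    (D.conc.neg.differentiableWithinAt_Iio_of_mem_interior hs').continuousWithinAt
  have h3 : ContinuousAt (-g) s := continuousAt_iff_continuous_left'_right'.2 ⟨h2, h1⟩
  have h4 := h3.neg
  rw [neg_neg] at h4
  exact h4.continuousWithinAt

theorem antipow (D : Dat k b g) (j : ℕ) : AntitoneOn (fun t => g t ^ j) (Icc 0 b) := by
  intro x hx y hy hxy
  exact pow_le_pow_left₀ (D.nn y hy) (D.anti hx hy hxy) j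

theorem ii (D : Dat k b g) (j : ℕ) : IntervalIntegrable (fun t => g t ^ j) volume 0 b := by
  apply AntitoneOn.intervalIntegrable
  rw [uIcc_of_le D.hb.le]
  exact D.antipow j

theorem ii1 (D : Dat k b g) (j : ℕ) : IntervalIntegrable (fun t => t * g t ^ j) volume 0 b :=
  (D.ii j).continuousOn_mul continuousOn_id

theorem ii2 (D : Dat k b g) (j : ℕ) : IntervalIntegrable (fun t => t ^ 2 * g t ^ j) volume 0 b :=
  (D.ii j).continuousOn_mul (continuousOn_id.pow 2)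

theorem sub_ii {φ : ℝ → ℝ} (hi : IntervalIntegrable φ volume 0 b) {s : ℝ} (hs : s ∈ Icc 0 b) :
    IntervalIntegrable φ volume s b := hi.mono_set (by
    rw [uIcc_of_le hs.2, uIcc_of_le (hs.1.trans hs.2)]
    exact Icc_subset_Icc hs.1 le_rfl)

noncomputable def l (g : ℝ → ℝ) (s : ℝ) : ℝ := -derivWithin g (Ioi s) s

theorem diffw (D : Dat k b g) {s : ℝ} (hs : s ∈ Ioo 0 b) : DifferentiableWithinAt ℝ g (Ioi s) s := by
  have h : DifferentiableWithinAt ℝ (-g) (Ioi s) s :=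
    D.conc.neg.differentiableWithinAt_Ioi_of_mem_interior (by rwa [interior_Icc])
  simpa using h.neg

theorem hg (D : Dat k b g) {s : ℝ} (hs : s ∈ Ioo 0 b) : HasDerivWithinAt g (-l g s) (Ici s) s := by
  have h := (D.diffw hs).hasDerivWithinAt
  rw [l, neg_neg]
  exact hasDerivWithinAt_Ioi_iff_Ici.1 h

theorem tangent (D : Dat k b g) {s t : ℝ} (hs : s ∈ Ioo 0 b) (ht : t ∈ Icc s b) :
    g t ≤ g s - l g s * (t - s) := by
  rcases ht.1.eq_or_lt with rfl | hst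
  · simp
  have h := D.conc.slope_le_rightDeriv ⟨hs.1.le, hs.2.le⟩ ⟨(hs.1.trans hst).le, ht.2⟩ hst (D.diffw hs)
  rw [slope_def_field, div_le_iff₀ (sub_pos.2 hst)] at h
  have : derivWithin g (Ioi s) s = -l g s := by rw [l, neg_neg]
  rw [this] at h
  linarith

theorem l_nonneg (D : Dat k b g) {s : ℝ} (hs : s ∈ Ioo 0 b) : 0 ≤ l g s := by
  have h := (D.diffw hs).hasDerivWithinAt
  rw [hasDerivWithinAt_iff_tendsto_slope' (by simp)] at h
  rw [l, neg_nonneg]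
  refine le_of_tendsto h ?_
  filter_upwards [Ioo_mem_nhdsGT hs.2] with t ht
  rw [slope_def_field]
  refine div_nonpos_of_nonpos_of_nonneg ?_ (sub_nonneg.2 ht.1.le)
  exact sub_nonpos.2 (D.anti ⟨hs.1.le, hs.2.le⟩ ⟨(hs.1.trans ht.1).le, ht.2.le⟩ ht.1.le)

/-- (L) -/
theorem ineqL (D : Dat k b g) {s : ℝ} (hs : s ∈ Ioo 0 b) :
    (k + 1) * l g s * (∫ t in s..b, g t ^ k) ≤ g s ^ (k + 1) := by
  have hl := D.l_nonneg hs
  have hsb : s ≤ b := hs.2.le
  have hder : ∀ t ∈ uIcc s b, HasDerivAt (fun t => -(g s - l g s * (t - s)) ^ (k + 1))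
      ((k + 1) * l g s * (g s - l g s * (t - s)) ^ k) t := by
    intro t _
    have h1 : HasDerivAt (fun t => g s - l g s * (t - s)) (-(l g s)) t := by
      have := (((hasDerivAt_id t).sub_const s).const_mul (l g s)).const_sub (g s)
      simpa using this
    have h2 := (h1.pow (k + 1)).neg
    refine h2.congr_deriv ?_
    push_cast
    ring
  have hcont : Continuous (fun t => (k + 1) * l g s * (g s - l g s * (t - s)) ^ k) := by fun_prop
  have hint := intervalIntegral.integral_eq_sub_of_hasDerivAt hder (hcont.intervalIntegrable _ _)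
  have hmono : ∫ t in s..b, (k + 1) * l g s * g t ^ k ≤
      ∫ t in s..b, (k + 1) * l g s * (g s - l g s * (t - s)) ^ k := by
    refine intervalIntegral.integral_mono_on hsb ((sub_ii (D.ii k) ⟨hs.1.le, hs.2.le⟩).const_mul _)
      (hcont.intervalIntegrable _ _) ?_
    intro t ht
    refine mul_le_mul_of_nonneg_left ?_ (by positivity)
    exact pow_le_pow_left₀ (D.nn t ⟨hs.1.le.trans ht.1, ht.2⟩) (D.tangent hs ht) k
  rw [intervalIntegral.integral_const_mul, hint] at hmono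
  have h3 : 0 ≤ g s - l g s * (b - s) :=
    (D.nn b ⟨D.hb.le, le_rfl⟩).trans (D.tangent hs ⟨hs.2.le, le_rfl⟩)
  have h4 := pow_nonneg h3 (k + 1)
  simp only [sub_self, mul_zero, sub_zero] at hmono
  linarith

theorem M_pos (D : Dat k b g) {s : ℝ} (hs : s ∈ Ico 0 b) (j : ℕ) : 0 < ∫ t in s..b, g t ^ j := by
  refine intervalIntegral.intervalIntegral_pos_of_pos_on (sub_ii (D.ii j) ⟨hs.1, hs.2.le⟩) ?_ hs.2
  intro t ht
  exact pow_pos (D.pos t ⟨hs.1.trans ht.1.le, ht.2⟩) j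

theorem M_le (D : Dat k b g) {s : ℝ} (hs : s ∈ Ico 0 b) (j : ℕ) :
    ∫ t in s..b, g t ^ j ≤ g s ^ j * (b - s) := by
  have h : ∫ t in s..b, g t ^ j ≤ ∫ t in s..b, g s ^ j := by
    refine intervalIntegral.integral_mono_on hs.2.le (sub_ii (D.ii j) ⟨hs.1, hs.2.le⟩)
      (by simp) ?_
    intro t ht
    exact D.antipow j ⟨hs.1, hs.2.le⟩ ⟨hs.1.trans ht.1, ht.2⟩ ht.1
  simpa [mul_comm] using h

theorem P_le (D : Dat k b g) {s : ℝ} (hs : s ∈ Ico 0 b) :
    ∫ t in s..b, g t ^ (k + 2) ≤ g s ^ 2 * ∫ t in s..b, g t ^ k := by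
  rw [← intervalIntegral.integral_const_mul]
  refine intervalIntegral.integral_mono_on hs.2.le (sub_ii (D.ii _) ⟨hs.1, hs.2.le⟩)
    ((sub_ii (D.ii _) ⟨hs.1, hs.2.le⟩).const_mul _) ?_
  intro t ht
  rw [pow_add, mul_comm]
  exact mul_le_mul_of_nonneg_right (D.antipow 2 ⟨hs.1, hs.2.le⟩ ⟨hs.1.trans ht.1, ht.2⟩ ht.1)
    (pow_nonneg (D.nn t ⟨hs.1.trans ht.1, ht.2⟩) k)

theorem S_eq (D : Dat k b g) {s : ℝ} (hs : s ∈ Icc 0 b) :
    (∫ t in s..b, t * g t ^ k) - s * (∫ t in s..b, g t ^ k) = ∫ t in s..b, (t - s) * g t ^ k := by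
  rw [← intervalIntegral.integral_const_mul, ← intervalIntegral.integral_sub (sub_ii (D.ii1 k) hs)
    ((sub_ii (D.ii k) hs).const_mul _)]
  congr 1
  ext t
  ring

theorem S_nonneg (D : Dat k b g) {s : ℝ} (hs : s ∈ Icc 0 b) :
    0 ≤ (∫ t in s..b, t * g t ^ k) - s * (∫ t in s..b, g t ^ k) := by
  rw [D.S_eq hs]
  refine intervalIntegral.integral_nonneg hs.2 fun t ht => ?_
  exact mul_nonneg (sub_nonneg.2 ht.1) (pow_nonneg (D.nn t ⟨hs.1.trans ht.1, ht.2⟩) k)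

theorem S_le (D : Dat k b g) {s : ℝ} (hs : s ∈ Icc 0 b) :
    (∫ t in s..b, t * g t ^ k) - s * (∫ t in s..b, g t ^ k) ≤ (b - s) * ∫ t in s..b, g t ^ k := by
  rw [D.S_eq hs, ← intervalIntegral.integral_const_mul]
  refine intervalIntegral.integral_mono_on hs.2 ?_ ((sub_ii (D.ii _) hs).const_mul _) ?_
  · exact (sub_ii (D.ii k) hs).continuousOn_mul (by fun_prop)
  · intro t ht
    exact mul_le_mul_of_nonneg_right (by linarith [ht.2]) (pow_nonneg (D.nn t ⟨hs.1.trans ht.1, ht.2⟩) k)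

theorem hM (D : Dat k b g) (j : ℕ) {s : ℝ} (hs : s ∈ Ioo 0 b) :
    HasDerivAt (fun u => ∫ t in u..b, g t ^ j) (-g s ^ j) s :=
  tail_deriv (D.ii j) (D.contg.pow j) hs

theorem hA1 (D : Dat k b g) {s : ℝ} (hs : s ∈ Ioo 0 b) :
    HasDerivAt (fun u => ∫ t in u..b, t * g t ^ k) (-(s * g s ^ k)) s :=
  tail_deriv (D.ii1 k) (continuousOn_id.mul (D.contg.pow k)) hs

theorem hA2 (D : Dat k b g) {s : ℝ} (hs : s ∈ Ioo 0 b) :
    HasDerivAt (fun u => ∫ t in u..b, t ^ 2 * g t ^ k) (-(s ^ 2 * g s ^ k)) s :=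
  tail_deriv (D.ii2 k) ((continuousOn_id.pow 2).mul (D.contg.pow k)) hs

theorem tendsto_tail {φ : ℝ → ℝ} (hb : 0 < b) (hi : IntervalIntegrable φ volume 0 b) :
    Tendsto (fun u => ∫ t in u..b, φ t) (𝓝[<] b) (𝓝 0) := by
  have h := (tail_cont hb.le hi) b ⟨hb.le, le_rfl⟩
  have h2 : Tendsto (fun u => ∫ t in u..b, φ t) (𝓝[Icc 0 b] b) (𝓝 0) := by
    have := h
    simp only [ContinuousWithinAt, intervalIntegral.integral_same] at this
    exact this
  refine h2.mono_left ?_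
  have : 𝓝[<] b = 𝓝[Ioo 0 b] b := (nhdsWithin_Ioo_eq_nhdsLT hb).symm
  rw [this]
  exact nhdsWithin_mono _ Ioo_subset_Icc_self

/-- (G) -/
theorem ineqG (D : Dat k b g) {s : ℝ} (hs : s ∈ Ioo 0 b) :
    (k + 1) * g s ^ 2 * (∫ t in s..b, g t ^ k) ≤ (k + 3) * ∫ t in s..b, g t ^ (k + 2) := by
  set F : ℝ → ℝ := fun u => (k + 3) * (∫ t in u..b, g t ^ (k + 2)) -
    (k + 1) * (g u ^ 2 * ∫ t in u..b, g t ^ k) with hF
  have key : ∀ c ∈ Ioo s b, F c ≤ F s := by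
    intro c hc
    have hsub : Icc s c ⊆ Ioo 0 b := fun x hx => ⟨hs.1.trans_le hx.1, hx.2.trans_lt hc.2⟩
    refine right_anti (F' := fun x => (k + 3) * (-g x ^ (k + 2)) -
      (k + 1) * ((2 * g x ^ (2 - 1) * (-l g x)) * (∫ t in x..b, g t ^ k) + g x ^ 2 * (-g x ^ k)))
      hc.1.le ?_ ?_ ?_
    · have h1 : ContinuousOn (fun u => ∫ t in u..b, g t ^ (k + 2)) (Icc s c) :=
        (tail_cont D.hb.le (D.ii (k + 2))).mono (hsub.trans Ioo_subset_Icc_self)
      have h2 : ContinuousOn (fun u => ∫ t in u..b, g t ^ k) (Icc s c) :=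
        (tail_cont D.hb.le (D.ii k)).mono (hsub.trans Ioo_subset_Icc_self)
      have h3 : ContinuousOn g (Icc s c) := D.contg.mono hsub
      exact (h1.const_mul _).sub ((((h3.pow 2)).mul h2).const_mul _)
    · intro x hx
      have hx' := hsub ⟨hx.1, hx.2.le⟩
      have h1 := ((D.hM (k + 2) hx').hasDerivWithinAt (s := Ici x)).const_mul ((k : ℝ) + 3)
      have h2 := ((((D.hg hx').pow 2).mul ((D.hM k hx').hasDerivWithinAt (s := Ici x)))).const_mul ((k : ℝ) + 1)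
      have h3 : HasDerivWithinAt F _ (Ici x) x := h1.sub h2
      refine h3.congr_deriv ?_
      push_cast
      simp only [Pi.pow_apply]
    · intro x hx
      have hx' := hsub ⟨hx.1, hx.2.le⟩
      have hL := D.ineqL hx'
      have hgp := D.pos x ⟨hx'.1.le, hx'.2⟩
      have h5 : (2 : ℝ) * g x * ((k + 1) * l g x * ∫ t in x..b, g t ^ k) ≤ 2 * g x * g x ^ (k + 1) :=
        mul_le_mul_of_nonneg_left hL (by positivity)
      have e1 : g x ^ (k + 2) = g x * g x ^ (k + 1) := by ring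
      have e2 : g x ^ 2 * g x ^ k = g x * g x ^ (k + 1) := by ring
      simp only [show (2 : ℕ) - 1 = 1 from rfl, pow_one]
      have : (k + 3) * (-g x ^ (k + 2)) -
          (k + 1) * (2 * g x * (-l g x) * (∫ t in x..b, g t ^ k) + g x ^ 2 * (-g x ^ k)) =
          2 * g x * ((k + 1) * l g x * ∫ t in x..b, g t ^ k) - 2 * (g x * g x ^ (k + 1)) := by
        rw [e1, mul_neg (g x ^ 2), e2]
        ring
      rw [this]
      linarith
  have hlow : ∀ c ∈ Ioo s b, -((k + 1) * (g 0 ^ 2 * ∫ t in c..b, g t ^ k)) ≤ F s := by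
    intro c hc
    refine le_trans ?_ (key c hc)
    have hc0 : c ∈ Ico 0 b := ⟨(hs.1.trans hc.1).le, hc.2⟩
    have h1 := D.M_pos hc0 k
    have h2 := D.M_pos hc0 (k + 2)
    have h3 : g c ^ 2 ≤ g 0 ^ 2 := D.antipow 2 ⟨le_rfl, D.hb.le⟩ ⟨hc0.1, hc0.2.le⟩ hc0.1
    have h4 : g c ^ 2 * (∫ t in c..b, g t ^ k) ≤ g 0 ^ 2 * ∫ t in c..b, g t ^ k :=
      mul_le_mul_of_nonneg_right h3 h1.le
    have h5 : (0 : ℝ) ≤ (k : ℝ) + 1 := by positivity
    have h6 := mul_le_mul_of_nonneg_left h4 h5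
    have h7 : 0 ≤ ((k : ℝ) + 3) * ∫ t in c..b, g t ^ (k + 2) := by positivity
    simp only [hF]
    linarith
  have hlim : Tendsto (fun c => -(((k : ℝ) + 1) * (g 0 ^ 2 * ∫ t in c..b, g t ^ k))) (𝓝[<] b) (𝓝 0) := by
    have := (((tendsto_tail D.hb (D.ii k)).const_mul (g 0 ^ 2)).const_mul ((k : ℝ) + 1)).neg
    simpa using this
  have hfin : 0 ≤ F s := by
    refine le_of_tendsto hlim ?_
    filter_upwards [Ioo_mem_nhdsLT hs.2] with c hc using hlow c hc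
  simp only [hF] at hfin
  linarith

theorem hS (D : Dat k b g) {s : ℝ} (hs : s ∈ Ioo 0 b) :
    HasDerivAt (fun u => (∫ t in u..b, t * g t ^ k) - u * ∫ t in u..b, g t ^ k)
      (-∫ t in s..b, g t ^ k) s := by
  have h := (D.hA1 hs).sub ((hasDerivAt_id s).mul (D.hM k hs))
  have h' : HasDerivAt (fun u => (∫ t in u..b, t * g t ^ k) - u * ∫ t in u..b, g t ^ k) _ s := h
  refine h'.congr_deriv ?_
  simp only [id_eq]
  ring

theorem hv (D : Dat k b g) {s : ℝ} (hs : s ∈ Ioo 0 b) :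
    HasDerivWithinAt (fun u => (g u)⁻¹) (l g s * (g s)⁻¹ ^ 2) (Ici s) s := by
  have h : HasDerivWithinAt (fun u => (g u)⁻¹) _ (Ici s) s := (D.hg hs).inv (D.pos s ⟨hs.1.le, hs.2⟩).ne'
  refine h.congr_deriv ?_
  rw [neg_neg, inv_pow, div_eq_mul_inv]

/-- (Q) -/
theorem ineqQ (D : Dat k b g) {s : ℝ} (hs : s ∈ Ioo 0 b) :
    0 ≤ (k + 1) * (k + 4) * ((∫ t in s..b, g t ^ k) ^ 2 * (g s)⁻¹ ^ k) -
      4 * (k + 2) * ((∫ t in s..b, t * g t ^ k) - s * ∫ t in s..b, g t ^ k) -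
      k * (k + 3) * ((∫ t in s..b, g t ^ k) * (∫ t in s..b, g t ^ (k + 2)) * (g s)⁻¹ ^ (k + 2)) := by
  set F : ℝ → ℝ := fun u => (k + 1) * (k + 4) * ((∫ t in u..b, g t ^ k) ^ 2 * (g u)⁻¹ ^ k) -
      4 * (k + 2) * ((∫ t in u..b, t * g t ^ k) - u * ∫ t in u..b, g t ^ k) -
      k * (k + 3) * ((∫ t in u..b, g t ^ k) * (∫ t in u..b, g t ^ (k + 2)) * (g u)⁻¹ ^ (k + 2)) with hF
  have key : ∀ c ∈ Ioo s b, F c ≤ F s := by
    intro c hc
    have hsub : Icc s c ⊆ Ioo 0 b := fun x hx => ⟨hs.1.trans_le hx.1, hx.2.trans_lt hc.2⟩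
    refine right_anti (F' := fun x => (k + 1) * (k + 4) *
        ((2 * (∫ t in x..b, g t ^ k) ^ (2 - 1) * (-g x ^ k)) * (g x)⁻¹ ^ k +
          (∫ t in x..b, g t ^ k) ^ 2 * (k * (g x)⁻¹ ^ (k - 1) * (l g x * (g x)⁻¹ ^ 2))) -
        4 * (k + 2) * (-∫ t in x..b, g t ^ k) -
        k * (k + 3) * (((-g x ^ k) * (∫ t in x..b, g t ^ (k + 2)) +
          (∫ t in x..b, g t ^ k) * (-g x ^ (k + 2))) * (g x)⁻¹ ^ (k + 2) +
          ((∫ t in x..b, g t ^ k) * (∫ t in x..b, g t ^ (k + 2))) *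
            ((k + 2 : ℕ) * (g x)⁻¹ ^ (k + 2 - 1) * (l g x * (g x)⁻¹ ^ 2))))
      hc.1.le ?_ ?_ ?_
    · have h1 : ContinuousOn (fun u => ∫ t in u..b, g t ^ (k + 2)) (Icc s c) :=
        (tail_cont D.hb.le (D.ii (k + 2))).mono (hsub.trans Ioo_subset_Icc_self)
      have h2 : ContinuousOn (fun u => ∫ t in u..b, g t ^ k) (Icc s c) :=
        (tail_cont D.hb.le (D.ii k)).mono (hsub.trans Ioo_subset_Icc_self)
      have h2' : ContinuousOn (fun u => ∫ t in u..b, t * g t ^ k) (Icc s c) :=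
        (tail_cont D.hb.le (D.ii1 k)).mono (hsub.trans Ioo_subset_Icc_self)
      have h3 : ContinuousOn (fun u => (g u)⁻¹) (Icc s c) :=
        (D.contg.mono hsub).inv₀ fun x hx => (D.pos x ⟨(hsub hx).1.le, (hsub hx).2⟩).ne'
      exact ((((h2.pow 2).mul (h3.pow k)).const_mul _).sub
        ((h2'.sub (continuousOn_id.mul h2)).const_mul _)).sub
        (((h2.mul h1).mul (h3.pow (k + 2))).const_mul _)
    · intro x hx
      have hx' := hsub ⟨hx.1, hx.2.le⟩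
      have hM := (D.hM k hx').hasDerivWithinAt (s := Ici x)
      have hP := (D.hM (k + 2) hx').hasDerivWithinAt (s := Ici x)
      have hS := (D.hS hx').hasDerivWithinAt (s := Ici x)
      have hv := D.hv hx'
      have h3 : HasDerivWithinAt F _ (Ici x) x :=
        ((((hM.pow 2).mul (hv.pow k)).const_mul (((k : ℝ) + 1) * (k + 4))).sub
          (hS.const_mul (4 * ((k : ℝ) + 2)))).sub
          (((hM.mul hP).mul (hv.pow (k + 2))).const_mul ((k : ℝ) * (k + 3)))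
      refine h3.congr_deriv ?_
      simp only [Pi.pow_apply, Pi.mul_apply]
      push_cast
      ring
    · intro x hx
      have hx' := hsub ⟨hx.1, hx.2.le⟩
      have hx0 : x ∈ Ico 0 b := ⟨hx'.1.le, hx'.2⟩
      have hL := D.ineqL hx'
      have hG := D.ineqG hx'
      have hPl := D.P_le hx0
      have hG0 := D.pos x hx0
      have hl := D.l_nonneg hx'
      have hM0 := D.M_pos hx0 k
      set G := g x
      set M := ∫ t in x..b, g t ^ k
      set P := ∫ t in x..b, g t ^ (k + 2)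
      set v := G⁻¹ with hv
      set lam := l g x
      have hv0 : 0 < v := inv_pos.2 hG0
      have hGv : G * v = 1 := mul_inv_cancel₀ hG0.ne'
      have e0 : ∀ j : ℕ, G ^ j * v ^ j = 1 := fun j => by rw [← mul_pow, hGv, one_pow]
      obtain ⟨m, rfl⟩ : ∃ m, k = m + 1 := ⟨k - 1, by have := D.hk; omega⟩
      simp only [show (2 : ℕ) - 1 = 1 from rfl, pow_one, Nat.add_sub_cancel,
        show m + 1 + 2 - 1 = m + 2 from rfl]
      push_cast at hL hG ⊢
      -- normalised quantities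
      have q1 : (m + 1 + 1) * (lam * M * v ^ (m + 2)) ≤ 1 := by
        have := mul_le_mul_of_nonneg_right hL (pow_nonneg hv0.le (m + 2))
        rw [show m + 1 + 1 = m + 2 from rfl, e0] at this
        calc _ = (m + 1 + 1) * lam * M * v ^ (m + 2) := by ring
          _ ≤ _ := this
      have q2 : P * v ^ 2 ≤ M := by
        have := mul_le_mul_of_nonneg_right hPl (pow_nonneg hv0.le 2)
        calc _ ≤ _ := this
          _ = G ^ 2 * v ^ 2 * M := by ring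
          _ = M := by rw [e0, one_mul]
      have q3 : (m + 1 + 1) * M ≤ (m + 1 + 3) * (P * v ^ 2) := by
        have := mul_le_mul_of_nonneg_right hG (pow_nonneg hv0.le 2)
        calc (m + 1 + 1) * M = (m + 1 + 1) * (G ^ 2 * v ^ 2) * M := by rw [e0, mul_one]
          _ = (m + 1 + 1) * G ^ 2 * M * v ^ 2 := by ring
          _ ≤ _ := this
          _ = _ := by ring
      have q4 : 0 ≤ lam * M * v ^ (m + 2) := by positivity
      have eq : ∀ (a1 a2 a3 : ℝ), a1 = G ^ (m + 1) * v ^ (m + 1) → a2 = G ^ (m + 3) * v ^ (m + 3) → a1 = 1 → a2 = 1 →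
        ((m : ℝ) + 1 + 1) * (m + 1 + 4) *
        (2 * M * -G ^ (m + 1) * v ^ (m + 1) +
          M ^ 2 * ((m + 1) * v ^ m * (lam * v ^ 2))) -
        4 * (m + 1 + 2) * -M -
        (m + 1) * (m + 1 + 3) * ((-G ^ (m + 1) * P + M * -G ^ (m + 1 + 2)) * v ^ (m + 1 + 2) +
          M * P * ((m + 1 + 2) * v ^ (m + 2) * (lam * v ^ 2))) =
        -((m + 1) * (m + 1 + 3) * ((M - P * v ^ 2) * (1 - (m + 1 + 1) * (lam * M * v ^ (m + 2))))) -
          (m + 1) * (lam * M * v ^ (m + 2)) * ((m + 1 + 3) * (P * v ^ 2) - (m + 1 + 1) * M) := by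
        intro a1 a2 a3 h1 h2 h3 h4
        have f1 : 2 * M * -G ^ (m + 1) * v ^ (m + 1) = -2 * M := by
          calc _ = -2 * M * (G ^ (m + 1) * v ^ (m + 1)) := by ring
            _ = _ := by rw [e0, mul_one]
        have f2 : (-G ^ (m + 1) * P + M * -G ^ (m + 1 + 2)) * v ^ (m + 1 + 2) = -(P * v ^ 2) - M := by
          calc _ = -(P * v ^ 2) * (G ^ (m + 1) * v ^ (m + 1)) - M * (G ^ (m + 1 + 2) * v ^ (m + 1 + 2)) := by ring
            _ = _ := by rw [e0, e0, mul_one, mul_one]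
        rw [f1, f2]
        ring
      have eq' := eq 1 1 1 (e0 (m + 1)).symm (e0 (m + 3)).symm rfl rfl
      have hD : ((m : ℝ) + 1 + 1) * (m + 1 + 4) *
        (2 * M * -G ^ (m + 1) * v ^ (m + 1) +
          M ^ 2 * ((m + 1) * v ^ m * (lam * v ^ 2))) -
        4 * (m + 1 + 2) * -M -
        (m + 1) * (m + 1 + 3) * ((-G ^ (m + 1) * P + M * -G ^ (m + 1 + 2)) * v ^ (m + 1 + 2) +
          M * P * ((m + 1 + 2) * v ^ (m + 2) * (lam * v ^ 2))) ≤ 0 := by
        rw [eq']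
        have r1 : 0 ≤ ((m : ℝ) + 1) * (m + 1 + 3) * ((M - P * v ^ 2) * (1 - (m + 1 + 1) * (lam * M * v ^ (m + 2)))) :=
          mul_nonneg (by positivity) (mul_nonneg (sub_nonneg.2 q2) (sub_nonneg.2 q1))
        have r2 : 0 ≤ ((m : ℝ) + 1) * (lam * M * v ^ (m + 2)) * ((m + 1 + 3) * (P * v ^ 2) - (m + 1 + 1) * M) :=
          mul_nonneg (mul_nonneg (by positivity) q4) (sub_nonneg.2 q3)
        linarith
      exact hD
  have hlow : ∀ c ∈ Ioo s b, -((4 * (k + 2) * b + k * (k + 3) * b) * ∫ t in c..b, g t ^ k) ≤ F s := by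
    intro c hc
    refine le_trans ?_ (key c hc)
    have hc0 : c ∈ Ico 0 b := ⟨(hs.1.trans hc.1).le, hc.2⟩
    have hM0 := D.M_pos hc0 k
    have hMl := D.M_le hc0 k
    have hPl := D.P_le hc0
    have hSl := D.S_le ⟨hc0.1, hc0.2.le⟩
    have hG0 := D.pos c hc0
    simp only [hF]
    set G := g c
    set M := ∫ t in c..b, g t ^ k
    set P := ∫ t in c..b, g t ^ (k + 2)
    set S := (∫ t in c..b, t * g t ^ k) - c * M
    set v := G⁻¹ with hv
    have hv0 : 0 < v := inv_pos.2 hG0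
    have hGv : G * v = 1 := mul_inv_cancel₀ hG0.ne'
    have e0 : ∀ j : ℕ, G ^ j * v ^ j = 1 := fun j => by rw [← mul_pow, hGv, one_pow]
    have r1 : M * v ^ k ≤ b - c := by
      have := mul_le_mul_of_nonneg_right hMl (pow_nonneg hv0.le k)
      calc _ ≤ _ := this
        _ = (G ^ k * v ^ k) * (b - c) := by ring
        _ = _ := by rw [e0, one_mul]
    have r2 : P * v ^ (k + 2) ≤ b - c := by
      have := mul_le_mul_of_nonneg_right hPl (pow_nonneg hv0.le (k + 2))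
      calc _ ≤ _ := this
        _ = (G ^ 2 * v ^ 2) * (M * v ^ k) := by ring
        _ ≤ _ := by rw [e0, one_mul]; exact r1
    have r3 : M * P * v ^ (k + 2) ≤ b * M := by
      calc _ = M * (P * v ^ (k + 2)) := by ring
        _ ≤ M * b := mul_le_mul_of_nonneg_left (r2.trans (by linarith [hc0.1])) hM0.le
        _ = _ := by ring
    have r4 : S ≤ b * M := hSl.trans (mul_le_mul_of_nonneg_right (by linarith [hc0.1]) hM0.le)
    have r5 : 0 ≤ ((k : ℝ) + 1) * (k + 4) * (M ^ 2 * v ^ k) := by positivity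
    have r6 : 4 * ((k : ℝ) + 2) * S ≤ 4 * (k + 2) * (b * M) := mul_le_mul_of_nonneg_left r4 (by positivity)
    have r7 : (k : ℝ) * (k + 3) * (M * P * v ^ (k + 2)) ≤ k * (k + 3) * (b * M) :=
      mul_le_mul_of_nonneg_left r3 (by positivity)
    linarith
  have hlim : Tendsto (fun c => -((4 * ((k : ℝ) + 2) * b + k * (k + 3) * b) * ∫ t in c..b, g t ^ k))
      (𝓝[<] b) (𝓝 0) := by
    have := ((tendsto_tail D.hb (D.ii k)).const_mul (4 * ((k : ℝ) + 2) * b + k * (k + 3) * b)).neg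
    simpa using this
  have hfin : 0 ≤ F s := by
    refine le_of_tendsto hlim ?_
    filter_upwards [Ioo_mem_nhdsLT hs.2] with c hc using hlow c hc
  exact hfin

end Dat

/-- the elementary inequality -/
theorem elemJ (k : ℕ) (hk : 1 ≤ k) {h : ℝ} (h0 : 0 ≤ h) (h1 : (k : ℝ) * h ≤ 4) :
    (1 - k * h / 4) ^ 2 * (1 + h) ^ (k + 1) ≤ 1 + (k + 1) * h := by
  set R : ℝ → ℝ := fun x => (1 - k * x / 4) ^ 2 * (1 + x) ^ (k + 1) * (1 + (k + 1) * x)⁻¹ with hR
  have hk' : (1 : ℝ) ≤ k := by exact_mod_cast hk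
  have key : R h ≤ R 0 := by
    refine right_anti (F' := fun x =>
      ((2 * (1 - k * x / 4) ^ (2 - 1) * (-(k / 4)) * (1 + x) ^ (k + 1) +
        (1 - k * x / 4) ^ 2 * ((k + 1 : ℕ) * (1 + x) ^ (k + 1 - 1) * 1)) * (1 + (k + 1) * x)⁻¹ +
        (1 - k * x / 4) ^ 2 * (1 + x) ^ (k + 1) * (-(k + 1) / (1 + (k + 1) * x) ^ 2))) h0 ?_ ?_ ?_
    · have h3 : ContinuousOn (fun x : ℝ => (1 + ((k : ℝ) + 1) * x)⁻¹) (Icc 0 h) :=
        ContinuousOn.inv₀ (by fun_prop) fun x hx => by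
          have := hx.1
          positivity
      have h4 : ContinuousOn (fun x : ℝ => (1 - (k : ℝ) * x / 4) ^ 2 * (1 + x) ^ (k + 1)) (Icc 0 h) := by
        fun_prop
      exact h4.mul h3
    · intro x hx
      have hx0 := hx.1
      have hne : (1 + ((k : ℝ) + 1) * x) ≠ 0 := by positivity
      have a1 : HasDerivAt (fun x : ℝ => 1 - (k : ℝ) * x / 4) (-((k : ℝ) / 4)) x := by
        have := (((hasDerivAt_id x).const_mul (k : ℝ)).div_const 4).const_sub 1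
        simpa using this
      have a2 : HasDerivAt (fun x : ℝ => 1 + x) 1 x := (hasDerivAt_id x).const_add 1
      have a3 : HasDerivAt (fun x : ℝ => 1 + ((k : ℝ) + 1) * x) ((k : ℝ) + 1) x := by
        have := ((hasDerivAt_id x).const_mul ((k : ℝ) + 1)).const_add 1
        simpa using this
      have a4 : HasDerivAt R _ x := ((a1.pow 2).mul (a2.pow (k + 1))).mul (a3.inv hne)
      refine (a4.congr_deriv ?_).hasDerivWithinAt
      simp only [Pi.pow_apply, Pi.mul_apply]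
      push_cast
      ring
    · intro x hx
      have hx0 := hx.1
      have hkx : (k : ℝ) * x ≤ 4 := (mul_le_mul_of_nonneg_left hx.2.le (by positivity)).trans h1
      have hq : 0 < 1 + ((k : ℝ) + 1) * x := by positivity
      have hne := hq.ne'
      simp only [show (2 : ℕ) - 1 = 1 from rfl, pow_one, Nat.add_sub_cancel, mul_one]
      push_cast
      have e : (2 * (1 - (k : ℝ) * x / 4) * (-(k / 4)) * (1 + x) ^ (k + 1) +
        (1 - k * x / 4) ^ 2 * ((k + 1) * (1 + x) ^ k)) * (1 + (k + 1) * x)⁻¹ +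
        (1 - k * x / 4) ^ 2 * (1 + x) ^ (k + 1) * (-(k + 1) / (1 + (k + 1) * x) ^ 2) =
        -((k / 2 * (1 - k * x / 4) * (1 + x) ^ k *
          (1 - k * x + (k + 1) * (k + 2) / 2 * x ^ 2)) / (1 + (k + 1) * x) ^ 2) := by
        field_simp
        ring
      rw [e]
      have q1 : 0 ≤ 1 - (k : ℝ) * x / 4 := by linarith
      have q2 : 0 ≤ 1 - (k : ℝ) * x + (k + 1) * (k + 2) / 2 * x ^ 2 := by
        have : 1 - (k : ℝ) * x + (k + 1) * (k + 2) / 2 * x ^ 2 =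
          (1 - k * x / 2) ^ 2 + ((k ^ 2 + 6 * k + 4) / 4) * x ^ 2 := by ring
        rw [this]
        positivity
      have : 0 ≤ (k / 2 * (1 - k * x / 4) * (1 + x) ^ k *
          (1 - k * x + (k + 1) * (k + 2) / 2 * x ^ 2)) / (1 + (k + 1) * x) ^ 2 := by positivity
      linarith
  have hq : 0 < 1 + ((k : ℝ) + 1) * h := by positivity
  simp only [hR, mul_zero, zero_div, sub_zero, add_zero, one_pow, inv_one, mul_one] at key
  rwa [← div_eq_mul_inv, div_le_one hq] at key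

/-- (iii) -/
theorem alg3 (k : ℕ) (hk : 1 ≤ k) {G M P S : ℝ} (hG : 0 < G) (hM : 0 < M) (_hP : 0 < P) (hS : 0 ≤ S)
    (h1 : (k + 1) * G ^ 2 * M ≤ (k + 3) * P)
    (h2 : 0 ≤ (k + 1) * (k + 4) * (M ^ 2 * G⁻¹ ^ k) - 4 * (k + 2) * S -
      k * (k + 3) * (M * P * G⁻¹ ^ (k + 2))) :
    (S * M⁻¹) ^ 2 * P ^ (k + 1) ≤ kap k * M ^ (k + 2) * ((k + 3) * P - k * G ^ 2 * M) := by
  have hk1 : (0 : ℝ) < (k : ℝ) + 1 := by positivity
  have hk2 : (0 : ℝ) < (k : ℝ) + 2 := by positivity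
  have hk3 : (0 : ℝ) < (k : ℝ) + 3 := by positivity
  set h : ℝ := (k + 3) * P / ((k + 1) * M * G ^ 2) - 1 with hh
  set β : ℝ := (k + 2) * S * G ^ k / ((k + 1) * M ^ 2) with hβ
  have hh0 : 0 ≤ h := by
    rw [hh, sub_nonneg, one_le_div (by positivity)]
    linarith
  have hβ0 : 0 ≤ β := by positivity
  have hPe : P = (k + 1) * M * G ^ 2 / (k + 3) * (1 + h) := by
    rw [hh]
    field_simp
    ring
  have hSe : S = β * ((k + 1) * M ^ 2) / ((k + 2) * G ^ k) := by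
    rw [hβ]
    field_simp
  have hQ : 4 * β + k * (1 + h) ≤ k + 4 := by
    have e : ((k : ℝ) + 1) * (k + 4) * (M ^ 2 * G⁻¹ ^ k) - 4 * (k + 2) * S -
      k * (k + 3) * (M * P * G⁻¹ ^ (k + 2)) =
      ((k + 1) * M ^ 2 / G ^ k) * ((k + 4) - 4 * β - k * (1 + h)) := by
      rw [hβ, hh, inv_pow, inv_pow]
      field_simp
      ring
    rw [e] at h2
    have h3 : 0 ≤ ((k : ℝ) + 4) - 4 * β - k * (1 + h) :=
      nonneg_of_mul_nonneg_right h2 (by positivity)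
    linarith
  have hkh : (k : ℝ) * h ≤ 4 := by linarith
  have hel := elemJ k hk hh0 hkh
  have hβle : β ≤ 1 - k * h / 4 := by linarith
  have hβ2 : β ^ 2 * (1 + h) ^ (k + 1) ≤ 1 + (k + 1) * h := by
    refine le_trans (mul_le_mul_of_nonneg_right (pow_le_pow_left₀ hβ0 hβle 2) (by positivity)) hel
  have e1 : (S * M⁻¹) ^ 2 * P ^ (k + 1) = (kap k * M ^ (k + 2) * (M * G ^ 2)) * (β ^ 2 * (1 + h) ^ (k + 1)) := by
    have e2 : (S * M⁻¹) ^ 2 = β ^ 2 * (k + 1) ^ 2 * M ^ 2 / ((k + 2) ^ 2 * (G ^ k) ^ 2) := by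
      rw [hSe]
      field_simp
    have e3 : P ^ (k + 1) = (k + 1) ^ (k + 1) * M ^ (k + 1) * (G ^ 2) ^ (k + 1) / (k + 3) ^ (k + 1) * (1 + h) ^ (k + 1) := by
      conv_lhs => rw [hPe]
      rw [mul_pow, div_pow, mul_pow, mul_pow]
    rw [e2, e3, kap]
    have e4 : (G ^ 2) ^ (k + 1) = (G ^ k) ^ 2 * G ^ 2 := by ring
    rw [e4]
    field_simp
    ring
  have e5 : ((k : ℝ) + 3) * P - k * G ^ 2 * M = M * G ^ 2 * (1 + (k + 1) * h) := by
    rw [hPe]
    field_simp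
    ring
  rw [e1, e5]
  have hkap : 0 < kap k := by
    rw [kap]
    positivity
  calc _ ≤ (kap k * M ^ (k + 2) * (M * G ^ 2)) * (1 + (k + 1) * h) :=
        mul_le_mul_of_nonneg_left hβ2 (by positivity)
    _ = _ := by ring

namespace Dat

variable {k : ℕ} {b : ℝ} {g : ℝ → ℝ}

theorem hinv {f : ℝ → ℝ} {f' x : ℝ} (h : HasDerivAt f f' x) (hx : f x ≠ 0) :
    HasDerivAt (fun u => (f u)⁻¹) (-f' * (f x)⁻¹ ^ 2) x := by
  have h' : HasDerivAt (fun u => (f u)⁻¹) _ x := h.inv hx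
  refine h'.congr_deriv ?_
  rw [inv_pow, div_eq_mul_inv]

/-- (iv) on the open interval -/
theorem open_ineq (D : Dat k b g) {s : ℝ} (hs : s ∈ Ioo 0 b) :
    ((∫ t in s..b, g t ^ k) * (∫ t in s..b, t ^ 2 * g t ^ k) -
        (∫ t in s..b, t * g t ^ k) ^ 2) * (∫ t in s..b, g t ^ (k + 2)) ^ k ≤
      kap k * (∫ t in s..b, g t ^ k) ^ (k + 4) := by
  have hkap : 0 < kap k := by
    rw [kap]
    positivity
  set F : ℝ → ℝ := fun u => kap k * ((∫ t in u..b, g t ^ k) ^ (k + 3) * (∫ t in u..b, g t ^ (k + 2))⁻¹ ^ k) -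
    ((∫ t in u..b, t ^ 2 * g t ^ k) - (∫ t in u..b, t * g t ^ k) ^ 2 * (∫ t in u..b, g t ^ k)⁻¹) with hF
  have key : ∀ c ∈ Ioo s b, F c ≤ F s := by
    intro c hc
    have hsub : Icc s c ⊆ Ioo 0 b := fun x hx => ⟨hs.1.trans_le hx.1, hx.2.trans_lt hc.2⟩
    have hder : ∀ x ∈ Icc s c, HasDerivAt F (kap k *
        (((k + 3 : ℕ) * (∫ t in x..b, g t ^ k) ^ (k + 3 - 1) * (-g x ^ k)) * (∫ t in x..b, g t ^ (k + 2))⁻¹ ^ k +
          (∫ t in x..b, g t ^ k) ^ (k + 3) * (k * (∫ t in x..b, g t ^ (k + 2))⁻¹ ^ (k - 1) *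
            (-(-g x ^ (k + 2)) * (∫ t in x..b, g t ^ (k + 2))⁻¹ ^ 2))) -
        (-(x ^ 2 * g x ^ k) - ((2 * (∫ t in x..b, t * g t ^ k) ^ (2 - 1) * (-(x * g x ^ k))) *
          (∫ t in x..b, g t ^ k)⁻¹ + (∫ t in x..b, t * g t ^ k) ^ 2 *
            (-(-g x ^ k) * (∫ t in x..b, g t ^ k)⁻¹ ^ 2)))) x := by
      intro x hx
      have hx' := hsub hx
      have hx0 : x ∈ Ico 0 b := ⟨hx'.1.le, hx'.2⟩
      have hM := D.hM k hx'
      have hP := D.hM (k + 2) hx'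
      have hA1 := D.hA1 hx'
      have hA2 := D.hA2 hx'
      have hz := hinv hM (D.M_pos hx0 k).ne'
      have hw := hinv hP (D.M_pos hx0 (k + 2)).ne'
      have h3 : HasDerivAt F _ x := (((hM.pow (k + 3)).mul (hw.pow k)).const_mul (kap k)).sub
        (hA2.sub ((hA1.pow 2).mul hz))
      refine h3.congr_deriv ?_
      simp only [Pi.pow_apply, Pi.mul_apply]
      push_cast
      ring
    refine right_anti (F' := fun x => kap k *
        (((k + 3 : ℕ) * (∫ t in x..b, g t ^ k) ^ (k + 3 - 1) * (-g x ^ k)) * (∫ t in x..b, g t ^ (k + 2))⁻¹ ^ k +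
          (∫ t in x..b, g t ^ k) ^ (k + 3) * (k * (∫ t in x..b, g t ^ (k + 2))⁻¹ ^ (k - 1) *
            (-(-g x ^ (k + 2)) * (∫ t in x..b, g t ^ (k + 2))⁻¹ ^ 2))) -
        (-(x ^ 2 * g x ^ k) - ((2 * (∫ t in x..b, t * g t ^ k) ^ (2 - 1) * (-(x * g x ^ k))) *
          (∫ t in x..b, g t ^ k)⁻¹ + (∫ t in x..b, t * g t ^ k) ^ 2 *
            (-(-g x ^ k) * (∫ t in x..b, g t ^ k)⁻¹ ^ 2))))
      hc.1.le (fun x hx => (hder x hx).continuousAt.continuousWithinAt)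
      (fun x hx => (hder x ⟨hx.1, hx.2.le⟩).hasDerivWithinAt) ?_
    intro x hx
    have hx' := hsub ⟨hx.1, hx.2.le⟩
    have hx0 : x ∈ Ico 0 b := ⟨hx'.1.le, hx'.2⟩
    have hGi := D.ineqG hx'
    have hQi := D.ineqQ hx'
    have hG0 := D.pos x hx0
    have hM0 := D.M_pos hx0 k
    have hP0 := D.M_pos hx0 (k + 2)
    have hS0 := D.S_nonneg ⟨hx0.1, hx0.2.le⟩
    have h3 := alg3 k D.hk hG0 hM0 hP0 hS0 hGi hQi
    generalize (∫ t in x..b, g t ^ k) = M at *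
    generalize (∫ t in x..b, g t ^ (k + 2)) = P at *
    generalize (∫ t in x..b, t * g t ^ k) = A at *
    generalize g x = G at *
    obtain ⟨m, rfl⟩ : ∃ m, k = m + 1 := ⟨k - 1, by have := D.hk; omega⟩
    simp only [show (2 : ℕ) - 1 = 1 from rfl, pow_one, Nat.add_sub_cancel,
        show m + 1 + 3 - 1 = m + 3 from rfl]
    push_cast at h3 ⊢
    have e : kap (m + 1) * (((m : ℝ) + 1 + 3) * M ^ (m + 3) * (-G ^ (m + 1)) * P⁻¹ ^ (m + 1) +
          M ^ (m + 1 + 3) * ((m + 1) * P⁻¹ ^ m * (-(-G ^ (m + 1 + 2)) * P⁻¹ ^ 2))) -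
        (-(x ^ 2 * G ^ (m + 1)) - ((2 * A * (-(x * G ^ (m + 1)))) * M⁻¹ + A ^ 2 *
            (-(-G ^ (m + 1)) * M⁻¹ ^ 2))) =
        G ^ (m + 1) * P⁻¹ ^ (m + 2) * (((A - x * M) * M⁻¹) ^ 2 * P ^ (m + 1 + 1) -
          kap (m + 1) * M ^ (m + 1 + 2) * ((m + 1 + 3) * P - (m + 1) * G ^ 2 * M)) := by
      have f1 : ((A - x * M) * M⁻¹) = A * M⁻¹ - x := by
        field_simp
      rw [f1]
      have f2 : P⁻¹ ^ (m + 1) = P⁻¹ ^ (m + 2) * P := by
        rw [pow_succ P⁻¹ (m + 1), mul_assoc, inv_mul_cancel₀ hP0.ne', mul_one]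
      have f3 : P⁻¹ ^ (m + 2) * P ^ (m + 1 + 1) = 1 := by
        rw [← mul_pow, inv_mul_cancel₀ hP0.ne', one_pow]
      have f4 : G ^ (m + 1) * P⁻¹ ^ (m + 2) * ((A * M⁻¹ - x) ^ 2 * P ^ (m + 1 + 1) -
          kap (m + 1) * M ^ (m + 1 + 2) * ((m + 1 + 3) * P - (m + 1) * G ^ 2 * M)) =
          G ^ (m + 1) * (A * M⁻¹ - x) ^ 2 * (P⁻¹ ^ (m + 2) * P ^ (m + 1 + 1)) -
          G ^ (m + 1) * kap (m + 1) * M ^ (m + 1 + 2) * ((m + 1 + 3) * (P⁻¹ ^ (m + 2) * P) -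
            (m + 1) * G ^ 2 * M * P⁻¹ ^ (m + 2)) := by ring
      rw [f4, f3, ← f2]
      ring
    rw [e]
    have q : 0 ≤ G ^ (m + 1) * P⁻¹ ^ (m + 2) := by positivity
    exact mul_nonpos_of_nonneg_of_nonpos q (sub_nonpos.2 h3)
  have hlow : ∀ c ∈ Ioo s b, -(∫ t in c..b, t ^ 2 * g t ^ k) ≤ F s := by
    intro c hc
    refine le_trans ?_ (key c hc)
    have hc0 : c ∈ Ico 0 b := ⟨(hs.1.trans hc.1).le, hc.2⟩
    have hM0 := D.M_pos hc0 k
    have hP0 := D.M_pos hc0 (k + 2)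
    simp only [hF]
    have q1 : 0 ≤ kap k * ((∫ t in c..b, g t ^ k) ^ (k + 3) * (∫ t in c..b, g t ^ (k + 2))⁻¹ ^ k) := by
      positivity
    have q2 : 0 ≤ (∫ t in c..b, t * g t ^ k) ^ 2 * (∫ t in c..b, g t ^ k)⁻¹ := by positivity
    linarith
  have hlim : Tendsto (fun c => -(∫ t in c..b, t ^ 2 * g t ^ k)) (𝓝[<] b) (𝓝 0) := by
    have := (tendsto_tail D.hb (D.ii2 k)).neg
    simpa using this
  have hfin : 0 ≤ F s := by
    refine le_of_tendsto hlim ?_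
    filter_upwards [Ioo_mem_nhdsLT hs.2] with c hc using hlow c hc
  have hs0 : s ∈ Ico 0 b := ⟨hs.1.le, hs.2⟩
  have hM0 := D.M_pos hs0 k
  have hP0 := D.M_pos hs0 (k + 2)
  simp only [hF] at hfin
  generalize (∫ t in s..b, g t ^ k) = M at *
  generalize (∫ t in s..b, g t ^ (k + 2)) = P at *
  generalize (∫ t in s..b, t * g t ^ k) = A at *
  generalize (∫ t in s..b, t ^ 2 * g t ^ k) = B at *
  have h5 := mul_nonneg hfin (mul_pos hM0 (pow_pos hP0 k)).le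
  have e : (kap k * (M ^ (k + 3) * P⁻¹ ^ k) - (B - A ^ 2 * M⁻¹)) * (M * P ^ k) =
      kap k * M ^ (k + 4) * (P⁻¹ ^ k * P ^ k) - (M * B - A ^ 2 * (M⁻¹ * M)) * P ^ k := by ring
  rw [e, ← mul_pow, inv_mul_cancel₀ hP0.ne', inv_mul_cancel₀ hM0.ne', one_pow] at h5
  linarith

theorem fin_ineq (D : Dat k b g) :
    ((∫ t in (0 : ℝ)..b, g t ^ k) * (∫ t in (0 : ℝ)..b, t ^ 2 * g t ^ k) -
        (∫ t in (0 : ℝ)..b, t * g t ^ k) ^ 2) * (∫ t in (0 : ℝ)..b, g t ^ (k + 2)) ^ k ≤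
      kap k * (∫ t in (0 : ℝ)..b, g t ^ k) ^ (k + 4) := by
  have h0 : (0 : ℝ) ∈ Icc 0 b := ⟨le_rfl, D.hb.le⟩
  have hle : 𝓝[Ioo 0 b] (0 : ℝ) ≤ 𝓝[Icc 0 b] 0 := nhdsWithin_mono _ Ioo_subset_Icc_self
  have t1 := ((tail_cont D.hb.le (D.ii k)) 0 h0).mono_left hle
  have t2 := ((tail_cont D.hb.le (D.ii2 k)) 0 h0).mono_left hle
  have t3 := ((tail_cont D.hb.le (D.ii1 k)) 0 h0).mono_left hle
  have t4 := ((tail_cont D.hb.le (D.ii (k + 2))) 0 h0).mono_left hle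
  have tl := ((t1.mul t2).sub (t3.pow 2)).mul (t4.pow k)
  have tr := (t1.pow (k + 4)).const_mul (kap k)
  have : (𝓝[Ioo 0 b] (0 : ℝ)).NeBot := by
    rw [nhdsWithin_Ioo_eq_nhdsGT D.hb]
    infer_instance
  refine le_of_tendsto_of_tendsto tl tr ?_
  filter_upwards [self_mem_nhdsWithin] with s hs using D.open_ineq hs

end Dat

end Vale.Agent.P254.Perm.J504

namespace Vale.Agent.P254.Perm

/-- [A4] -/
theorem dec_concave (k : ℕ) (hk : 1 ≤ k) {b : ℝ} (hb : 0 ≤ b) {g : ℝ → ℝ}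
    (hconc : ConcaveOn ℝ (Icc 0 b) g) (hanti : AntitoneOn g (Icc 0 b))
    (hpos : ∀ s ∈ Icc 0 b, 0 ≤ g s) :
    ((∫ t in (0 : ℝ)..b, g t ^ k) * (∫ t in (0 : ℝ)..b, t ^ 2 * g t ^ k) -
        (∫ t in (0 : ℝ)..b, t * g t ^ k) ^ 2) * (∫ t in (0 : ℝ)..b, g t ^ (k + 2)) ^ k ≤
      kap k * (∫ t in (0 : ℝ)..b, g t ^ k) ^ (k + 4) := by
  rcases hb.eq_or_lt with rfl | hb
  · simp
  by_cases hp : ∀ s ∈ Ico 0 b, 0 < g s
  · exact J504.Dat.fin_ineq ⟨hk, hb, hconc, hanti, hpos, hp⟩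
  · push Not at hp
    obtain ⟨s0, hs0, hgs⟩ := hp
    have hs0' : s0 ∈ Icc 0 b := ⟨hs0.1, hs0.2.le⟩
    have hz : g s0 = 0 := le_antisymm hgs (hpos s0 hs0')
    have hbI : b ∈ Icc 0 b := ⟨hb.le, le_rfl⟩
    have hall : ∀ t ∈ Icc 0 b, g t = 0 := by
      intro t ht
      refine le_antisymm ?_ (hpos t ht)
      by_contra hcon
      push Not at hcon
      have hts : t < s0 := by
        by_contra h
        push Not at h
        have := hanti hs0' ht h
        linarith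
      have hden : 0 < b - t := by linarith [hs0.2]
      have n1 : 0 ≤ (b - s0) / (b - t) := div_nonneg (by linarith [hs0.2]) hden.le
      have n2 : 0 ≤ (s0 - t) / (b - t) := div_nonneg (by linarith) hden.le
      have n3 : (b - s0) / (b - t) + (s0 - t) / (b - t) = 1 := by
        rw [← add_div, div_eq_one_iff_eq hden.ne']
        ring
      have h1 := hconc.2 ht hbI n1 n2 n3
      simp only [smul_eq_mul] at h1
      have h2 : (b - s0) / (b - t) * t + (s0 - t) / (b - t) * b = s0 := by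
        field_simp
        ring
      rw [h2, hz] at h1
      have h3 : 0 < (b - s0) / (b - t) * g t := mul_pos (div_pos (by linarith [hs0.2]) hden) hcon
      have h4 : 0 ≤ (s0 - t) / (b - t) * g b := mul_nonneg (div_nonneg (by linarith) hden.le) (hpos b hbI)
      linarith
    have hi : ∀ (j : ℕ) (w : ℝ → ℝ), 1 ≤ j → ∫ t in (0 : ℝ)..b, w t * g t ^ j = 0 := by
      intro j w hj
      rw [intervalIntegral.integral_congr (g := fun _ => (0 : ℝ))]
      · simp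
      · intro t ht
        rw [uIcc_of_le hb.le] at ht
        simp only
        rw [hall t ht, zero_pow (by omega), mul_zero]
    have i1 : ∫ t in (0 : ℝ)..b, g t ^ k = 0 := by simpa using hi k (fun _ => 1) hk
    have i2 : ∫ t in (0 : ℝ)..b, t * g t ^ k = 0 := hi k (fun t => t) hk
    rw [i1, i2, zero_mul, zero_pow (by norm_num), sub_zero, zero_mul, zero_pow (by omega), mul_zero]

end Vale.Agent.P254.Perm
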