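import Vale.Agent.P254.Perm.Defs
import Vale.Agent.P254.Perm.Elem
import Mathlib.Analysis.Convex.Continuous

/-! The one-dimensional inequality for decreasing concave functions, by right derivatives. -/

open MeasureTheory Set Filter Topology

namespace Vale.Agent.P254.Perm.J490

/-- Hypotheses. -/
structure Hyp (g : ℝ → ℝ) (b : ℝ) : Prop where
  b0 : 0 < b
  conc : ConcaveOn ℝ (Icc 0 b) g
  anti : AntitoneOn g (Icc 0 b)
  nn : ∀ s ∈ Icc 0 b, 0 ≤ g s
  g0 : 0 < g 0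

/-- Tail moments. -/
noncomputable def A (g : ℝ → ℝ) (b : ℝ) (i j : ℕ) (s : ℝ) : ℝ := ∫ t in s..b, t ^ i * g t ^ j

variable {g : ℝ → ℝ} {b : ℝ}

theorem Hyp.pos (H : Hyp g b) {s : ℝ} (hs : s ∈ Ico 0 b) : 0 < g s := by
  have hb := H.b0
  have h1 : 0 ≤ s / b := div_nonneg hs.1 hb.le
  have h2 : s / b < 1 := (div_lt_one hb).2 hs.2
  have h := H.conc.2 (left_mem_Icc.2 hb.le) (right_mem_Icc.2 hb.le)
    (sub_nonneg.2 h2.le) h1 (by ring)
  simp only [smul_eq_mul, mul_zero, zero_add, div_mul_cancel₀ s hb.ne'] at h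
  have h3 := mul_pos (sub_pos.2 h2) H.g0
  have h4 := mul_nonneg h1 (H.nn b (right_mem_Icc.2 hb.le))
  linarith

theorem Hyp.cont (H : Hyp g b) : ContinuousOn g (Ioo 0 b) := by
  have := H.conc.continuousOn_interior
  rwa [interior_Icc] at this

theorem Hyp.ii (H : Hyp g b) (i j : ℕ) :
    IntervalIntegrable (fun t => t ^ i * g t ^ j) volume 0 b := by
  have h1 : AntitoneOn (fun t => g t ^ j) (uIcc 0 b) := by
    rw [uIcc_of_le H.b0.le]
    exact fun x hx y hy hxy => pow_le_pow_left₀ (H.nn y hy) (H.anti hx hy hxy) j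
  exact h1.intervalIntegrable.continuousOn_mul (continuous_pow i).continuousOn

theorem Hyp.iis (H : Hyp g b) (i j : ℕ) {s : ℝ} (hs : s ∈ Icc 0 b) :
    IntervalIntegrable (fun t => t ^ i * g t ^ j) volume s b := by
  refine (H.ii i j).mono_set ?_
  rw [uIcc_of_le hs.2, uIcc_of_le H.b0.le]
  exact Icc_subset_Icc_left hs.1

theorem Hyp.dA (H : Hyp g b) (i j : ℕ) {s : ℝ} (hs : s ∈ Ioo 0 b) :
    HasDerivAt (A g b i j) (-(s ^ i * g s ^ j)) s := by
  have hc : ContinuousOn (fun t => t ^ i * g t ^ j) (Ioo 0 b) :=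
    (continuous_pow i).continuousOn.mul (H.cont.pow j)
  refine intervalIntegral.integral_hasDerivAt_left (H.iis i j ⟨hs.1.le, hs.2.le⟩) ?_ ?_
  · exact hc.stronglyMeasurableAtFilter isOpen_Ioo s hs
  · exact hc.continuousAt (isOpen_Ioo.mem_nhds hs)

theorem Hyp.cA (H : Hyp g b) (i j : ℕ) : ContinuousOn (A g b i j) (Icc 0 b) := by
  have h := intervalIntegral.continuousOn_primitive_interval_left (μ := volume) (a := 0) (b := b)
    (f := fun t => t ^ i * g t ^ j) (by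
      rw [uIcc_of_le H.b0.le]
      exact (intervalIntegrable_iff_integrableOn_Icc_of_le H.b0.le).1 (H.ii i j))
  rwa [uIcc_of_le H.b0.le] at h

theorem A_self (i j : ℕ) : A g b i j b = 0 := intervalIntegral.integral_same

theorem Hyp.A_nonneg (H : Hyp g b) (i j : ℕ) {s : ℝ} (hs : s ∈ Icc 0 b) : 0 ≤ A g b i j s :=
  intervalIntegral.integral_nonneg hs.2 fun t ht =>
    mul_nonneg (pow_nonneg (hs.1.trans ht.1) _) (pow_nonneg (H.nn t ⟨hs.1.trans ht.1, ht.2⟩) _)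

theorem Hyp.A0_pos (H : Hyp g b) (j : ℕ) {s : ℝ} (hs : s ∈ Ico 0 b) : 0 < A g b 0 j s :=
  intervalIntegral.intervalIntegral_pos_of_pos_on (H.iis 0 j ⟨hs.1, hs.2.le⟩)
    (fun t ht => mul_pos (by simp) (pow_pos (H.pos ⟨hs.1.trans ht.1.le, ht.2⟩) _)) hs.2

theorem Hyp.P_le (H : Hyp g b) (k : ℕ) {s : ℝ} (hs : s ∈ Icc 0 b) :
    A g b 0 (k + 2) s ≤ g s ^ 2 * A g b 0 k s := by
  unfold A
  rw [← intervalIntegral.integral_const_mul]
  refine intervalIntegral.integral_mono_on hs.2 (H.iis 0 (k + 2) hs)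
    ((H.iis 0 k hs).const_mul _) fun t ht => ?_
  have ht' : t ∈ Icc 0 b := ⟨hs.1.trans ht.1, ht.2⟩
  have h1 := H.nn t ht'
  have h2 := H.anti hs ht' ht.1
  have h3 : g t ^ 2 ≤ g s ^ 2 := pow_le_pow_left₀ h1 h2 2
  calc t ^ 0 * g t ^ (k + 2) = g t ^ 2 * g t ^ k := by ring
    _ ≤ g s ^ 2 * g t ^ k := mul_le_mul_of_nonneg_right h3 (pow_nonneg h1 k)
    _ = _ := by ring

theorem Hyp.S_nonneg (H : Hyp g b) (k : ℕ) {s : ℝ} (hs : s ∈ Icc 0 b) :
    0 ≤ A g b 1 k s - s * A g b 0 k s := by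
  unfold A
  rw [← intervalIntegral.integral_const_mul, sub_nonneg]
  refine intervalIntegral.integral_mono_on hs.2 ((H.iis 0 k hs).const_mul _)
    (H.iis 1 k hs) fun t ht => ?_
  have ht' : t ∈ Icc 0 b := ⟨hs.1.trans ht.1, ht.2⟩
  have h1 := pow_nonneg (H.nn t ht') k
  simp only [pow_zero, one_mul, pow_one]
  exact mul_le_mul_of_nonneg_right ht.1 h1

/-- Minus the right derivative. -/
noncomputable def l (g : ℝ → ℝ) (s : ℝ) : ℝ := -derivWithin g (Ioi s) s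

theorem Hyp.dg (H : Hyp g b) {s : ℝ} (hs : s ∈ Ioo 0 b) :
    HasDerivWithinAt g (-l g s) (Ici s) s := by
  have hs' : s ∈ interior (Icc 0 b) := by rwa [interior_Icc]
  have h := H.conc.neg.hasDerivWithinAt_rightDeriv_of_mem_interior hs'
  have h2 := h.neg
  have h3 : HasDerivWithinAt g (-(derivWithin (-g) (Ioi s) s)) (Ioi s) s := by
    simpa using h2
  have h4 : derivWithin g (Ioi s) s = -(derivWithin (-g) (Ioi s) s) :=
    h3.derivWithin (uniqueDiffWithinAt_Ioi s)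
  unfold l
  rw [h4, neg_neg]
  exact h3.Ici_of_Ioi

theorem Hyp.tangent (H : Hyp g b) {s t : ℝ} (hs : s ∈ Ioo 0 b) (ht : t ∈ Icc s b) :
    g t ≤ g s - l g s * (t - s) := by
  rcases ht.1.eq_or_lt with rfl | hlt
  · simp
  · have h := H.conc.slope_le_of_hasDerivWithinAt_Ioi ⟨hs.1.le, hs.2.le⟩
      ⟨hs.1.le.trans ht.1, ht.2⟩ hlt (H.dg hs).Ioi_of_Ici
    rw [slope_def_field, div_le_iff₀ (sub_pos.2 hlt)] at h
    linarith

theorem Hyp.l_nonneg (H : Hyp g b) {s : ℝ} (hs : s ∈ Ioo 0 b) : 0 ≤ l g s := by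
  have h := (hasDerivWithinAt_iff_tendsto_slope' (by simp)).1 (H.dg hs).Ioi_of_Ici
  have h2 : ∀ᶠ t in 𝓝[>] s, slope g s t ≤ 0 := by
    filter_upwards [Ioo_mem_nhdsGT hs.2] with t ht
    rw [slope_def_field]
    refine div_nonpos_of_nonpos_of_nonneg ?_ (sub_pos.2 ht.1).le
    exact sub_nonpos.2 (H.anti ⟨hs.1.le, hs.2.le⟩ ⟨hs.1.le.trans ht.1.le, ht.2.le⟩ ht.1.le)
  have h3 := le_of_tendsto h h2
  linarith

/-- `(k+1) l M ≤ g^(k+1)`. -/
theorem Hyp.lM_le (H : Hyp g b) (k : ℕ) {s : ℝ} (hs : s ∈ Ioo 0 b) :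
    (k + 1) * l g s * A g b 0 k s ≤ g s ^ (k + 1) := by
  have hl := H.l_nonneg hs
  have hb : s ≤ b := hs.2.le
  have hft : ∀ t ∈ Icc s b, 0 ≤ g s - l g s * (t - s) := by
    intro t ht
    have h1 := H.tangent hs ht
    have h2 := H.nn t ⟨hs.1.le.trans ht.1, ht.2⟩
    linarith
  have hd : ∀ t ∈ uIcc s b, HasDerivAt (fun t => -(g s - l g s * (t - s)) ^ (k + 1))
      ((k + 1) * l g s * (g s - l g s * (t - s)) ^ k) t := by
    intro t _
    have h1 : HasDerivAt (fun t => g s - l g s * (t - s)) (-(l g s * 1)) t :=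
      (((hasDerivAt_id t).sub_const s).const_mul (l g s)).const_sub (g s)
    have h2 := (h1.pow (k + 1)).neg
    have h3 : ((k : ℝ) + 1) * l g s * (g s - l g s * (t - s)) ^ k =
        -(((k + 1 : ℕ) : ℝ) * (g s - l g s * (t - s)) ^ (k + 1 - 1) * (-(l g s * 1))) := by
      rw [Nat.add_sub_cancel]
      push_cast
      ring
    rw [h3]
    exact h2
  have hint : IntervalIntegrable (fun t => (k + 1) * l g s * (g s - l g s * (t - s)) ^ k)
      volume s b := by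
    apply Continuous.intervalIntegrable
    fun_prop
  have h1 := intervalIntegral.integral_eq_sub_of_hasDerivAt hd hint
  have h2 : (k + 1) * l g s * A g b 0 k s ≤
      ∫ t in s..b, (k + 1) * l g s * (g s - l g s * (t - s)) ^ k := by
    unfold A
    rw [← intervalIntegral.integral_const_mul]
    refine intervalIntegral.integral_mono_on hb ((H.iis 0 k ⟨hs.1.le, hb⟩).const_mul _) hint ?_
    intro t ht
    have h3 := H.nn t ⟨hs.1.le.trans ht.1, ht.2⟩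
    have h4 := pow_le_pow_left₀ h3 (H.tangent hs ht) k
    rw [pow_zero, one_mul]
    exact mul_le_mul_of_nonneg_left h4 (by positivity)
  rw [h1] at h2
  have h5 := pow_nonneg (hft b (right_mem_Icc.2 hb)) (k + 1)
  simp only [sub_self, mul_zero, sub_zero] at h2
  linarith

/-- The monotonicity lemma. -/
theorem zero_le {f f' E : ℝ → ℝ} {s b : ℝ} (hsb : s < b) (hc : ContinuousOn f (Ico s b))
    (hd : ∀ x ∈ Ico s b, HasDerivWithinAt f (f' x) (Ici x) x) (hn : ∀ x ∈ Ico s b, f' x ≤ 0)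
    (hE : Tendsto E (𝓝[<] b) (𝓝 0)) (hf : ∀ t ∈ Ico s b, -E t ≤ f t) : 0 ≤ f s := by
  have h1 : ∀ t ∈ Ioo s b, f t ≤ f s := by
    intro t ht
    have h := image_le_of_deriv_right_le_deriv_boundary (f := f) (f' := f') (a := s) (b := t)
      (hc.mono fun x hx => ⟨hx.1, hx.2.trans_lt ht.2⟩)
      (fun x hx => hd x ⟨hx.1, hx.2.trans ht.2⟩) (B := fun _ => f s) (B' := fun _ => 0)
      le_rfl continuousOn_const (fun x _ => hasDerivWithinAt_const _ _ _)
      (fun x hx => hn x ⟨hx.1, hx.2.trans ht.2⟩)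
    exact h (right_mem_Icc.2 ht.1.le)
  have h2 : ∀ᶠ t in 𝓝[<] b, -E t ≤ f s := by
    have h3 : Ioo s b ∈ 𝓝[<] b := Ioo_mem_nhdsLT hsb
    filter_upwards [h3] with t ht
    exact (hf t ⟨ht.1.le, ht.2⟩).trans (h1 t ht)
  have h4 := le_of_tendsto hE.neg h2
  rwa [neg_zero] at h4

theorem tendsto_left {f : ℝ → ℝ} (hb : 0 < b) (hc : ContinuousOn f (Icc 0 b)) (h0 : f b = 0) :
    Tendsto f (𝓝[<] b) (𝓝 0) := by
  have h1 := (hc b (right_mem_Icc.2 hb.le)).mono_of_mem_nhdsWithin (s := Iio b) (by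
    exact mem_of_superset (Ioo_mem_nhdsLT hb) fun x hx => ⟨hx.1.le, hx.2.le⟩)
  have h2 : Tendsto f (𝓝[<] b) (𝓝 (f b)) := h1
  rwa [h0] at h2

/-- (G) -/
theorem Hyp.G (H : Hyp g b) (k : ℕ) {s : ℝ} (hs : s ∈ Ioo 0 b) :
    (k + 1) * g s ^ 2 * A g b 0 k s ≤ (k + 3) * A g b 0 (k + 2) s := by
  have hsub : Ico s b ⊆ Ioo 0 b := fun x hx => ⟨hs.1.trans_le hx.1, hx.2⟩
  have hsubI : Ico s b ⊆ Icc 0 b := fun x hx => ⟨(hs.1.trans_le hx.1).le, hx.2.le⟩
  have h := zero_le (f := fun x => (k + 3) * A g b 0 (k + 2) x - (k + 1) * (g x ^ 2 * A g b 0 k x))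
    (f' := fun x => (k + 3) * (-(x ^ 0 * g x ^ (k + 2))) -
      (k + 1) * ((2 : ℕ) * g x ^ (2 - 1) * (-l g x) * A g b 0 k x +
        g x ^ 2 * (-(x ^ 0 * g x ^ k))))
    (E := fun x => (k + 1) * g 0 ^ 2 * A g b 0 k x) hs.2
    (by
      have c1 := (H.cA 0 (k + 2)).mono hsubI
      have c2 := (H.cA 0 k).mono hsubI
      have c3 := H.cont.mono hsub
      exact (continuousOn_const.mul c1).sub (continuousOn_const.mul ((c3.pow 2).mul c2)))
    (by
      intro x hx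
      have hx' := hsub hx
      have d1 := (H.dA 0 (k + 2) hx').hasDerivWithinAt (s := Ici x)
      have d2 := (H.dA 0 k hx').hasDerivWithinAt (s := Ici x)
      have d3 := H.dg hx'
      exact (d1.const_mul ((k : ℝ) + 3)).sub (((d3.pow 2).mul d2).const_mul ((k : ℝ) + 1)))
    (by
      intro x hx
      have hx' := hsub hx
      have h1 := H.lM_le k hx'
      have h2 := H.pos ⟨hx'.1.le, hx'.2⟩
      have h3 : (k + 3) * (-(x ^ 0 * g x ^ (k + 2))) -
          (k + 1) * ((2 : ℕ) * g x ^ (2 - 1) * (-l g x) * A g b 0 k x +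
          g x ^ 2 * (-(x ^ 0 * g x ^ k))) =
          2 * g x * ((k + 1) * l g x * A g b 0 k x - g x ^ (k + 1)) := by
        simp only [pow_zero, one_mul, Nat.cast_ofNat, Nat.add_one_sub_one, pow_one]
        ring
      rw [h3]
      exact mul_nonpos_of_nonneg_of_nonpos (by positivity) (by linarith))
    (by
      refine tendsto_left H.b0 (continuousOn_const.mul (H.cA 0 k)) ?_
      simp only [A_self, mul_zero])
    (by
      intro t ht
      have ht' := hsubI ht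
      have h1 := H.A_nonneg 0 (k + 2) ht'
      have h2 := H.A_nonneg 0 k ht'
      have h3 := H.nn t ht'
      have h4 := H.anti (left_mem_Icc.2 H.b0.le) ht' ht'.1
      have h5 : g t ^ 2 ≤ g 0 ^ 2 := pow_le_pow_left₀ h3 h4 2
      have h6 : g t ^ 2 * A g b 0 k t ≤ g 0 ^ 2 * A g b 0 k t := mul_le_mul_of_nonneg_right h5 h2
      have h7 : 0 ≤ ((k : ℝ) + 3) * A g b 0 (k + 2) t := by positivity
      have h8 : ((k : ℝ) + 1) * (g t ^ 2 * A g b 0 k t) ≤ (k + 1) * (g 0 ^ 2 * A g b 0 k t) :=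
        mul_le_mul_of_nonneg_left h6 (by positivity)
      show -((k + 1) * g 0 ^ 2 * A g b 0 k t) ≤
        (k + 3) * A g b 0 (k + 2) t - (k + 1) * (g t ^ 2 * A g b 0 k t)
      linarith)
  linarith

/-- `S`. -/
noncomputable def S (g : ℝ → ℝ) (b : ℝ) (k : ℕ) (s : ℝ) : ℝ := A g b 1 k s - s * A g b 0 k s

/-- `2T`. -/
noncomputable def T (g : ℝ → ℝ) (b : ℝ) (k : ℕ) (s : ℝ) : ℝ :=
  A g b 2 k s - 2 * s * A g b 1 k s + s ^ 2 * A g b 0 k s

theorem Hyp.dS (H : Hyp g b) (k : ℕ) {s : ℝ} (hs : s ∈ Ioo 0 b) :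
    HasDerivAt (S g b k) (-A g b 0 k s) s := by
  have h := (H.dA 1 k hs).sub ((hasDerivAt_id s).mul (H.dA 0 k hs))
  have h2 : -(s ^ 1 * g s ^ k) - (1 * A g b 0 k s + id s * -(s ^ 0 * g s ^ k)) =
      -A g b 0 k s := by
    simp only [id, pow_one, pow_zero]
    ring
  rw [h2] at h
  exact h

theorem Hyp.dT (H : Hyp g b) (k : ℕ) {s : ℝ} (hs : s ∈ Ioo 0 b) :
    HasDerivAt (T g b k) (-(2 * S g b k s)) s := by
  have h := ((H.dA 2 k hs).sub (((hasDerivAt_id s).const_mul 2).mul (H.dA 1 k hs))).add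
    ((hasDerivAt_pow 2 s).mul (H.dA 0 k hs))
  have h2 : -(s ^ 2 * g s ^ k) - (2 * 1 * A g b 1 k s + 2 * id s * -(s ^ 1 * g s ^ k)) +
      ((2 : ℕ) * s ^ (2 - 1) * A g b 0 k s + s ^ 2 * -(s ^ 0 * g s ^ k)) =
      -(2 * S g b k s) := by
    unfold S
    simp only [id, pow_one, pow_zero, Nat.cast_ofNat, Nat.add_one_sub_one]
    ring
  rw [h2] at h
  exact h

theorem Hyp.cS (H : Hyp g b) (k : ℕ) : ContinuousOn (S g b k) (Icc 0 b) :=
  (H.cA 1 k).sub (continuousOn_id.mul (H.cA 0 k))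

theorem Hyp.cT (H : Hyp g b) (k : ℕ) : ContinuousOn (T g b k) (Icc 0 b) :=
  ((H.cA 2 k).sub ((continuousOn_const.mul continuousOn_id).mul (H.cA 1 k))).add
    ((continuousOn_id.pow 2).mul (H.cA 0 k))

theorem S_self (k : ℕ) : S g b k b = 0 := by
  unfold S
  simp only [A_self, mul_zero, sub_zero]

theorem T_self (k : ℕ) : T g b k b = 0 := by
  unfold T
  simp only [A_self, mul_zero, sub_zero, add_zero]

/-- `P ≤ (b - s) g^(k+2)`. -/
theorem Hyp.A0_le (H : Hyp g b) (j : ℕ) {s : ℝ} (hs : s ∈ Icc 0 b) :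
    A g b 0 j s ≤ (b - s) * g s ^ j := by
  unfold A
  have h : ∫ _t in s..b, g s ^ j = (b - s) * g s ^ j := by
    rw [intervalIntegral.integral_const, smul_eq_mul]
  rw [← h]
  refine intervalIntegral.integral_mono_on hs.2 (H.iis 0 j hs) intervalIntegrable_const
    fun t ht => ?_
  have ht' : t ∈ Icc 0 b := ⟨hs.1.trans ht.1, ht.2⟩
  rw [pow_zero, one_mul]
  exact pow_le_pow_left₀ (H.nn t ht') (H.anti hs ht' ht.1) j

/-- (Q) -/
theorem Hyp.Q (H : Hyp g b) (k : ℕ) {s : ℝ} (hs : s ∈ Ioo 0 b) :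
    4 * (k + 2) * S g b k s * g s ^ (k + 2) +
        k * (k + 3) * A g b 0 k s * A g b 0 (k + 2) s ≤
      (k + 1) * (k + 4) * A g b 0 k s ^ 2 * g s ^ 2 := by
  have hsub : Ico s b ⊆ Ioo 0 b := fun x hx => ⟨hs.1.trans_le hx.1, hx.2⟩
  have hsubI : Ico s b ⊆ Icc 0 b := fun x hx => ⟨(hs.1.trans_le hx.1).le, hx.2.le⟩
  have hsubO : Ico s b ⊆ Ico 0 b := fun x hx => ⟨(hs.1.trans_le hx.1).le, hx.2⟩
  have h := zero_le
    (f := fun x => ((k + 1) * (k + 4) * (A g b 0 k x ^ 2 * g x ^ 2) -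
      4 * (k + 2) * (S g b k x * g x ^ (k + 2)) -
        k * (k + 3) * (A g b 0 k x * A g b 0 (k + 2) x)) / g x ^ (k + 2))
    (f' := fun x => (((k + 1) * (k + 4) * ((2 : ℕ) * A g b 0 k x ^ (2 - 1) *
        (-(x ^ 0 * g x ^ k)) * g x ^ 2 + A g b 0 k x ^ 2 * ((2 : ℕ) * g x ^ (2 - 1) * (-l g x))) -
      4 * (k + 2) * (-A g b 0 k x * g x ^ (k + 2) +
        S g b k x * ((k + 2 : ℕ) * g x ^ (k + 2 - 1) * (-l g x))) -
        k * (k + 3) * (-(x ^ 0 * g x ^ k) * A g b 0 (k + 2) x +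
          A g b 0 k x * (-(x ^ 0 * g x ^ (k + 2))))) * g x ^ (k + 2) -
        ((k + 1) * (k + 4) * (A g b 0 k x ^ 2 * g x ^ 2) -
          4 * (k + 2) * (S g b k x * g x ^ (k + 2)) -
          k * (k + 3) * (A g b 0 k x * A g b 0 (k + 2) x)) *
          ((k + 2 : ℕ) * g x ^ (k + 2 - 1) * (-l g x))) / (g x ^ (k + 2)) ^ 2)
    (E := fun x => 4 * (k + 2) * S g b k x + k * (k + 3) * ((b - x) * A g b 0 k x)) hs.2
    (by
      have c1 := (H.cA 0 (k + 2)).mono hsubI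
      have c2 := (H.cA 0 k).mono hsubI
      have c3 := H.cont.mono hsub
      have c4 := (H.cS k).mono hsubI
      refine ContinuousOn.div₀ (((continuousOn_const.mul ((c2.pow 2).mul (c3.pow 2))).sub
        (continuousOn_const.mul (c4.mul (c3.pow (k + 2))))).sub
        (continuousOn_const.mul (c2.mul c1))) (c3.pow (k + 2)) ?_
      intro x hx
      exact (pow_pos (H.pos (hsubO hx)) _).ne')
    (by
      intro x hx
      have hx' := hsub hx
      have d1 := (H.dA 0 (k + 2) hx').hasDerivWithinAt (s := Ici x)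
      have d2 := (H.dA 0 k hx').hasDerivWithinAt (s := Ici x)
      have d3 := H.dg hx'
      have d4 := (H.dS k hx').hasDerivWithinAt (s := Ici x)
      exact (((((d2.pow 2).mul (d3.pow 2)).const_mul (((k : ℝ) + 1) * (k + 4))).sub
        ((d4.mul (d3.pow (k + 2))).const_mul (4 * ((k : ℝ) + 2)))).sub
        ((d2.mul d1).const_mul ((k : ℝ) * (k + 3)))).div (d3.pow (k + 2))
          (pow_pos (H.pos (hsubO hx)) _).ne')
    (by
      intro x hx
      have hx' := hsub hx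
      have h1 := H.lM_le k hx'
      have h2 := H.pos ⟨hx'.1.le, hx'.2⟩
      have h3 := H.G k hx'
      have h4 := H.P_le k (hsubI hx)
      have h5 := H.l_nonneg hx'
      have h6 := H.A_nonneg 0 k (hsubI hx)
      refine div_nonpos_of_nonpos_of_nonneg ?_ (by positivity)
      set M := A g b 0 k x with hM
      set P := A g b 0 (k + 2) x with hP
      set L := l g x with hL
      set y := g x with hy
      set Z := S g b k x with hZ
      have e1 : ((((k : ℝ) + 1) * (k + 4) * ((2 : ℕ) * M ^ (2 - 1) *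
        (-(x ^ 0 * y ^ k)) * y ^ 2 + M ^ 2 * ((2 : ℕ) * y ^ (2 - 1) * (-L))) -
      4 * (k + 2) * (-M * y ^ (k + 2) +
        Z * ((k + 2 : ℕ) * y ^ (k + 2 - 1) * (-L))) -
        k * (k + 3) * (-(x ^ 0 * y ^ k) * P +
          M * (-(x ^ 0 * y ^ (k + 2))))) * y ^ (k + 2) -
        ((k + 1) * (k + 4) * (M ^ 2 * y ^ 2) -
          4 * (k + 2) * (Z * y ^ (k + 2)) -
          k * (k + 3) * (M * P)) *
          ((k + 2 : ℕ) * y ^ (k + 2 - 1) * (-L))) * (k + 1) =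
          k * y ^ (k + 1) * (-((k + 1) * (k + 3) * (y ^ (k + 1) - (k + 1) * L * M) *
            (M * y ^ 2 - P)) + (k + 1) * L * M * ((k + 3) * (M * y ^ 2 - P) - 2 * M * y ^ 2)) := by
        have e2 : k + 2 - 1 = k + 1 := by omega
        rw [e2]
        simp only [pow_zero, one_mul, Nat.cast_ofNat, Nat.add_one_sub_one, pow_one]
        push_cast
        ring
      have hk1 : (0 : ℝ) < (k : ℝ) + 1 := by positivity
      refine nonpos_of_mul_nonpos_left ?_ hk1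
      rw [e1]
      refine mul_nonpos_of_nonneg_of_nonpos (by positivity) ?_
      have h7 : 0 ≤ M * y ^ 2 - P := by linarith
      have h8 : 0 ≤ y ^ (k + 1) - (k + 1) * L * M := by linarith
      have h9 : 0 ≤ ((k : ℝ) + 1) * (k + 3) * (y ^ (k + 1) - (k + 1) * L * M) *
        (M * y ^ 2 - P) := by positivity
      have h10 : (k + 3) * (M * y ^ 2 - P) - 2 * M * y ^ 2 ≤ 0 := by linarith
      have h11 : (k + 1) * L * M * ((k + 3) * (M * y ^ 2 - P) - 2 * M * y ^ 2) ≤ 0 :=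
        mul_nonpos_of_nonneg_of_nonpos (by positivity) h10
      linarith)
    (by
      refine tendsto_left H.b0 ((continuousOn_const.mul (H.cS k)).add (continuousOn_const.mul
        ((continuousOn_const.sub continuousOn_id).mul (H.cA 0 k)))) ?_
      simp only [A_self, S_self, mul_zero, add_zero])
    (by
      intro t ht
      have ht' := hsubI ht
      have h1 := H.A0_le (k + 2) ht'
      have h2 := H.A_nonneg 0 k ht'
      have h3 := H.pos (hsubO ht)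
      have h4 : 0 ≤ S g b k t := H.S_nonneg k ht'
      have h5 : 0 < g t ^ (k + 2) := pow_pos h3 _
      rw [le_div_iff₀ h5]
      have h6 : k * (k + 3) * (A g b 0 k t * A g b 0 (k + 2) t) ≤
          k * (k + 3) * ((b - t) * A g b 0 k t) * g t ^ (k + 2) := by
        have h7 : A g b 0 k t * A g b 0 (k + 2) t ≤ A g b 0 k t * ((b - t) * g t ^ (k + 2)) :=
          mul_le_mul_of_nonneg_left h1 h2
        calc _ ≤ k * (k + 3) * (A g b 0 k t * ((b - t) * g t ^ (k + 2))) :=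
              mul_le_mul_of_nonneg_left h7 (by positivity)
          _ = _ := by ring
      have h8 : 0 ≤ ((k : ℝ) + 1) * (k + 4) * (A g b 0 k t ^ 2 * g t ^ 2) := by positivity
      show -(4 * (k + 2) * S g b k t + k * (k + 3) * ((b - t) * A g b 0 k t)) * g t ^ (k + 2) ≤
        (k + 1) * (k + 4) * (A g b 0 k t ^ 2 * g t ^ 2) -
          4 * (k + 2) * (S g b k t * g t ^ (k + 2)) -
          k * (k + 3) * (A g b 0 k t * A g b 0 (k + 2) t)
      linarith)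
  have h5 : 0 < g s ^ (k + 2) := pow_pos (H.pos ⟨hs.1.le, hs.2⟩) _
  have h6 := (div_nonneg_iff.1 h).resolve_right (fun h7 => absurd h7.2 (not_le.2 h5))
  have h7 := h6.1
  linarith

theorem key_alg (k : ℕ) (hk : 1 ≤ k) {M P Z y : ℝ} (hM : 0 < M) (hP : 0 < P) (hy : 0 < y)
    (hZ : 0 ≤ Z) (hG : (k + 1) * y ^ 2 * M ≤ (k + 3) * P)
    (hQ : 4 * (k + 2) * Z * y ^ (k + 2) + k * (k + 3) * M * P ≤
      (k + 1) * (k + 4) * M ^ 2 * y ^ 2) :
    Z ^ 2 * P ^ (k + 1) ≤ kap k * M ^ (k + 4) * ((k + 3) * P - k * (M * y ^ 2)) := by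
  set h : ℝ := (k + 3) * P / ((k + 1) * M * y ^ 2) - 1 with hh
  set β : ℝ := (k + 2) * Z * y ^ k / ((k + 1) * M ^ 2) with hβ
  have hD : 0 < ((k : ℝ) + 1) * M * y ^ 2 := by positivity
  have h0 : 0 ≤ h := by
    rw [hh, sub_nonneg, le_div_iff₀ hD]
    linarith
  have hβ0 : 0 ≤ β := by positivity
  have hβ1 : β ≤ 1 - k * h / 4 := by
    have e1 : (1 - k * h / 4 - β) * (4 * (k + 1) * M ^ 2 * y ^ 2) =
        (k + 1) * (k + 4) * M ^ 2 * y ^ 2 -
          (4 * (k + 2) * Z * y ^ (k + 2) + k * (k + 3) * M * P) := by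
      rw [hh, hβ]
      field_simp
      ring
    have e2 : 0 ≤ (1 - k * h / 4 - β) * (4 * (k + 1) * M ^ 2 * y ^ 2) := by
      rw [e1]; linarith
    have e3 : 0 < 4 * ((k : ℝ) + 1) * M ^ 2 * y ^ 2 := by positivity
    have e4 := nonneg_of_mul_nonneg_left e2 e3
    linarith
  have hkh : (k : ℝ) * h ≤ 4 := by linarith
  have h1 := elem k hk h0 hkh
  have h2 : β ^ 2 * (1 + h) ^ (k + 1) ≤ 1 + (k + 1) * h :=
    (mul_le_mul_of_nonneg_right (pow_le_pow_left₀ hβ0 hβ1 2)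
      (pow_nonneg (by linarith) _)).trans h1
  have hC : 0 < kap k * M ^ (k + 5) * y ^ 2 := by
    unfold kap
    positivity
  have h3 := mul_le_mul_of_nonneg_right h2 hC.le
  have e5 : 1 + h = (k + 3) * P / ((k + 1) * M * y ^ 2) := by rw [hh]; ring
  have e6 : β ^ 2 * (1 + h) ^ (k + 1) * (kap k * M ^ (k + 5) * y ^ 2) =
      Z ^ 2 * P ^ (k + 1) := by
    rw [e5, hβ]
    unfold kap
    simp only [div_pow, mul_pow]
    field_simp
    ring
  have e7 : (1 + (k + 1) * h) * (kap k * M ^ (k + 5) * y ^ 2) =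
      kap k * M ^ (k + 4) * ((k + 3) * P - k * (M * y ^ 2)) := by
    rw [hh]
    field_simp
    ring
  rw [e6, e7] at h3
  exact h3

theorem Hyp.key (H : Hyp g b) (k : ℕ) (hk : 1 ≤ k) {s : ℝ} (hs : s ∈ Ioo 0 b) :
    S g b k s ^ 2 * A g b 0 (k + 2) s ^ (k + 1) ≤ kap k * A g b 0 k s ^ (k + 4) *
      ((k + 3) * A g b 0 (k + 2) s - k * (A g b 0 k s * g s ^ 2)) :=
  key_alg k hk (H.A0_pos k ⟨hs.1.le, hs.2⟩) (H.A0_pos (k + 2) ⟨hs.1.le, hs.2⟩)
    (H.pos ⟨hs.1.le, hs.2⟩) (H.S_nonneg k ⟨hs.1.le, hs.2.le⟩) (H.G k hs) (H.Q k hs)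

/-- `Φ`. -/
noncomputable def Ph (g : ℝ → ℝ) (b : ℝ) (k : ℕ) (x : ℝ) : ℝ :=
  kap k * (A g b 0 k x ^ (k + 3) / A g b 0 (k + 2) x ^ k) - T g b k x +
    S g b k x ^ 2 / A g b 0 k x

/-- The right derivative of `Φ`. -/
noncomputable def Ph' (g : ℝ → ℝ) (b : ℝ) (k : ℕ) (x : ℝ) : ℝ :=
  g x ^ k / (A g b 0 k x ^ 2 * A g b 0 (k + 2) x ^ (k + 1)) *
    (S g b k x ^ 2 * A g b 0 (k + 2) x ^ (k + 1) - kap k * A g b 0 k x ^ (k + 4) *
      ((k + 3) * A g b 0 (k + 2) x - k * (A g b 0 k x * g x ^ 2)))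

theorem Hyp.dPh (H : Hyp g b) (k : ℕ) (hk : 1 ≤ k) {x : ℝ} (hx : x ∈ Ioo 0 b) :
    HasDerivAt (Ph g b k) (Ph' g b k x) x := by
  obtain ⟨m, rfl⟩ : ∃ m, k = m + 1 := ⟨k - 1, by omega⟩
  have hM := H.A0_pos (m + 1) ⟨hx.1.le, hx.2⟩
  have hP := H.A0_pos (m + 1 + 2) ⟨hx.1.le, hx.2⟩
  have d1 := H.dA 0 (m + 1) hx
  have d2 := H.dA 0 (m + 1 + 2) hx
  have d3 := H.dS (m + 1) hx
  have d4 := H.dT (m + 1) hx
  have h := ((((d1.pow (m + 1 + 3)).div (d2.pow (m + 1)) (pow_pos hP _).ne').const_mul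
    (kap (m + 1))).sub d4).add ((d3.pow 2).div d1 hM.ne')
  refine h.congr_deriv ?_
  unfold Ph'
  simp only [Pi.pow_apply]
  have hM' := hM.ne'
  have hP' := hP.ne'
  set M := A g b 0 (m + 1) x
  set P := A g b 0 (m + 1 + 2) x
  set Z := S g b (m + 1) x
  set y := g x
  have e1 : m + 1 + 3 - 1 = m + 3 := by omega
  have e2 : m + 1 - 1 = m := by omega
  rw [e1, e2]
  simp only [pow_zero, one_mul, Nat.cast_ofNat, Nat.add_one_sub_one, pow_one]
  push_cast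
  field_simp
  ring

theorem Hyp.cPh (H : Hyp g b) (k : ℕ) : ContinuousOn (Ph g b k) (Ico 0 b) := by
  have hsub : Ico 0 b ⊆ Icc 0 b := fun x hx => ⟨hx.1, hx.2.le⟩
  have c1 := (H.cA 0 k).mono hsub
  have c2 := (H.cA 0 (k + 2)).mono hsub
  have c3 := (H.cS k).mono hsub
  have c4 := (H.cT k).mono hsub
  exact ((continuousOn_const.mul ((c1.pow _).div₀ (c2.pow _)
    fun x hx => (pow_pos (H.A0_pos (k + 2) hx) _).ne')).sub c4).add
    ((c3.pow 2).div₀ c1 fun x hx => (H.A0_pos k hx).ne')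

theorem Hyp.Ph'_nonpos (H : Hyp g b) (k : ℕ) (hk : 1 ≤ k) {x : ℝ} (hx : x ∈ Ioo 0 b) :
    Ph' g b k x ≤ 0 := by
  have hM := H.A0_pos k ⟨hx.1.le, hx.2⟩
  have hP := H.A0_pos (k + 2) ⟨hx.1.le, hx.2⟩
  have hy := H.pos ⟨hx.1.le, hx.2⟩
  exact mul_nonpos_of_nonneg_of_nonpos (by positivity) (sub_nonpos.2 (H.key k hk hx))

theorem Hyp.Ph_nonneg (H : Hyp g b) (k : ℕ) (hk : 1 ≤ k) {s : ℝ} (hs : s ∈ Ioo 0 b) :
    0 ≤ Ph g b k s := by
  have hsub : Ico s b ⊆ Ioo 0 b := fun x hx => ⟨hs.1.trans_le hx.1, hx.2⟩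
  have hsubO : Ico s b ⊆ Ico 0 b := fun x hx => ⟨(hs.1.trans_le hx.1).le, hx.2⟩
  refine zero_le (f := Ph g b k) (f' := Ph' g b k) (E := T g b k) hs.2
    ((H.cPh k).mono hsubO)
    (fun x hx => (H.dPh k hk (hsub hx)).hasDerivWithinAt)
    (fun x hx => H.Ph'_nonpos k hk (hsub hx))
    (tendsto_left H.b0 (H.cT k) (T_self k)) ?_
  intro t ht
  have hM := H.A0_pos k (hsubO ht)
  have hP := H.A0_pos (k + 2) (hsubO ht)
  have h1 : 0 ≤ kap k * (A g b 0 k t ^ (k + 3) / A g b 0 (k + 2) t ^ k) := by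
    unfold kap
    positivity
  have h2 : 0 ≤ S g b k t ^ 2 / A g b 0 k t := by positivity
  unfold Ph
  linarith

theorem Hyp.main (H : Hyp g b) (k : ℕ) (hk : 1 ≤ k) {s : ℝ} (hs : s ∈ Ioo 0 b) :
    (A g b 0 k s * T g b k s - S g b k s ^ 2) * A g b 0 (k + 2) s ^ k ≤
      kap k * A g b 0 k s ^ (k + 4) := by
  have h := H.Ph_nonneg k hk hs
  have hM := H.A0_pos k ⟨hs.1.le, hs.2⟩
  have hP := H.A0_pos (k + 2) ⟨hs.1.le, hs.2⟩
  unfold Ph at h
  have h2 := mul_nonneg h (mul_pos hM (pow_pos hP k)).le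
  have e1 : (kap k * (A g b 0 k s ^ (k + 3) / A g b 0 (k + 2) s ^ k) - T g b k s +
      S g b k s ^ 2 / A g b 0 k s) * (A g b 0 k s * A g b 0 (k + 2) s ^ k) =
      kap k * A g b 0 k s ^ (k + 4) -
        (A g b 0 k s * T g b k s - S g b k s ^ 2) * A g b 0 (k + 2) s ^ k := by
    have hM' := hM.ne'
    have hP' := (pow_pos hP k).ne'
    field_simp
    ring
  rw [e1] at h2
  linarith

theorem Hyp.main0 (H : Hyp g b) (k : ℕ) (hk : 1 ≤ k) :
    (A g b 0 k 0 * A g b 2 k 0 - A g b 1 k 0 ^ 2) * A g b 0 (k + 2) 0 ^ k ≤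
      kap k * A g b 0 k 0 ^ (k + 4) := by
  have hc : ContinuousOn (fun s => kap k * A g b 0 k s ^ (k + 4) -
      (A g b 0 k s * T g b k s - S g b k s ^ 2) * A g b 0 (k + 2) s ^ k) (Icc 0 b) :=
    (continuousOn_const.mul ((H.cA 0 k).pow _)).sub
      ((((H.cA 0 k).mul (H.cT k)).sub ((H.cS k).pow 2)).mul ((H.cA 0 (k + 2)).pow k))
  have h0 := (hc 0 (left_mem_Icc.2 H.b0.le)).mono_of_mem_nhdsWithin (s := Ioi 0) (by
    exact mem_of_superset (Ioo_mem_nhdsGT H.b0) fun x hx => ⟨hx.1.le, hx.2.le⟩)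
  have h1 := ge_of_tendsto (b := (0 : ℝ)) h0 (by
    filter_upwards [Ioo_mem_nhdsGT H.b0] with t ht
    exact sub_nonneg.2 (H.main k hk ht))
  have e1 : T g b k 0 = A g b 2 k 0 := by unfold T; ring
  have e2 : S g b k 0 = A g b 1 k 0 := by unfold S; ring
  simp only [e1, e2] at h1
  linarith

end J490

/-- [A4] -/
theorem J490.dec_concave (k : ℕ) (hk : 1 ≤ k) {b : ℝ} (hb : 0 ≤ b) {g : ℝ → ℝ}
    (hconc : ConcaveOn ℝ (Icc 0 b) g) (hanti : AntitoneOn g (Icc 0 b))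
    (hpos : ∀ s ∈ Icc 0 b, 0 ≤ g s) :
    ((∫ t in (0 : ℝ)..b, g t ^ k) * (∫ t in (0 : ℝ)..b, t ^ 2 * g t ^ k) -
        (∫ t in (0 : ℝ)..b, t * g t ^ k) ^ 2) * (∫ t in (0 : ℝ)..b, g t ^ (k + 2)) ^ k ≤
      kap k * (∫ t in (0 : ℝ)..b, g t ^ k) ^ (k + 4) := by
  rcases hb.eq_or_lt with rfl | hb
  · simp
  rcases (hpos 0 (left_mem_Icc.2 hb.le)).eq_or_lt with h0 | h0
  · have hz : ∀ t ∈ uIcc 0 b, g t = 0 := by
      intro t ht
      rw [uIcc_of_le hb.le] at ht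
      exact le_antisymm (h0 ▸ hanti (left_mem_Icc.2 hb.le) ht ht.1) (hpos t ht)
    have e : ∀ (w : ℝ → ℝ) (j : ℕ), ∫ t in (0 : ℝ)..b, w t * g t ^ (j + 1) = 0 := by
      intro w j
      rw [intervalIntegral.integral_congr (g := fun _ => 0) (fun t ht => by
        simp only [hz t ht]; ring)]
      simp
    obtain ⟨m, rfl⟩ : ∃ m, k = m + 1 := ⟨k - 1, by omega⟩
    have e0 := e (fun _ => 1) m
    have e1 := e (fun t => t) m
    have e2 := e (fun t => t ^ 2) m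
    simp only [one_mul] at e0
    rw [e0, e1, e2]
    simp
  · have H : J490.Hyp g b := ⟨hb, hconc, hanti, hpos, h0⟩
    have h := H.main0 k hk
    unfold J490.A at h
    simp only [pow_zero, one_mul, pow_one] at h
    exact h

end Vale.Agent.P254.Perm
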