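import Vale.Agent.P254.Perm.Slices
import Vale.Agent.P254.Perm.BdOne
import Vale.Agent.P254.Perm.BdSucc
import Vale.Agent.P254.Perm.Det449
import Vale.Agent.P254.Unc.Stab2
import Vale.Agent.P254.Unc.DimOne

/-!
P254: the convex bodies which are invariant under the permutations of the coordinates have isotropic
constant at most that of the simplex.
-/

open MeasureTheory Set Matrix

namespace Vale.Agent.P254.Perm

theorem bd_succ (m : ℕ) (hm : 1 ≤ m) (hB : Bd m) : Bd (m + 1) :=
  bd_succ_of m hm (fun _ hc hL hs i => slices m hm hc hL hs hB i) (fun _ h1 h2 i => sym_mean h1 h2 i)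
    (fun _ h i j => sym_sq h i j)

theorem bd_all (m : ℕ) (hm : 1 ≤ m) : Bd m := by
  induction m, hm using Nat.le_induction with
  | base => exact bd_one
  | succ m hm ih => exact bd_succ m hm ih

/-- [F1] the determinant of the covariance matrix -/
theorem det_le (m : ℕ) (hm : 1 ≤ m) {K : Set (Fin (m + 1) → ℝ)} (hK : IsConvexBody K)
    (hp : ∀ σ : Equiv.Perm (Fin (m + 1)), ∀ x ∈ K, (fun i => x (σ i)) ∈ K) :
    (covMatrix K).det ≤ ((m + 1).factorial : ℝ) ^ 2 /
      (((m : ℝ) + 2) ^ (m + 2) * ((m : ℝ) + 3) ^ (m + 1)) * (volume K).toReal ^ 2 :=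
  D449.det_le_of hm (fun {_} hc hL hs i => (slices m hm hc hL hs (bd_all m hm) i).2.2) hK hp

/-- The isotropic constant of a permutation invariant convex body is at most that of the simplex. -/
theorem isoConst_le {n : ℕ} (hn : 1 ≤ n) {K S : Set (Fin n → ℝ)} (hK : IsConvexBody K)
    (hS : IsSimplex S) (hp : ∀ σ : Equiv.Perm (Fin n), ∀ x ∈ K, (fun i => x (σ i)) ∈ K) :
    isoConst K ≤ isoConst S := by
  rcases Nat.lt_or_ge n 2 with h | h
  · have h1 : n = 1 := by omega
    subst h1
    have hKs := isSimplex_of_dim_one hK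
    rw [isoConst_simplex hKs, isoConst_simplex hS]
  · obtain ⟨m, rfl⟩ : ∃ m, n = m + 1 := ⟨n - 1, by omega⟩
    have hm : 1 ≤ m := by omega
    have hV := volume_pos_of_body hK
    have h1 := det_le m hm hK hp
    have h2 : (covMatrix K).det / (volume K).toReal ^ 2 ≤ FV.simpC (m + 1) := by
      rw [div_le_iff₀ (by positivity)]
      refine h1.trans (le_of_eq ?_)
      congr 1
      unfold FV.simpC
      push_cast
      rw [mul_pow]
      congr 1
      rw [show (m : ℝ) + 1 + 1 = m + 2 by ring, show (m : ℝ) + 1 + 2 = m + 3 by ring, pow_succ]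
      ring
    rw [isoConst_simplex hS, isoConst, isoConst, FV.det_simplex (by omega)]
    exact Real.rpow_le_rpow (div_nonneg (covMatrix_posSemidef hK.2.1).det_nonneg (by positivity))
      h2 (by positivity)

/-- The same for the affine images. -/
theorem isoConst_aff_le {n : ℕ} (hn : 1 ≤ n) {K S : Set (Fin n → ℝ)} (hS : IsSimplex S)
    (h : ∃ (A : Matrix (Fin n) (Fin n) ℝ) (b : Fin n → ℝ) (U : Set (Fin n → ℝ)), A.det ≠ 0 ∧
      IsConvexBody U ∧ (∀ σ : Equiv.Perm (Fin n), ∀ x ∈ U, (fun i => x (σ i)) ∈ U) ∧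
      K = (fun x => A *ᵥ x + b) '' U) :
    isoConst K ≤ isoConst S := by
  obtain ⟨A, b, U, hA, hU, hp, rfl⟩ := h
  have e : isoConst ((fun x => A *ᵥ x + b) '' U) = isoConst U :=
    isoConst_aff_image hA b hU.2.1 (volume_pos_of_body hU).ne'
  rw [e]
  exact isoConst_le hn hU hS hp

end Vale.Agent.P254.Perm
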