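import Vale.Agent.P254.Perm.Defs

/-!
P254, permutation invariant bodies: the one-dimensional inequality for concave functions, from the
case of the decreasing functions and the decreasing rearrangement.
-/

open MeasureTheory Set

namespace Vale.Agent.P254.Perm

theorem one_dim_of (k : ℕ)
    (hrearr : ∀ {a b : ℝ}, a < b → ∀ {g : ℝ → ℝ}, ConcaveOn ℝ (Icc a b) g →
      (∀ s ∈ Icc a b, 0 ≤ g s) →
      ∃ h : ℝ → ℝ, ConcaveOn ℝ (Icc 0 (b - a)) h ∧ AntitoneOn h (Icc 0 (b - a)) ∧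
      (∀ s ∈ Icc 0 (b - a), 0 ≤ h s) ∧
      (∫ t in (0 : ℝ)..(b - a), h t ^ k) = (∫ t in a..b, g t ^ k) ∧
      (∫ t in (0 : ℝ)..(b - a), h t ^ (k + 2)) = (∫ t in a..b, g t ^ (k + 2)) ∧
      (∫ t in a..b, g t ^ k) * (∫ t in a..b, t ^ 2 * g t ^ k) - (∫ t in a..b, t * g t ^ k) ^ 2 ≤
        (∫ t in (0 : ℝ)..(b - a), h t ^ k) * (∫ t in (0 : ℝ)..(b - a), t ^ 2 * h t ^ k) -
          (∫ t in (0 : ℝ)..(b - a), t * h t ^ k) ^ 2)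
    (hdec : ∀ {b : ℝ}, 0 ≤ b → ∀ {g : ℝ → ℝ}, ConcaveOn ℝ (Icc 0 b) g → AntitoneOn g (Icc 0 b) →
      (∀ s ∈ Icc 0 b, 0 ≤ g s) →
      ((∫ t in (0 : ℝ)..b, g t ^ k) * (∫ t in (0 : ℝ)..b, t ^ 2 * g t ^ k) -
        (∫ t in (0 : ℝ)..b, t * g t ^ k) ^ 2) * (∫ t in (0 : ℝ)..b, g t ^ (k + 2)) ^ k ≤
      kap k * (∫ t in (0 : ℝ)..b, g t ^ k) ^ (k + 4))
    {a b : ℝ} (hab : a ≤ b) {g : ℝ → ℝ}
    (hconc : ConcaveOn ℝ (Icc a b) g) (hpos : ∀ s ∈ Icc a b, 0 ≤ g s) :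
    ((∫ t in a..b, g t ^ k) * (∫ t in a..b, t ^ 2 * g t ^ k) -
        (∫ t in a..b, t * g t ^ k) ^ 2) * (∫ t in a..b, g t ^ (k + 2)) ^ k ≤
      kap k * (∫ t in a..b, g t ^ k) ^ (k + 4) := by
  rcases hab.eq_or_lt with rfl | hab
  · simp
  obtain ⟨h, h1, h2, h3, h4, h5, h6⟩ := hrearr hab hconc hpos
  have h7 := hdec (sub_pos.2 hab).le h1 h2 h3
  rw [h5] at h7
  have hP : 0 ≤ (∫ t in a..b, g t ^ (k + 2)) ^ k :=
    pow_nonneg (intervalIntegral.integral_nonneg hab.le fun t ht => pow_nonneg (hpos t ht) _) _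
  calc _ ≤ _ := mul_le_mul_of_nonneg_right h6 hP
    _ ≤ _ := h7
    _ = _ := by rw [h4]

end Vale.Agent.P254.Perm
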