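import Vale.Agent.P254.Perm.Defs

/-!
P254, permutation invariant bodies: the equality case of the one-dimensional inequality, from the
equality case for decreasing functions, the tents and the rearrangement (helper898).
-/

open MeasureTheory Set

namespace Vale.Agent.P254.Perm.OneEq898

theorem int_cone (k : ℕ) (B c : ℝ) :
    ∫ t in (0 : ℝ)..B, (c * (B - t)) ^ k = c ^ k * (B ^ (k + 1) / (k + 1)) := by
  have h := intervalIntegral.integral_comp_sub_left (a := 0) (b := B) (fun u : ℝ => (c * u) ^ k) B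
  simp only [sub_self, sub_zero] at h
  rw [h]
  simp only [mul_pow]
  rw [intervalIntegral.integral_const_mul, integral_pow]
  simp

theorem int_cone1 (k : ℕ) (B c : ℝ) :
    ∫ t in (0 : ℝ)..B, t * (c * (B - t)) ^ k =
      c ^ k * (B ^ (k + 2) / (k + 1) - B ^ (k + 2) / (k + 2)) := by
  have h := intervalIntegral.integral_comp_sub_left (a := 0) (b := B)
    (fun u : ℝ => (B - u) * (c * u) ^ k) B
  simp only [sub_self, sub_zero, sub_sub_cancel] at h
  rw [h]
  have e : ∀ u : ℝ, (B - u) * (c * u) ^ k = c ^ k * (B * u ^ k - u ^ (k + 1)) := fun u => by ring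
  simp only [e]
  rw [intervalIntegral.integral_const_mul, intervalIntegral.integral_sub
    ((by fun_prop : Continuous fun u : ℝ => B * u ^ k).intervalIntegrable _ _)
    ((by fun_prop : Continuous fun u : ℝ => u ^ (k + 1)).intervalIntegrable _ _),
    intervalIntegral.integral_const_mul, integral_pow, integral_pow]
  have h1 : (k : ℝ) + 1 ≠ 0 := by positivity
  have h2 : (k : ℝ) + 2 ≠ 0 := by positivity
  push_cast
  rw [show (k : ℝ) + 1 + 1 = k + 2 by ring]
  simp only [ne_eq, Nat.succ_ne_zero, not_false_eq_true, zero_pow, sub_zero]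
  field_simp
  ring

theorem int_cone2 (k : ℕ) (B c : ℝ) :
    ∫ t in (0 : ℝ)..B, t ^ 2 * (c * (B - t)) ^ k =
      c ^ k * (B ^ (k + 3) / (k + 1) - 2 * B ^ (k + 3) / (k + 2) + B ^ (k + 3) / (k + 3)) := by
  have h := intervalIntegral.integral_comp_sub_left (a := 0) (b := B)
    (fun u : ℝ => (B - u) ^ 2 * (c * u) ^ k) B
  simp only [sub_self, sub_zero, sub_sub_cancel] at h
  rw [h]
  have e : ∀ u : ℝ, (B - u) ^ 2 * (c * u) ^ k =
      c ^ k * ((B ^ 2 * u ^ k - 2 * B * u ^ (k + 1)) + u ^ (k + 2)) := fun u => by ring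
  simp only [e]
  rw [intervalIntegral.integral_const_mul, intervalIntegral.integral_add
    ((by fun_prop : Continuous fun u : ℝ =>
      B ^ 2 * u ^ k - 2 * B * u ^ (k + 1)).intervalIntegrable _ _)
    ((by fun_prop : Continuous fun u : ℝ => u ^ (k + 2)).intervalIntegrable _ _),
    intervalIntegral.integral_sub
    ((by fun_prop : Continuous fun u : ℝ => B ^ 2 * u ^ k).intervalIntegrable _ _)
    ((by fun_prop : Continuous fun u : ℝ => 2 * B * u ^ (k + 1)).intervalIntegrable _ _),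
    intervalIntegral.integral_const_mul, intervalIntegral.integral_const_mul,
    integral_pow, integral_pow, integral_pow]
  have h1 : (k : ℝ) + 1 ≠ 0 := by positivity
  have h2 : (k : ℝ) + 2 ≠ 0 := by positivity
  have h3 : (k : ℝ) + 3 ≠ 0 := by positivity
  push_cast
  rw [show (k : ℝ) + 1 + 1 = k + 2 by ring, show (k : ℝ) + 2 + 1 = k + 3 by ring]
  simp only [ne_eq, Nat.succ_ne_zero, not_false_eq_true, zero_pow, sub_zero]
  field_simp
  ring

/-- For the cone there is equality. -/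
theorem cone_val (k : ℕ) (B c : ℝ) :
    ((∫ t in (0 : ℝ)..B, (c * (B - t)) ^ k) * (∫ t in (0 : ℝ)..B, t ^ 2 * (c * (B - t)) ^ k) -
        (∫ t in (0 : ℝ)..B, t * (c * (B - t)) ^ k) ^ 2) *
        (∫ t in (0 : ℝ)..B, (c * (B - t)) ^ (k + 2)) ^ k =
      kap k * (∫ t in (0 : ℝ)..B, (c * (B - t)) ^ k) ^ (k + 4) := by
  rw [int_cone, int_cone1, int_cone2, int_cone]
  have h1 : (k : ℝ) + 1 ≠ 0 := by positivity
  have h2 : (k : ℝ) + 2 ≠ 0 := by positivity
  have h3 : (k : ℝ) + 3 ≠ 0 := by positivity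
  have e1 : c ^ k * (B ^ (k + 1) / (k + 1)) *
      (c ^ k * (B ^ (k + 3) / (k + 1) - 2 * B ^ (k + 3) / (k + 2) + B ^ (k + 3) / (k + 3))) -
      (c ^ k * (B ^ (k + 2) / (k + 1) - B ^ (k + 2) / (k + 2))) ^ 2 =
      (c ^ k) ^ 2 * (B ^ (k + 2)) ^ 2 / (((k : ℝ) + 1) * (k + 2) ^ 2 * (k + 3)) := by
    field_simp
    ring
  rw [e1, kap]
  push_cast
  rw [show (k : ℝ) + 2 + 1 = k + 3 by ring]
  have e2 : (c ^ (k + 2) * (B ^ (k + 2 + 1) / ((k : ℝ) + 3))) ^ k =
      (c ^ (k + 2)) ^ k * (B ^ (k + 3)) ^ k / ((k : ℝ) + 3) ^ k := by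
    rw [mul_pow, div_pow]; ring
  have e3 : (c ^ k * (B ^ (k + 1) / ((k : ℝ) + 1))) ^ (k + 4) =
      (c ^ k) ^ (k + 4) * (B ^ (k + 1)) ^ (k + 4) / ((k : ℝ) + 1) ^ (k + 4) := by
    rw [mul_pow, div_pow]; ring
  rw [e2, e3]
  rw [div_mul_div_comm, div_mul_div_comm, div_eq_div_iff (by positivity) (by positivity)]
  ring

/-- The variance does not change under a translation. -/
theorem shift_var {a b : ℝ} {f : ℝ → ℝ} (hf : Continuous f) :
    (∫ t in a..b, f (t - a)) * (∫ t in a..b, t ^ 2 * f (t - a)) -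
        (∫ t in a..b, t * f (t - a)) ^ 2 =
      (∫ t in (0 : ℝ)..(b - a), f t) * (∫ t in (0 : ℝ)..(b - a), t ^ 2 * f t) -
        (∫ t in (0 : ℝ)..(b - a), t * f t) ^ 2 := by
  have h0 := intervalIntegral.integral_comp_sub_right (a := a) (b := b) f a
  have h1 := intervalIntegral.integral_comp_sub_right (a := a) (b := b)
    (fun t => (t + a) * f t) a
  have h2 := intervalIntegral.integral_comp_sub_right (a := a) (b := b)
    (fun t => (t + a) ^ 2 * f t) a
  simp only [sub_self, sub_add_cancel] at h0 h1 h2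
  rw [h0, h1, h2]
  have e1 : ∫ t in (0 : ℝ)..(b - a), (t + a) * f t =
      (∫ t in (0 : ℝ)..(b - a), t * f t) + a * ∫ t in (0 : ℝ)..(b - a), f t := by
    rw [← intervalIntegral.integral_const_mul, ← intervalIntegral.integral_add
      ((by fun_prop : Continuous fun t : ℝ => t * f t).intervalIntegrable _ _)
      ((by fun_prop : Continuous fun t : ℝ => a * f t).intervalIntegrable _ _)]
    exact intervalIntegral.integral_congr fun t _ => by ring
  have e2 : ∫ t in (0 : ℝ)..(b - a), (t + a) ^ 2 * f t =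
      (∫ t in (0 : ℝ)..(b - a), t ^ 2 * f t) + (2 * a * (∫ t in (0 : ℝ)..(b - a), t * f t) +
        a ^ 2 * ∫ t in (0 : ℝ)..(b - a), f t) := by
    rw [← intervalIntegral.integral_const_mul, ← intervalIntegral.integral_const_mul,
      ← intervalIntegral.integral_add
      ((by fun_prop : Continuous fun t : ℝ => 2 * a * (t * f t)).intervalIntegrable _ _)
      ((by fun_prop : Continuous fun t : ℝ => a ^ 2 * f t).intervalIntegrable _ _),
      ← intervalIntegral.integral_add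
      ((by fun_prop : Continuous fun t : ℝ => t ^ 2 * f t).intervalIntegrable _ _)
      ((by fun_prop : Continuous fun t : ℝ =>
        2 * a * (t * f t) + a ^ 2 * f t).intervalIntegrable _ _)]
    exact intervalIntegral.integral_congr fun t _ => by ring
  rw [e1, e2]
  ring

theorem one_dim_eq_of (k : ℕ)
    (dec : ∀ {b : ℝ}, 0 < b → ∀ {g : ℝ → ℝ}, ConcaveOn ℝ (Icc 0 b) g → AntitoneOn g (Icc 0 b) →
      (∀ s ∈ Icc 0 b, 0 ≤ g s) → (0 < ∫ t in (0 : ℝ)..b, g t ^ k) →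
      (kap k * (∫ t in (0 : ℝ)..b, g t ^ k) ^ (k + 4) ≤
        ((∫ t in (0 : ℝ)..b, g t ^ k) * (∫ t in (0 : ℝ)..b, t ^ 2 * g t ^ k) -
          (∫ t in (0 : ℝ)..b, t * g t ^ k) ^ 2) * (∫ t in (0 : ℝ)..b, g t ^ (k + 2)) ^ k) →
      ∃ c : ℝ, 0 < c ∧ ∀ s ∈ Ioo 0 b, g s = c * (b - s))
    (tent : ∀ {a b c : ℝ}, a < b → 0 < c → ∀ {g : ℝ → ℝ},
      ConcaveOn ℝ (Icc a b) g → (∀ s ∈ Icc a b, 0 ≤ g s) →
      (∀ t : ℝ, 0 < t → t < c * (b - a) →
        volume {s | s ∈ Icc a b ∧ t < g s} = ENNReal.ofReal ((b - a) - t / c)) →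
      ((∫ t in a..b, (c * (b - t)) ^ k) * (∫ t in a..b, t ^ 2 * (c * (b - t)) ^ k) -
          (∫ t in a..b, t * (c * (b - t)) ^ k) ^ 2 ≤
        (∫ t in a..b, g t ^ k) * (∫ t in a..b, t ^ 2 * g t ^ k) -
          (∫ t in a..b, t * g t ^ k) ^ 2) →
      (∀ s ∈ Ioo a b, g s = c * (b - s)) ∨ ∀ s ∈ Ioo a b, g s = c * (s - a))
    (rea : ∀ {a b : ℝ}, a < b → ∀ {g : ℝ → ℝ},
      ConcaveOn ℝ (Icc a b) g → (∀ s ∈ Icc a b, 0 ≤ g s) →
      ∃ h : ℝ → ℝ, ConcaveOn ℝ (Icc 0 (b - a)) h ∧ AntitoneOn h (Icc 0 (b - a)) ∧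
        (∀ s ∈ Icc 0 (b - a), 0 ≤ h s) ∧
        (∀ t : ℝ, 0 < t → volume {s | s ∈ Icc 0 (b - a) ∧ t < h s} =
          volume {s | s ∈ Icc a b ∧ t < g s}) ∧
        (∫ t in (0 : ℝ)..(b - a), h t ^ k) = (∫ t in a..b, g t ^ k) ∧
        (∫ t in (0 : ℝ)..(b - a), h t ^ (k + 2)) = (∫ t in a..b, g t ^ (k + 2)) ∧
        (∫ t in a..b, g t ^ k) * (∫ t in a..b, t ^ 2 * g t ^ k) -
            (∫ t in a..b, t * g t ^ k) ^ 2 ≤
          (∫ t in (0 : ℝ)..(b - a), h t ^ k) * (∫ t in (0 : ℝ)..(b - a), t ^ 2 * h t ^ k) -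
            (∫ t in (0 : ℝ)..(b - a), t * h t ^ k) ^ 2)
    {a b : ℝ} (hab : a < b) {g : ℝ → ℝ}
    (hconc : ConcaveOn ℝ (Icc a b) g) (hpos : ∀ s ∈ Icc a b, 0 ≤ g s)
    (hM : 0 < ∫ t in a..b, g t ^ k)
    (heq : kap k * (∫ t in a..b, g t ^ k) ^ (k + 4) ≤
      ((∫ t in a..b, g t ^ k) * (∫ t in a..b, t ^ 2 * g t ^ k) -
        (∫ t in a..b, t * g t ^ k) ^ 2) * (∫ t in a..b, g t ^ (k + 2)) ^ k) :
    ∃ c : ℝ, 0 < c ∧ ((∀ s ∈ Ioo a b, g s = c * (b - s)) ∨ ∀ s ∈ Ioo a b, g s = c * (s - a)) := by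
  obtain ⟨h, h1, h2, h3, hl, h4, h5, h6⟩ := rea hab hconc hpos
  have hba : 0 < b - a := sub_pos.2 hab
  have hP0 : 0 ≤ ∫ t in a..b, g t ^ (k + 2) :=
    intervalIntegral.integral_nonneg hab.le fun t ht => pow_nonneg (hpos t ht) _
  have hP : 0 ≤ (∫ t in a..b, g t ^ (k + 2)) ^ k := pow_nonneg hP0 _
  obtain ⟨c, hc, hcs⟩ := dec hba h1 h2 h3 (by rw [h4]; exact hM) (by
    rw [h4, h5]
    refine heq.trans ?_
    have := mul_le_mul_of_nonneg_right h6 hP
    rwa [h4] at this)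
  refine ⟨c, hc, tent hab hc hconc hpos ?_ ?_⟩
  · intro t ht0 ht1
    rw [← hl t ht0]
    have hlt : 0 < (b - a) - t / c := by
      rw [sub_pos, div_lt_iff₀ hc]; linarith
    have e : {s | s ∈ Icc 0 (b - a) ∧ t < h s} =ᵐ[volume] Ioo (0 : ℝ) ((b - a) - t / c) := by
      have hz : ∀ᵐ s ∂(volume : Measure ℝ), s ≠ 0 := by
        simp [ae_iff, measure_singleton]
      have hz' : ∀ᵐ s ∂(volume : Measure ℝ), s ≠ b - a := by
        simp [ae_iff, measure_singleton]
      filter_upwards [hz, hz'] with s hs0 hs1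
      have key : s ∈ {s | s ∈ Icc 0 (b - a) ∧ t < h s} ↔ s ∈ Ioo (0 : ℝ) ((b - a) - t / c) := by
        constructor
        · rintro ⟨⟨u1, u2⟩, u3⟩
          have v : s ∈ Ioo 0 (b - a) := ⟨lt_of_le_of_ne u1 (Ne.symm hs0), lt_of_le_of_ne u2 hs1⟩
          rw [hcs s v] at u3
          refine ⟨v.1, ?_⟩
          have : t / c < b - a - s := by rw [div_lt_iff₀ hc]; linarith
          linarith
        · rintro ⟨u1, u2⟩
          have htc : 0 < t / c := div_pos ht0 hc
          have v : s ∈ Ioo 0 (b - a) := ⟨u1, by linarith⟩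
          refine ⟨⟨v.1.le, v.2.le⟩, ?_⟩
          rw [hcs s v]
          have : t / c < b - a - s := by linarith
          rw [div_lt_iff₀ hc] at this
          linarith
      exact propext key
    rw [measure_congr e, Real.volume_Ioo, sub_zero]
  · -- the variance of the cone
    have hcone : ∀ φ : ℝ → ℝ → ℝ,
        ∫ t in (0 : ℝ)..(b - a), φ t (h t) = ∫ t in (0 : ℝ)..(b - a), φ t (c * (b - a - t)) := by
      intro φ
      refine intervalIntegral.integral_congr_ae ?_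
      have hz' : ∀ᵐ s ∂(volume : Measure ℝ), s ≠ b - a := by
        simp [ae_iff, measure_singleton]
      filter_upwards [hz'] with s hs1 hs
      rw [uIoc_of_le hba.le] at hs
      rw [hcs s ⟨hs.1, lt_of_le_of_ne hs.2 hs1⟩]
    have c0 := hcone (fun _ y => y ^ k)
    have c2 := hcone (fun _ y => y ^ (k + 2))
    have hM' : 0 < ∫ t in (0 : ℝ)..(b - a), (c * (b - a - t)) ^ k := by rw [← c0, h4]; exact hM
    have hPc : 0 < ∫ t in (0 : ℝ)..(b - a), (c * (b - a - t)) ^ (k + 2) := by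
      rw [int_cone]
      positivity
    have hPk : 0 < (∫ t in a..b, g t ^ (k + 2)) ^ k := by
      rw [← h5, c2]; exact pow_pos hPc _
    have hv := cone_val k (b - a) c
    have e1 : (∫ t in a..b, (c * (b - t)) ^ k) * (∫ t in a..b, t ^ 2 * (c * (b - t)) ^ k) -
        (∫ t in a..b, t * (c * (b - t)) ^ k) ^ 2 =
        (∫ t in (0 : ℝ)..(b - a), (c * (b - a - t)) ^ k) *
          (∫ t in (0 : ℝ)..(b - a), t ^ 2 * (c * (b - a - t)) ^ k) -
        (∫ t in (0 : ℝ)..(b - a), t * (c * (b - a - t)) ^ k) ^ 2 := by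
      have := shift_var (a := a) (b := b) (f := fun t => (c * (b - a - t)) ^ k) (by fun_prop)
      have e : ∀ t : ℝ, b - a - (t - a) = b - t := fun t => by ring
      simp only [e] at this
      exact this
    rw [e1]
    rw [← mul_le_mul_iff_left₀ hPk]
    refine le_trans (le_of_eq ?_) heq
    rw [← h5, c2, hv, ← h4, c0]

end Vale.Agent.P254.Perm.OneEq898
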