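import Vale.Agent.P254.Perm.Defs

/-!
P254: the decreasing rearrangement of a concave function on an interval.
-/

open MeasureTheory Set

namespace Vale.Agent.P254.Perm

namespace R434

/-- superlevel set -/
def Lev (c d : ℝ) (φ : ℝ → ℝ) (t : ℝ) : Set ℝ := {x | x ∈ Icc c d ∧ t < φ x}

theorem meas_ind {c d : ℝ} {φ : ℝ → ℝ} (h0 : ∀ x ∈ Icc c d, 0 ≤ φ x)
    (hm : ∀ t, MeasurableSet (Lev c d φ t)) : Measurable ((Icc c d).indicator φ) := by
  refine measurable_of_Ioi fun t => ?_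
  rcases lt_or_ge t 0 with ht | ht
  · have h1 : (Icc c d).indicator φ ⁻¹' Ioi t = univ := by
      ext x
      simp only [mem_preimage, mem_Ioi, mem_univ, iff_true]
      exact lt_of_lt_of_le ht (indicator_nonneg h0 x)
    rw [h1]
    exact MeasurableSet.univ
  · have h1 : (Icc c d).indicator φ ⁻¹' Ioi t = Lev c d φ t := by
      ext x
      by_cases hx : x ∈ Icc c d
      · simp only [mem_preimage, indicator_of_mem hx, mem_Ioi, Lev, mem_ofPred_eq, hx, true_and]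
      · simp only [mem_preimage, indicator_of_notMem hx, mem_Ioi, Lev, mem_ofPred_eq, hx,
          false_and, iff_false, not_lt]
        exact ht
    rw [h1]
    exact hm t

theorem intg (k : ℕ) {c d : ℝ} {φ w : ℝ → ℝ} {C : ℝ}
    (h0 : ∀ x ∈ Icc c d, 0 ≤ φ x) (hC : ∀ x ∈ Icc c d, φ x ≤ C)
    (hm : ∀ t, MeasurableSet (Lev c d φ t)) (hw : Continuous w) :
    IntegrableOn (fun x => w x * φ x ^ k) (Icc c d) := by
  obtain ⟨W, hW⟩ := isCompact_Icc.exists_bound_of_continuousOn (hw.continuousOn (s := Icc c d))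
  have h1 : AEStronglyMeasurable (fun x => w x * φ x ^ k) (volume.restrict (Icc c d)) := by
    have h2 : AEStronglyMeasurable (fun x => w x * (Icc c d).indicator φ x ^ k)
        (volume.restrict (Icc c d)) :=
      (hw.measurable.mul ((meas_ind h0 hm).pow_const k)).aestronglyMeasurable
    refine h2.congr ?_
    filter_upwards [ae_restrict_mem measurableSet_Icc] with x hx
    rw [indicator_of_mem hx]
  refine Integrable.mono' (integrable_const (W * C ^ k)) h1 ?_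
  filter_upwards [ae_restrict_mem measurableSet_Icc] with x hx
  rw [norm_mul, norm_pow, Real.norm_of_nonneg (h0 x hx)]
  exact mul_le_mul (hW x hx) (pow_le_pow_left₀ (h0 x hx) (hC x hx) k)
    (pow_nonneg (h0 x hx) k) ((norm_nonneg _).trans (hW x hx))

theorem cake (k : ℕ) (hk : 1 ≤ k) {c d : ℝ} (hcd : c ≤ d) {φ w : ℝ → ℝ} {C : ℝ}
    (h0 : ∀ x ∈ Icc c d, 0 ≤ φ x) (hC : ∀ x ∈ Icc c d, φ x ≤ C)
    (hm : ∀ t, MeasurableSet (Lev c d φ t)) (hw : Continuous w) (hw0 : ∀ x, 0 ≤ w x) :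
    ENNReal.ofReal (∫ x in c..d, w x * φ x ^ k) =
      ∫⁻ t in Ioi (0 : ℝ), ∫⁻ x in Lev c d φ (t ^ ((k : ℝ)⁻¹)), ENNReal.ofReal (w x) := by
  have hk0 : k ≠ 0 := by omega
  rw [intervalIntegral.integral_of_le hcd, ← integral_Icc_eq_integral_Ioc,
    ofReal_integral_eq_lintegral_ofReal (intg k h0 hC hm hw) ?_]
  swap
  · filter_upwards [ae_restrict_mem measurableSet_Icc] with x hx
    exact mul_nonneg (hw0 x) (pow_nonneg (h0 x hx) k)
  have h1 : (∫⁻ x in Icc c d, ENNReal.ofReal (w x * φ x ^ k)) =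
      ∫⁻ x, ENNReal.ofReal ((Icc c d).indicator φ x ^ k)
        ∂(volume.withDensity fun x => ENNReal.ofReal (w x)) := by
    rw [lintegral_withDensity_eq_lintegral_mul volume hw.measurable.ennreal_ofReal
      (((meas_ind h0 hm).pow_const k).ennreal_ofReal), ← lintegral_indicator measurableSet_Icc]
    refine lintegral_congr fun x => ?_
    by_cases hx : x ∈ Icc c d
    · simp only [indicator_of_mem hx, Pi.mul_apply]
      rw [← ENNReal.ofReal_mul (hw0 x)]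
    · simp only [indicator_of_notMem hx, Pi.mul_apply, zero_pow hk0, ENNReal.ofReal_zero, mul_zero]
  rw [h1, lintegral_eq_lintegral_meas_lt _
    (ae_of_all _ fun x => pow_nonneg (indicator_nonneg h0 x) k)
    ((meas_ind h0 hm).pow_const k).aemeasurable]
  refine setLIntegral_congr_fun measurableSet_Ioi fun t ht => ?_
  have ht' : 0 < t := ht
  have h2 : {x | t < (Icc c d).indicator φ x ^ k} = Lev c d φ (t ^ ((k : ℝ)⁻¹)) := by
    have h3 : (t ^ ((k : ℝ)⁻¹)) ^ k = t := Real.rpow_inv_natCast_pow ht'.le hk0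
    have h4 : 0 ≤ t ^ ((k : ℝ)⁻¹) := Real.rpow_nonneg ht'.le _
    ext x
    by_cases hx : x ∈ Icc c d
    · simp only [mem_ofPred_eq, indicator_of_mem hx, Lev, hx, true_and]
      conv_lhs => rw [← h3]
      exact pow_lt_pow_iff_left₀ h4 (h0 x hx) hk0
    · simp only [mem_ofPred_eq, indicator_of_notMem hx, Lev, hx, false_and, iff_false, not_lt]
      rw [zero_pow hk0]
      exact ht'.le
  rw [h2, withDensity_apply _ (hm _)]

theorem vol_eq {E : Set ℝ} {p q : ℝ} (h1 : Ioo p q ⊆ E) (h2 : E ⊆ Icc p q) :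
    volume E = ENNReal.ofReal (q - p) :=
  le_antisymm ((measure_mono h2).trans_eq Real.volume_Icc)
    (Real.volume_Ioo.symm.trans_le (measure_mono h1))

theorem int_sq {p q ν : ℝ} (hpq : p ≤ q) :
    (∫⁻ x in Ioc p q, ENNReal.ofReal ((x - ν) ^ 2)) =
      ENNReal.ofReal (((q - ν) ^ 3 - (p - ν) ^ 3) / 3) := by
  have hc : Continuous fun x : ℝ => (x - ν) ^ 2 := by fun_prop
  rw [← ofReal_integral_eq_lintegral_ofReal
    (hc.integrableOn_Icc.mono_set Ioc_subset_Icc_self) (ae_of_all _ fun x => sq_nonneg _),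
    ← intervalIntegral.integral_of_le hpq]
  congr 1
  rw [intervalIntegral.integral_comp_sub_right (fun x => x ^ 2) ν, integral_pow]
  norm_num

/-- the rearrangement -/
noncomputable def re (a b : ℝ) (g : ℝ → ℝ) (s : ℝ) : ℝ :=
  sSup ((fun x => min (g x) (g (x + s))) '' Icc a (b - s))

section

variable {a b : ℝ} {g : ℝ → ℝ}

theorem bd (hconc : ConcaveOn ℝ (Icc a b) g) (hpos : ∀ s ∈ Icc a b, 0 ≤ g s) :
    ∀ x ∈ Icc a b, g x ≤ 2 * g ((a + b) / 2) := by
  intro x hx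
  have hx' : a + b - x ∈ Icc a b := ⟨by linarith [hx.2], by linarith [hx.1]⟩
  have h1 := hconc.2 hx hx' (by norm_num : (0 : ℝ) ≤ 1 / 2) (by norm_num : (0 : ℝ) ≤ 1 / 2)
    (by norm_num)
  have h2 := hpos _ hx'
  simp only [smul_eq_mul] at h1
  have h3 : (1 / 2 : ℝ) * x + 1 / 2 * (a + b - x) = (a + b) / 2 := by ring
  rw [h3] at h1
  linarith

theorem bdd (hconc : ConcaveOn ℝ (Icc a b) g) (hpos : ∀ s ∈ Icc a b, 0 ≤ g s) {s : ℝ}
    (hs : 0 ≤ s) : BddAbove ((fun x => min (g x) (g (x + s))) '' Icc a (b - s)) := by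
  refine ⟨2 * g ((a + b) / 2), ?_⟩
  rintro _ ⟨x, hx, rfl⟩
  exact (min_le_left _ _).trans (bd hconc hpos x ⟨hx.1, by linarith [hx.2]⟩)

theorem ne (g : ℝ → ℝ) {s : ℝ} (hs : s ≤ b - a) :
    ((fun x => min (g x) (g (x + s))) '' Icc a (b - s)).Nonempty :=
  ⟨_, a, ⟨le_rfl, by linarith⟩, rfl⟩

theorem lt_re (hconc : ConcaveOn ℝ (Icc a b) g) (hpos : ∀ s ∈ Icc a b, 0 ≤ g s) {s t : ℝ}
    (hs : s ∈ Icc 0 (b - a)) :
    t < re a b g s ↔ ∃ x ∈ Icc a (b - s), t < g x ∧ t < g (x + s) := by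
  unfold re
  rw [lt_csSup_iff (bdd hconc hpos hs.1) (ne g hs.2)]
  constructor
  · rintro ⟨_, ⟨x, hx, rfl⟩, h⟩
    exact ⟨x, hx, lt_min_iff.1 h⟩
  · rintro ⟨x, hx, h⟩
    exact ⟨_, ⟨x, hx, rfl⟩, lt_min_iff.2 h⟩

theorem re_conc (hconc : ConcaveOn ℝ (Icc a b) g) (hpos : ∀ s ∈ Icc a b, 0 ≤ g s) :
    ConcaveOn ℝ (Icc 0 (b - a)) (re a b g) := by
  refine ⟨convex_Icc _ _, ?_⟩
  intro s hs s' hs' α β hα hβ hαβ
  have hS : α * s + β * s' ∈ Icc 0 (b - a) := (convex_Icc _ _) hs hs' hα hβ hαβ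
  simp only [smul_eq_mul]
  refine le_of_forall_pos_le_add fun ε hε => ?_
  obtain ⟨x, hx, h1, h2⟩ := (lt_re hconc hpos hs).1 (sub_lt_self (re a b g s) hε)
  obtain ⟨x', hx', h1', h2'⟩ := (lt_re hconc hpos hs').1 (sub_lt_self (re a b g s') hε)
  have hX : α * x + β * x' ∈ Icc a (b - (α * s + β * s')) := by
    obtain rfl : β = 1 - α := by linarith
    constructor
    · linarith [mul_nonneg hα (sub_nonneg.2 hx.1), mul_nonneg hβ (sub_nonneg.2 hx'.1)]
    · linarith [mul_nonneg hα (sub_nonneg.2 hx.2), mul_nonneg hβ (sub_nonneg.2 hx'.2)]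
  have e1 := hconc.2 (x := x) (y := x') ⟨hx.1, by linarith [hx.2, hs.1]⟩
    ⟨hx'.1, by linarith [hx'.2, hs'.1]⟩ hα hβ hαβ
  have e2 := hconc.2 (x := x + s) (y := x' + s') ⟨by linarith [hx.1, hs.1], by linarith [hx.2]⟩
    ⟨by linarith [hx'.1, hs'.1], by linarith [hx'.2]⟩ hα hβ hαβ
  simp only [smul_eq_mul] at e1 e2
  have e3 : α * (x + s) + β * (x' + s') = α * x + β * x' + (α * s + β * s') := by ring
  rw [e3] at e2
  have f1 := mul_le_mul_of_nonneg_left h1.le hα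
  have f2 := mul_le_mul_of_nonneg_left h2.le hα
  have f1' := mul_le_mul_of_nonneg_left h1'.le hβ
  have f2' := mul_le_mul_of_nonneg_left h2'.le hβ
  have hε' : α * ε + β * ε = ε := by rw [← add_mul, hαβ, one_mul]
  have key : α * re a b g s + β * re a b g s' - ε ≤
      min (g (α * x + β * x')) (g (α * x + β * x' + (α * s + β * s'))) :=
    le_min (by linarith) (by linarith)
  have h3 := le_csSup (bdd hconc hpos hS.1) ⟨α * x + β * x', hX, rfl⟩
  have h4 : α * re a b g s + β * re a b g s' - ε ≤ re a b g (α * s + β * s') := key.trans h3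
  linarith

theorem re_anti (hconc : ConcaveOn ℝ (Icc a b) g) (hpos : ∀ s ∈ Icc a b, 0 ≤ g s) :
    AntitoneOn (re a b g) (Icc 0 (b - a)) := by
  intro s hs s' hs' hss
  refine csSup_le (ne g hs'.2) ?_
  rintro _ ⟨x, hx, rfl⟩
  refine le_trans ?_ (le_csSup (bdd hconc hpos hs.1) ⟨x, ⟨hx.1, by linarith [hx.2]⟩, rfl⟩)
  refine le_min (min_le_left _ _) ?_
  exact hconc.min_le_of_mem_Icc ⟨hx.1, by linarith [hx.2, hs'.1]⟩
    ⟨by linarith [hx.1, hs'.1], by linarith [hx.2]⟩ ⟨by linarith [hs.1], by linarith⟩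

theorem re_nonneg (hconc : ConcaveOn ℝ (Icc a b) g) (hpos : ∀ s ∈ Icc a b, 0 ≤ g s) :
    ∀ s ∈ Icc 0 (b - a), 0 ≤ re a b g s := by
  intro s hs
  refine le_trans ?_ (le_csSup (bdd hconc hpos hs.1) ⟨a, ⟨le_rfl, by linarith [hs.2]⟩, rfl⟩)
  exact le_min (hpos _ ⟨le_rfl, by linarith [hs.1, hs.2]⟩)
    (hpos _ ⟨by linarith [hs.1], by linarith [hs.2]⟩)

theorem lev_ord {c d : ℝ} {φ : ℝ → ℝ} (h : ConcaveOn ℝ (Icc c d) φ) (t : ℝ) :
    (Lev c d φ t).OrdConnected := (h.convex_gt t).ordConnected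

theorem lev_cmp (hconc : ConcaveOn ℝ (Icc a b) g) (hpos : ∀ s ∈ Icc a b, 0 ≤ g s) (t : ℝ)
    (hne : (Lev a b g t).Nonempty) :
    Ioo (sInf (Lev a b g t)) (sSup (Lev a b g t)) ⊆ Lev a b g t ∧
    Lev a b g t ⊆ Icc (sInf (Lev a b g t)) (sSup (Lev a b g t)) ∧
    Ioo 0 (sSup (Lev a b g t) - sInf (Lev a b g t)) ⊆ Lev 0 (b - a) (re a b g) t ∧
    Lev 0 (b - a) (re a b g) t ⊆ Icc 0 (sSup (Lev a b g t) - sInf (Lev a b g t)) := by
  have hsub : Lev a b g t ⊆ Icc a b := fun x hx => hx.1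
  have hA : BddAbove (Lev a b g t) := bddAbove_Icc.mono hsub
  have hB : BddBelow (Lev a b g t) := bddBelow_Icc.mono hsub
  have hord := lev_ord hconc t
  refine ⟨IsConnected.Ioo_csInf_csSup_subset ⟨hne, hord.isPreconnected⟩ hB hA,
    subset_Icc_csInf_csSup hB hA, ?_, ?_⟩
  · intro s hs
    have h1 : sInf (Lev a b g t) + s < sSup (Lev a b g t) := by linarith [hs.2]
    obtain ⟨y, hy, hy1⟩ := exists_lt_of_lt_csSup hne h1
    have h2 : sInf (Lev a b g t) < y - s := by linarith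
    obtain ⟨x, hx, hx1⟩ := exists_lt_of_csInf_lt hne h2
    have h3 : x + s ∈ Lev a b g t := hord.out hx hy ⟨by linarith [hs.1], by linarith⟩
    have h4 : s ∈ Icc 0 (b - a) := ⟨hs.1.le, by linarith [hx.1.1, hy.1.2]⟩
    exact ⟨h4, (lt_re hconc hpos h4).2 ⟨x, ⟨hx.1.1, by linarith [h3.1.2]⟩, hx.2, h3.2⟩⟩
  · intro s hs
    obtain ⟨x, hx, h1, h2⟩ := (lt_re hconc hpos hs.1).1 hs.2
    have h3 : x ∈ Lev a b g t := ⟨⟨hx.1, by linarith [hx.2, hs.1.1]⟩, h1⟩
    have h4 : x + s ∈ Lev a b g t := ⟨⟨by linarith [hx.1, hs.1.1], by linarith [hx.2]⟩, h2⟩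
    have h5 := csInf_le hB h3
    have h6 := le_csSup hA h4
    exact ⟨hs.1.1, by linarith⟩

theorem lev_empty (hconc : ConcaveOn ℝ (Icc a b) g) (hpos : ∀ s ∈ Icc a b, 0 ≤ g s) (t : ℝ)
    (he : Lev a b g t = ∅) : Lev 0 (b - a) (re a b g) t = ∅ := by
  refine eq_empty_of_forall_notMem fun s hs => ?_
  obtain ⟨x, hx, h1, h2⟩ := (lt_re hconc hpos hs.1).1 hs.2
  have h3 : x ∈ Lev a b g t := ⟨⟨hx.1, by linarith [hx.2, hs.1.1]⟩, h1⟩
  rw [he] at h3
  exact h3

theorem lev_vol (hconc : ConcaveOn ℝ (Icc a b) g) (hpos : ∀ s ∈ Icc a b, 0 ≤ g s) (t : ℝ) :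
    volume (Lev 0 (b - a) (re a b g) t) = volume (Lev a b g t) := by
  rcases (Lev a b g t).eq_empty_or_nonempty with he | hne
  · rw [lev_empty hconc hpos t he, he]
  · obtain ⟨h1, h2, h3, h4⟩ := lev_cmp hconc hpos t hne
    rw [vol_eq h1 h2, vol_eq h3 h4, sub_zero]

theorem exists_nu (a b : ℝ) (g : ℝ → ℝ) (ν' : ℝ) : ∃ ν, ∀ t, (Lev a b g t).Nonempty →
    |(sInf (Lev a b g t) + sSup (Lev a b g t)) / 2 - ν| ≤
      |(sSup (Lev a b g t) - sInf (Lev a b g t)) / 2 - ν'| := by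
  have hA : ∀ t, BddAbove (Lev a b g t) := fun t => bddAbove_Icc.mono fun x hx => hx.1
  have hB : ∀ t, BddBelow (Lev a b g t) := fun t => bddBelow_Icc.mono fun x hx => hx.1
  set m : ℝ → ℝ := fun t => (sInf (Lev a b g t) + sSup (Lev a b g t)) / 2 with hm
  set r : ℝ → ℝ := fun t => |(sSup (Lev a b g t) - sInf (Lev a b g t)) / 2 - ν'| with hr
  have key : ∀ t t', (Lev a b g t).Nonempty → (Lev a b g t').Nonempty →
      m t - r t ≤ m t' + r t' := by
    intro t t' h h'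
    have r1 := le_abs_self ((sSup (Lev a b g t) - sInf (Lev a b g t)) / 2 - ν')
    have r2 := neg_abs_le ((sSup (Lev a b g t) - sInf (Lev a b g t)) / 2 - ν')
    have r1' := le_abs_self ((sSup (Lev a b g t') - sInf (Lev a b g t')) / 2 - ν')
    have r2' := neg_abs_le ((sSup (Lev a b g t') - sInf (Lev a b g t')) / 2 - ν')
    rcases le_total t t' with htt | htt
    · have hsub : Lev a b g t' ⊆ Lev a b g t := fun x hx => ⟨hx.1, lt_of_le_of_lt htt hx.2⟩
      have g1 := csSup_le_csSup (hA t) h' hsub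
      have g2 := csInf_le_csInf (hB t) h' hsub
      simp only [hm, hr]
      linarith
    · have hsub : Lev a b g t ⊆ Lev a b g t' := fun x hx => ⟨hx.1, lt_of_le_of_lt htt hx.2⟩
      have g1 := csSup_le_csSup (hA t') h hsub
      have g2 := csInf_le_csInf (hB t') h hsub
      simp only [hm, hr]
      linarith
  by_cases hex : ∃ t, (Lev a b g t).Nonempty
  · obtain ⟨t₀, ht₀⟩ := hex
    set S : Set ℝ := {y | ∃ t, (Lev a b g t).Nonempty ∧ y = m t - r t} with hS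
    have hSne : S.Nonempty := ⟨_, t₀, ht₀, rfl⟩
    have hSb : BddAbove S := by
      refine ⟨m t₀ + r t₀, ?_⟩
      rintro _ ⟨t, ht, rfl⟩
      exact key t t₀ ht ht₀
    refine ⟨sSup S, fun t ht => ?_⟩
    have h1 : m t - r t ≤ sSup S := le_csSup hSb ⟨t, ht, rfl⟩
    have h2 : sSup S ≤ m t + r t := by
      refine csSup_le hSne ?_
      rintro _ ⟨t', ht', rfl⟩
      exact key t' t ht' ht
    rw [abs_le]
    constructor
    · have : -r t ≤ m t - sSup S := by linarith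
      exact this
    · have : m t - sSup S ≤ r t := by linarith
      exact this
  · exact ⟨0, fun t ht => absurd ⟨t, ht⟩ hex⟩

theorem sq_cmp (hconc : ConcaveOn ℝ (Icc a b) g) (hpos : ∀ s ∈ Icc a b, 0 ≤ g s) {ν ν' : ℝ}
    (hν : ∀ t, (Lev a b g t).Nonempty →
      |(sInf (Lev a b g t) + sSup (Lev a b g t)) / 2 - ν| ≤
        |(sSup (Lev a b g t) - sInf (Lev a b g t)) / 2 - ν'|) (t : ℝ) :
    (∫⁻ x in Lev a b g t, ENNReal.ofReal ((x - ν) ^ 2)) ≤
      ∫⁻ x in Lev 0 (b - a) (re a b g) t, ENNReal.ofReal ((x - ν') ^ 2) := by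
  rcases (Lev a b g t).eq_empty_or_nonempty with he | hne
  · rw [he]
    simp
  · obtain ⟨-, h2, h3, -⟩ := lev_cmp hconc hpos t hne
    have h5 := hν t hne
    obtain ⟨x₀, hx₀⟩ := hne
    set lo := sInf (Lev a b g t) with hlo
    set hi := sSup (Lev a b g t) with hhi
    have hlh : lo ≤ hi := (h2 hx₀).1.trans (h2 hx₀).2
    have h6 : ((lo + hi) / 2 - ν) ^ 2 ≤ ((hi - lo) / 2 - ν') ^ 2 := sq_le_sq.2 h5
    calc (∫⁻ x in Lev a b g t, ENNReal.ofReal ((x - ν) ^ 2))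
        ≤ ∫⁻ x in Icc lo hi, ENNReal.ofReal ((x - ν) ^ 2) := lintegral_mono_set h2
      _ = ∫⁻ x in Ioc lo hi, ENNReal.ofReal ((x - ν) ^ 2) := by
          rw [restrict_Ioc_eq_restrict_Icc]
      _ = ENNReal.ofReal (((hi - ν) ^ 3 - (lo - ν) ^ 3) / 3) := int_sq hlh
      _ ≤ ENNReal.ofReal ((((hi - lo) - ν') ^ 3 - (0 - ν') ^ 3) / 3) := by
          refine ENNReal.ofReal_le_ofReal ?_
          nlinarith [mul_le_mul_of_nonneg_left h6 (sub_nonneg.2 hlh)]
      _ = ∫⁻ x in Ioc 0 (hi - lo), ENNReal.ofReal ((x - ν') ^ 2) :=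
          (int_sq (sub_nonneg.2 hlh)).symm
      _ = ∫⁻ x in Ioo 0 (hi - lo), ENNReal.ofReal ((x - ν') ^ 2) := by
          rw [restrict_Ioo_eq_restrict_Ioc]
      _ ≤ _ := lintegral_mono_set h3

end

end R434

open R434

theorem rearr' (k : ℕ) (hk : 1 ≤ k) {a b : ℝ} (hab : a < b) {g : ℝ → ℝ}
    (hconc : ConcaveOn ℝ (Icc a b) g) (hpos : ∀ s ∈ Icc a b, 0 ≤ g s) :
    ∃ h : ℝ → ℝ, ConcaveOn ℝ (Icc 0 (b - a)) h ∧ AntitoneOn h (Icc 0 (b - a)) ∧
      (∀ s ∈ Icc 0 (b - a), 0 ≤ h s) ∧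
      (∀ t : ℝ, 0 < t → volume {s | s ∈ Icc 0 (b - a) ∧ t < h s} =
        volume {s | s ∈ Icc a b ∧ t < g s}) ∧
      (∫ t in (0 : ℝ)..(b - a), h t ^ k) = (∫ t in a..b, g t ^ k) ∧
      (∫ t in (0 : ℝ)..(b - a), h t ^ (k + 2)) = (∫ t in a..b, g t ^ (k + 2)) ∧
      (∫ t in a..b, g t ^ k) * (∫ t in a..b, t ^ 2 * g t ^ k) - (∫ t in a..b, t * g t ^ k) ^ 2 ≤
        (∫ t in (0 : ℝ)..(b - a), h t ^ k) * (∫ t in (0 : ℝ)..(b - a), t ^ 2 * h t ^ k) -
          (∫ t in (0 : ℝ)..(b - a), t * h t ^ k) ^ 2 := by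
  have hl : 0 ≤ b - a := sub_nonneg.2 hab.le
  set h := re a b g with hh
  have c1 : ConcaveOn ℝ (Icc 0 (b - a)) h := re_conc hconc hpos
  have c2 : ∀ s ∈ Icc 0 (b - a), 0 ≤ h s := re_nonneg hconc hpos
  have bg := bd hconc hpos
  have bh := bd c1 c2
  have mg : ∀ t, MeasurableSet (Lev a b g t) := fun t => (lev_ord hconc t).measurableSet
  have mh : ∀ t, MeasurableSet (Lev 0 (b - a) h t) := fun t => (lev_ord c1 t).measurableSet
  have eqk : ∀ j : ℕ, 1 ≤ j → (∫ t in (0 : ℝ)..(b - a), h t ^ j) = ∫ t in a..b, g t ^ j := by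
    intro j hj
    have e1 := cake j hj hab.le hpos bg mg (w := fun _ => 1) continuous_const
      (fun _ => zero_le_one)
    have e2 := cake j hj hl c2 bh mh (w := fun _ => 1) continuous_const (fun _ => zero_le_one)
    simp only [one_mul, ENNReal.ofReal_one, setLIntegral_one] at e1 e2
    have e3 : ∀ t, volume (Lev 0 (b - a) h t) = volume (Lev a b g t) := lev_vol hconc hpos
    simp only [e3] at e2
    rw [← e1] at e2
    have n1 : 0 ≤ ∫ x in a..b, g x ^ j :=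
      intervalIntegral.integral_nonneg hab.le fun t ht => pow_nonneg (hpos t ht) _
    have n2 : 0 ≤ ∫ x in (0 : ℝ)..(b - a), h x ^ j :=
      intervalIntegral.integral_nonneg hl fun t ht => pow_nonneg (c2 t ht) _
    rwa [ENNReal.ofReal_eq_ofReal_iff n2 n1] at e2
  refine ⟨h, c1, re_anti hconc hpos, c2, fun t _ => lev_vol hconc hpos t, eqk k hk,
    eqk (k + 2) (by omega), ?_⟩
  -- integrability and expansion
  have ig : ∀ w : ℝ → ℝ, Continuous w → IntervalIntegrable (fun x => w x * g x ^ k) volume a b := by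
    intro w hw
    rw [intervalIntegrable_iff_integrableOn_Icc_of_le hab.le]
    exact intg k hpos bg mg hw
  have ih : ∀ w : ℝ → ℝ, Continuous w →
      IntervalIntegrable (fun x => w x * h x ^ k) volume 0 (b - a) := by
    intro w hw
    rw [intervalIntegrable_iff_integrableOn_Icc_of_le hl]
    exact intg k c2 bh mh hw
  have xg : ∀ ν : ℝ, (∫ x in a..b, (x - ν) ^ 2 * g x ^ k) =
      (∫ t in a..b, t ^ 2 * g t ^ k) - 2 * ν * (∫ t in a..b, t * g t ^ k) +
        ν ^ 2 * ∫ t in a..b, g t ^ k := by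
    intro ν
    have i1 := ig (fun x => x ^ 2) (by fun_prop)
    have i2 := ig (fun x => x) (by fun_prop)
    have i3 := ig (fun _ => 1) (by fun_prop)
    simp only [one_mul] at i3
    rw [← intervalIntegral.integral_const_mul, ← intervalIntegral.integral_const_mul,
      ← intervalIntegral.integral_sub i1 (i2.const_mul _),
      ← intervalIntegral.integral_add (i1.sub (i2.const_mul _)) (i3.const_mul _)]
    refine intervalIntegral.integral_congr fun x _ => ?_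
    ring
  have xh : ∀ ν : ℝ, (∫ x in (0 : ℝ)..(b - a), (x - ν) ^ 2 * h x ^ k) =
      (∫ t in (0 : ℝ)..(b - a), t ^ 2 * h t ^ k) -
        2 * ν * (∫ t in (0 : ℝ)..(b - a), t * h t ^ k) +
        ν ^ 2 * ∫ t in (0 : ℝ)..(b - a), h t ^ k := by
    intro ν
    have i1 := ih (fun x => x ^ 2) (by fun_prop)
    have i2 := ih (fun x => x) (by fun_prop)
    have i3 := ih (fun _ => 1) (by fun_prop)
    simp only [one_mul] at i3
    rw [← intervalIntegral.integral_const_mul, ← intervalIntegral.integral_const_mul,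
      ← intervalIntegral.integral_sub i1 (i2.const_mul _),
      ← intervalIntegral.integral_add (i1.sub (i2.const_mul _)) (i3.const_mul _)]
    refine intervalIntegral.integral_congr fun x _ => ?_
    ring
  have hM := eqk k hk
  have nM : 0 ≤ ∫ x in a..b, g x ^ k :=
    intervalIntegral.integral_nonneg hab.le fun t ht => pow_nonneg (hpos t ht) _
  rcases nM.eq_or_lt with h0 | hMpos
  · -- both vanish
    have hz : (∫ t in (0 : ℝ)..(b - a), t * h t ^ k) = 0 := by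
      have i3 := ih (fun _ => 1) (by fun_prop)
      simp only [one_mul] at i3
      have u1 : (∫ t in (0 : ℝ)..(b - a), t * h t ^ k) ≤
          ∫ t in (0 : ℝ)..(b - a), (b - a) * h t ^ k :=
        intervalIntegral.integral_mono_on hl (ih (fun x => x) (by fun_prop)) (i3.const_mul _)
          fun t ht => mul_le_mul_of_nonneg_right ht.2 (pow_nonneg (c2 t ht) _)
      rw [intervalIntegral.integral_const_mul, hM, ← h0, mul_zero] at u1
      have u2 : 0 ≤ ∫ t in (0 : ℝ)..(b - a), t * h t ^ k :=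
        intervalIntegral.integral_nonneg hl fun t ht => mul_nonneg ht.1 (pow_nonneg (c2 t ht) _)
      exact le_antisymm u1 u2
    rw [hM, hz, ← h0]
    simp only [zero_mul, zero_sub, ne_eq, OfNat.ofNat_ne_zero, not_false_eq_true, zero_pow,
      sub_zero]
    nlinarith [sq_nonneg (∫ t in a..b, t * g t ^ k)]
  · set M := ∫ x in a..b, g x ^ k with hMdef
    set T1 := ∫ t in (0 : ℝ)..(b - a), t * h t ^ k with hT1
    obtain ⟨ν, hν⟩ := exists_nu a b g (T1 / M)
    have key : (∫ x in a..b, (x - ν) ^ 2 * g x ^ k) ≤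
        ∫ x in (0 : ℝ)..(b - a), (x - T1 / M) ^ 2 * h x ^ k := by
      rw [← ENNReal.ofReal_le_ofReal_iff (intervalIntegral.integral_nonneg hl fun t ht =>
        mul_nonneg (sq_nonneg _) (pow_nonneg (c2 t ht) _)),
        cake k hk hab.le hpos bg mg (w := fun x => (x - ν) ^ 2) (by fun_prop)
          (fun x => sq_nonneg _),
        cake k hk hl c2 bh mh (w := fun x => (x - T1 / M) ^ 2) (by fun_prop)
          (fun x => sq_nonneg _)]
      exact lintegral_mono fun t => sq_cmp hconc hpos hν _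
    rw [xg, xh, hM] at key
    rw [hM]
    have h7 : M * ((∫ t in (0 : ℝ)..(b - a), t ^ 2 * h t ^ k) - 2 * (T1 / M) * T1 +
        (T1 / M) ^ 2 * M) = M * (∫ t in (0 : ℝ)..(b - a), t ^ 2 * h t ^ k) - T1 ^ 2 := by
      field_simp
      ring
    have h8 := mul_le_mul_of_nonneg_left key hMpos.le
    rw [h7] at h8
    nlinarith [sq_nonneg ((∫ t in a..b, t * g t ^ k) - ν * M)]

theorem rearr (k : ℕ) (hk : 1 ≤ k) {a b : ℝ} (hab : a < b) {g : ℝ → ℝ}
    (hconc : ConcaveOn ℝ (Icc a b) g) (hpos : ∀ s ∈ Icc a b, 0 ≤ g s) :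
    ∃ h : ℝ → ℝ, ConcaveOn ℝ (Icc 0 (b - a)) h ∧ AntitoneOn h (Icc 0 (b - a)) ∧
      (∀ s ∈ Icc 0 (b - a), 0 ≤ h s) ∧
      (∫ t in (0 : ℝ)..(b - a), h t ^ k) = (∫ t in a..b, g t ^ k) ∧
      (∫ t in (0 : ℝ)..(b - a), h t ^ (k + 2)) = (∫ t in a..b, g t ^ (k + 2)) ∧
      (∫ t in a..b, g t ^ k) * (∫ t in a..b, t ^ 2 * g t ^ k) - (∫ t in a..b, t * g t ^ k) ^ 2 ≤
        (∫ t in (0 : ℝ)..(b - a), h t ^ k) * (∫ t in (0 : ℝ)..(b - a), t ^ 2 * h t ^ k) -
          (∫ t in (0 : ℝ)..(b - a), t * h t ^ k) ^ 2 := by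
  obtain ⟨h, h1, h2, h3, -, h5, h6, h7⟩ := rearr' k hk hab hconc hpos
  exact ⟨h, h1, h2, h3, h5, h6, h7⟩

end Vale.Agent.P254.Perm
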