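import Vale.Agent.P254.Perm.Defs

open MeasureTheory Set

namespace Vale.Agent.P254.Perm

/-- [A2] -/
theorem elem (k : ℕ) (hk : 1 ≤ k) {h : ℝ} (h0 : 0 ≤ h) (h1 : (k : ℝ) * h ≤ 4) :
    (1 - k * h / 4) ^ 2 * (1 + h) ^ (k + 1) ≤ 1 + (k + 1) * h := by
  sorry

/-- [A1] -/
theorem tail_G (k : ℕ) {b : ℝ} {g g' : ℝ → ℝ} (hc : ContinuousOn g (Icc 0 b))
    (hd : ∀ s ∈ Ioo 0 b, HasDerivAt g (g' s) s) (hconc : ConcaveOn ℝ (Icc 0 b) g)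
    (hanti : AntitoneOn g (Icc 0 b)) (hpos : ∀ s ∈ Icc 0 b, 0 < g s) {s : ℝ} (hs : s ∈ Icc 0 b) :
    (k + 1) * g s ^ 2 * (∫ t in s..b, g t ^ k) ≤ (k + 3) * ∫ t in s..b, g t ^ (k + 2) := by
  sorry

/-- [A1] -/
theorem tail_Q (k : ℕ) {b : ℝ} {g g' : ℝ → ℝ} (hc : ContinuousOn g (Icc 0 b))
    (hd : ∀ s ∈ Ioo 0 b, HasDerivAt g (g' s) s) (hconc : ConcaveOn ℝ (Icc 0 b) g)
    (hanti : AntitoneOn g (Icc 0 b)) (hpos : ∀ s ∈ Icc 0 b, 0 < g s) {s : ℝ} (hs : s ∈ Icc 0 b) :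
    4 * (k + 2) * (∫ t in s..b, (t - s) * g t ^ k) * g s ^ (k + 2) +
        k * (k + 3) * (∫ t in s..b, g t ^ k) * (∫ t in s..b, g t ^ (k + 2)) ≤
      (k + 1) * (k + 4) * (∫ t in s..b, g t ^ k) ^ 2 * g s ^ 2 := by
  sorry

/-- [A3] -/
theorem dec_C1 (k : ℕ) (hk : 1 ≤ k) {b : ℝ} (hb : 0 < b) {g g' : ℝ → ℝ}
    (hc : ContinuousOn g (Icc 0 b))
    (hd : ∀ s ∈ Ioo 0 b, HasDerivAt g (g' s) s) (hconc : ConcaveOn ℝ (Icc 0 b) g)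
    (hanti : AntitoneOn g (Icc 0 b)) (hpos : ∀ s ∈ Icc 0 b, 0 < g s) :
    ((∫ t in (0 : ℝ)..b, g t ^ k) * (∫ t in (0 : ℝ)..b, t ^ 2 * g t ^ k) -
        (∫ t in (0 : ℝ)..b, t * g t ^ k) ^ 2) * (∫ t in (0 : ℝ)..b, g t ^ (k + 2)) ^ k ≤
      kap k * (∫ t in (0 : ℝ)..b, g t ^ k) ^ (k + 4) := by
  sorry

/-- [A4] -/
theorem dec_concave (k : ℕ) (hk : 1 ≤ k) {b : ℝ} (hb : 0 ≤ b) {g : ℝ → ℝ}
    (hconc : ConcaveOn ℝ (Icc 0 b) g) (hanti : AntitoneOn g (Icc 0 b))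
    (hpos : ∀ s ∈ Icc 0 b, 0 ≤ g s) :
    ((∫ t in (0 : ℝ)..b, g t ^ k) * (∫ t in (0 : ℝ)..b, t ^ 2 * g t ^ k) -
        (∫ t in (0 : ℝ)..b, t * g t ^ k) ^ 2) * (∫ t in (0 : ℝ)..b, g t ^ (k + 2)) ^ k ≤
      kap k * (∫ t in (0 : ℝ)..b, g t ^ k) ^ (k + 4) := by
  sorry

/-- [A5] decreasing rearrangement of a concave function -/
theorem rearr (k : ℕ) (hk : 1 ≤ k) {a b : ℝ} (hab : a < b) {g : ℝ → ℝ}
    (hconc : ConcaveOn ℝ (Icc a b) g) (hpos : ∀ s ∈ Icc a b, 0 ≤ g s) :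
    ∃ h : ℝ → ℝ, ConcaveOn ℝ (Icc 0 (b - a)) h ∧ AntitoneOn h (Icc 0 (b - a)) ∧
      (∀ s ∈ Icc 0 (b - a), 0 ≤ h s) ∧
      (∫ t in (0 : ℝ)..(b - a), h t ^ k) = (∫ t in a..b, g t ^ k) ∧
      (∫ t in (0 : ℝ)..(b - a), h t ^ (k + 2)) = (∫ t in a..b, g t ^ (k + 2)) ∧
      (∫ t in a..b, g t ^ k) * (∫ t in a..b, t ^ 2 * g t ^ k) - (∫ t in a..b, t * g t ^ k) ^ 2 ≤
        (∫ t in (0 : ℝ)..(b - a), h t ^ k) * (∫ t in (0 : ℝ)..(b - a), t ^ 2 * h t ^ k) -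
          (∫ t in (0 : ℝ)..(b - a), t * h t ^ k) ^ 2 := by
  sorry

theorem one_dim (k : ℕ) (hk : 1 ≤ k) {a b : ℝ} (hab : a ≤ b) {g : ℝ → ℝ}
    (hconc : ConcaveOn ℝ (Icc a b) g) (hpos : ∀ s ∈ Icc a b, 0 ≤ g s) :
    ((∫ t in a..b, g t ^ k) * (∫ t in a..b, t ^ 2 * g t ^ k) -
        (∫ t in a..b, t * g t ^ k) ^ 2) * (∫ t in a..b, g t ^ (k + 2)) ^ k ≤
      kap k * (∫ t in a..b, g t ^ k) ^ (k + 4) := by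
  rcases hab.eq_or_lt with rfl | hab
  · simp
  obtain ⟨h, h1, h2, h3, h4, h5, h6⟩ := rearr k hk hab hconc hpos
  have h7 := dec_concave k hk (sub_pos.2 hab).le h1 h2 h3
  rw [h5] at h7
  have hP : 0 ≤ (∫ t in a..b, g t ^ (k + 2)) ^ k :=
    pow_nonneg (intervalIntegral.integral_nonneg hab.le fun t ht => pow_nonneg (hpos t ht) _) _
  calc _ ≤ _ := mul_le_mul_of_nonneg_right h6 hP
    _ ≤ _ := h7
    _ = _ := by rw [h4]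

/-- [S1] sections, Brunn-Minkowski -/
theorem sec (m : ℕ) (hm : 1 ≤ m) {L : Set (ℝ × (Fin m → ℝ))} (hc : Convex ℝ L) (hL : IsCompact L)
    (hne : L.Nonempty) : ∃ (a b : ℝ) (g : ℝ → ℝ), a ≤ b ∧ ConcaveOn ℝ (Icc a b) g ∧
      (∀ s ∈ Icc a b, 0 ≤ g s) ∧ (∀ s ∈ Icc a b, g s ^ m = (volume {y | (s, y) ∈ L}).toReal) ∧
      ∀ s ∉ Icc a b, {y | (s, y) ∈ L} = ∅ := by
  sorry

/-- [B1] -/
theorem sym_mean {n : ℕ} {K : Set (Fin n → ℝ)} (hK : IsCompact K) (hs : Sym K) (i : Fin n) :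
    ∫ x in K, x i = 0 := by
  sorry

/-- [B1] -/
theorem sym_sq {n : ℕ} {K : Set (Fin n → ℝ)} (hs : Sym K) (i j : Fin n) :
    ∫ x in K, x i ^ 2 = ∫ x in K, x j ^ 2 := by
  sorry

/-- [S2] -/
theorem slices (m : ℕ) (hm : 1 ≤ m) {L : Set (ℝ × (Fin m → ℝ))} (hc : Convex ℝ L)
    (hL : IsCompact L) (hs : ∀ s, Sym {y | (s, y) ∈ L}) (hB : Bd m) (i : Fin m) :
    (∫ p in L, p.2 i) = 0 ∧ (∫ p in L, p.1 * p.2 i) = 0 ∧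
      (∫ p in L, p.2 i ^ 2) ^ m *
        ((volume L).toReal * (∫ p in L, p.1 ^ 2) - (∫ p in L, p.1) ^ 2) ≤
        gam m * kap m * (volume L).toReal ^ (m + 4) := by
  sorry

/-- [B2] -/
theorem bd_one : Bd 1 := by
  sorry

/-- [B3] -/
theorem bd_succ (m : ℕ) (hm : 1 ≤ m) (hB : Bd m) : Bd (m + 1) := by
  sorry

theorem bd_all (m : ℕ) (hm : 1 ≤ m) : Bd m := by
  induction m, hm using Nat.le_induction with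
  | base => exact bd_one
  | succ m hm ih => exact bd_succ m hm ih

/-- [F1] the determinant of the covariance matrix -/
theorem det_le (m : ℕ) (hm : 1 ≤ m) {K : Set (Fin (m + 1) → ℝ)} (hK : IsConvexBody K)
    (hp : ∀ σ : Equiv.Perm (Fin (m + 1)), ∀ x ∈ K, (fun i => x (σ i)) ∈ K) :
    (covMatrix K).det ≤ ((m + 1).factorial : ℝ) ^ 2 /
      (((m : ℝ) + 2) ^ (m + 2) * ((m : ℝ) + 3) ^ (m + 1)) * (volume K).toReal ^ 2 := by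
  sorry

end Vale.Agent.P254.Perm
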