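import Vale.Agent.P254.Perm.Skel

open MeasureTheory Set

namespace Vale.Agent.P254.Perm

/-- [Q1a] equality case, decreasing functions -/
theorem dec_eq (k : ℕ) (hk : 1 ≤ k) {b : ℝ} (hb : 0 < b) {g : ℝ → ℝ}
    (hconc : ConcaveOn ℝ (Icc 0 b) g) (hanti : AntitoneOn g (Icc 0 b))
    (hpos : ∀ s ∈ Icc 0 b, 0 ≤ g s) (hM : 0 < ∫ t in (0 : ℝ)..b, g t ^ k)
    (heq : kap k * (∫ t in (0 : ℝ)..b, g t ^ k) ^ (k + 4) ≤
      ((∫ t in (0 : ℝ)..b, g t ^ k) * (∫ t in (0 : ℝ)..b, t ^ 2 * g t ^ k) -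
        (∫ t in (0 : ℝ)..b, t * g t ^ k) ^ 2) * (∫ t in (0 : ℝ)..b, g t ^ (k + 2)) ^ k) :
    ∃ c : ℝ, 0 < c ∧ ∀ s ∈ Ioo 0 b, g s = c * (b - s) := by
  sorry

/-- [Q1b] a concave function whose superlevel sets have the same lengths as those of
`c * (b - s)` is a tent; among the tents the variance is maximal for the two monotone ones -/
theorem tent_eq (k : ℕ) (hk : 1 ≤ k) {a b c : ℝ} (hab : a < b) (hc : 0 < c) {g : ℝ → ℝ}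
    (hconc : ConcaveOn ℝ (Icc a b) g) (hpos : ∀ s ∈ Icc a b, 0 ≤ g s)
    (hlev : ∀ t : ℝ, 0 < t → t < c * (b - a) →
      volume {s | s ∈ Icc a b ∧ t < g s} = ENNReal.ofReal ((b - a) - t / c))
    (hvar : (∫ t in a..b, (c * (b - t)) ^ k) * (∫ t in a..b, t ^ 2 * (c * (b - t)) ^ k) -
        (∫ t in a..b, t * (c * (b - t)) ^ k) ^ 2 ≤
      (∫ t in a..b, g t ^ k) * (∫ t in a..b, t ^ 2 * g t ^ k) - (∫ t in a..b, t * g t ^ k) ^ 2) :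
    (∀ s ∈ Ioo a b, g s = c * (b - s)) ∨ ∀ s ∈ Ioo a b, g s = c * (s - a) := by
  sorry

/-- [A5'] the rearrangement with equal lengths of the superlevel sets (strengthening of `rearr`) -/
theorem rearr' (k : ℕ) (hk : 1 ≤ k) {a b : ℝ} (hab : a < b) {g : ℝ → ℝ}
    (hconc : ConcaveOn ℝ (Icc a b) g) (hpos : ∀ s ∈ Icc a b, 0 ≤ g s) :
    ∃ h : ℝ → ℝ, ConcaveOn ℝ (Icc 0 (b - a)) h ∧ AntitoneOn h (Icc 0 (b - a)) ∧
      (∀ s ∈ Icc 0 (b - a), 0 ≤ h s) ∧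
      (∀ t : ℝ, 0 < t → volume {s | s ∈ Icc 0 (b - a) ∧ t < h s} =
        volume {s | s ∈ Icc a b ∧ t < g s}) ∧
      (∫ t in (0 : ℝ)..(b - a), h t ^ k) = (∫ t in a..b, g t ^ k) ∧
      (∫ t in (0 : ℝ)..(b - a), h t ^ (k + 2)) = (∫ t in a..b, g t ^ (k + 2)) ∧
      (∫ t in a..b, g t ^ k) * (∫ t in a..b, t ^ 2 * g t ^ k) - (∫ t in a..b, t * g t ^ k) ^ 2 ≤
        (∫ t in (0 : ℝ)..(b - a), h t ^ k) * (∫ t in (0 : ℝ)..(b - a), t ^ 2 * h t ^ k) -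
          (∫ t in (0 : ℝ)..(b - a), t * h t ^ k) ^ 2 := by
  sorry

/-- [Q1] equality case of the one-dimensional inequality, from `dec_eq`, `tent_eq`, `rearr'` -/
theorem one_dim_eq (k : ℕ) (hk : 1 ≤ k) {a b : ℝ} (hab : a < b) {g : ℝ → ℝ}
    (hconc : ConcaveOn ℝ (Icc a b) g) (hpos : ∀ s ∈ Icc a b, 0 ≤ g s)
    (hM : 0 < ∫ t in a..b, g t ^ k)
    (heq : kap k * (∫ t in a..b, g t ^ k) ^ (k + 4) ≤
      ((∫ t in a..b, g t ^ k) * (∫ t in a..b, t ^ 2 * g t ^ k) -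
        (∫ t in a..b, t * g t ^ k) ^ 2) * (∫ t in a..b, g t ^ (k + 2)) ^ k) :
    ∃ c : ℝ, 0 < c ∧ ((∀ s ∈ Ioo a b, g s = c * (b - s)) ∨ ∀ s ∈ Ioo a b, g s = c * (s - a)) := by
  sorry

/-- [Q2] -/
theorem cone_simplex (m : ℕ) (hm : 1 ≤ m) {L : Set (ℝ × (Fin m → ℝ))} (hc : Convex ℝ L)
    (hL : IsCompact L) {a b c : ℝ} (hab : a < b) (hc0 : 0 < c)
    (hA : ∀ s ∈ Ioo a b, (volume {y | (s, y) ∈ L}).toReal = (c * (b - s)) ^ m)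
    (hout : ∀ s ∉ Icc a b, {y | (s, y) ∈ L} = ∅)
    (hsimp : ∀ᵐ s ∂(volume.restrict (Ioo a b)), IsSimplex {y | (s, y) ∈ L}) :
    ∃ v : Fin (m + 2) → ℝ × (Fin m → ℝ), AffineIndependent ℝ v ∧ L = convexHull ℝ (range v) := by
  sorry

/-- Equality in `Bd` forces a simplex. -/
def EqBd (n : ℕ) : Prop :=
  ∀ K : Set (Fin n → ℝ), Convex ℝ K → IsCompact K → Sym K → 0 < (volume K).toReal → ∀ i,
    gam n * (volume K).toReal ^ (n + 2) ≤ (∫ x in K, x i ^ 2) ^ n → IsSimplex K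

/-- [Q3] -/
theorem slices_eq (m : ℕ) (hm : 1 ≤ m) {L : Set (ℝ × (Fin m → ℝ))} (hc : Convex ℝ L)
    (hL : IsCompact L) (hs : ∀ s, Sym {y | (s, y) ∈ L}) (hB : Bd m)
    (hvol : 0 < (volume L).toReal) (i : Fin m)
    (heq : gam m * kap m * (volume L).toReal ^ (m + 4) ≤ (∫ p in L, p.2 i ^ 2) ^ m *
        ((volume L).toReal * (∫ p in L, p.1 ^ 2) - (∫ p in L, p.1) ^ 2)) :
    ∃ (a b : ℝ) (g : ℝ → ℝ), a < b ∧ ConcaveOn ℝ (Icc a b) g ∧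
      (∀ s ∈ Icc a b, 0 ≤ g s) ∧ (∀ s ∈ Icc a b, g s ^ m = (volume {y | (s, y) ∈ L}).toReal) ∧
      (∀ s ∉ Icc a b, {y | (s, y) ∈ L} = ∅) ∧ (0 < ∫ t in a..b, g t ^ m) ∧
      kap m * (∫ t in a..b, g t ^ m) ^ (m + 4) ≤
        ((∫ t in a..b, g t ^ m) * (∫ t in a..b, t ^ 2 * g t ^ m) -
          (∫ t in a..b, t * g t ^ m) ^ 2) * (∫ t in a..b, g t ^ (m + 2)) ^ m ∧
      ∀ᵐ s ∂(volume.restrict (Ioo a b)), gam m * (volume {y | (s, y) ∈ L}).toReal ^ (m + 2) ≤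
        (∫ y in {y | (s, y) ∈ L}, y i ^ 2) ^ m := by
  sorry

/-- [Q3'] from `slices_eq`, `one_dim_eq`, `cone_simplex` (and its mirror image) -/
theorem slices_simplex (m : ℕ) (hm : 1 ≤ m) {L : Set (ℝ × (Fin m → ℝ))} (hc : Convex ℝ L)
    (hL : IsCompact L) (hs : ∀ s, Sym {y | (s, y) ∈ L}) (hB : Bd m) (hE : EqBd m)
    (hvol : 0 < (volume L).toReal) (i : Fin m)
    (heq : gam m * kap m * (volume L).toReal ^ (m + 4) ≤ (∫ p in L, p.2 i ^ 2) ^ m *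
        ((volume L).toReal * (∫ p in L, p.1 ^ 2) - (∫ p in L, p.1) ^ 2)) :
    ∃ v : Fin (m + 2) → ℝ × (Fin m → ℝ), AffineIndependent ℝ v ∧ L = convexHull ℝ (range v) := by
  sorry

/-- [Q4] -/
theorem eq_one : EqBd 1 := by
  sorry

/-- [Q5] -/
theorem eq_succ (m : ℕ) (hm : 1 ≤ m) (hE : EqBd m) : EqBd (m + 1) := by
  sorry

/-- [Q6] -/
theorem det_eq (m : ℕ) (hm : 1 ≤ m) {K : Set (Fin (m + 1) → ℝ)} (hK : IsConvexBody K)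
    (hp : ∀ σ : Equiv.Perm (Fin (m + 1)), ∀ x ∈ K, (fun i => x (σ i)) ∈ K)
    (heq : ((m + 1).factorial : ℝ) ^ 2 /
      (((m : ℝ) + 2) ^ (m + 2) * ((m : ℝ) + 3) ^ (m + 1)) * (volume K).toReal ^ 2 ≤
      (covMatrix K).det) : IsSimplex K := by
  sorry

end Vale.Agent.P254.Perm
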