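import Vale.Agent.P254.Perm.Defs

open MeasureTheory Set

namespace Vale.Agent.P254.Perm.H673

theorem tail_cont {b : ℝ} (hb : 0 ≤ b) {f : ℝ → ℝ} (hf : ContinuousOn f (Icc 0 b)) :
    ContinuousOn (fun s => ∫ t in s..b, f t) (Icc 0 b) := by
  have := intervalIntegral.continuousOn_primitive_interval_left (μ := volume) (f := f)
    (a := 0) (b := b) (by rw [uIcc_of_le hb]; exact hf.integrableOn_Icc)
  rwa [uIcc_of_le hb] at this

theorem tail_der {b : ℝ} {f : ℝ → ℝ} (hf : ContinuousOn f (Icc 0 b)) {s : ℝ}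
    (hs : s ∈ Ioo 0 b) : HasDerivAt (fun s => ∫ t in s..b, f t) (-(f s)) s := by
  refine intervalIntegral.integral_hasDerivAt_left (f := f) ?_ ?_ ?_
  · apply ContinuousOn.intervalIntegrable
    rw [uIcc_of_le hs.2.le]
    exact hf.mono (Icc_subset_Icc hs.1.le le_rfl)
  · exact (hf.mono Ioo_subset_Icc_self).stronglyMeasurableAtFilter isOpen_Ioo _ hs
  · exact hf.continuousAt (Icc_mem_nhds hs.1 hs.2)

/-- the tangent line of a concave function -/
theorem tangent {b : ℝ} {g g' : ℝ → ℝ} (hd : ∀ s ∈ Ioo 0 b, HasDerivAt g (g' s) s)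
    (hconc : ConcaveOn ℝ (Icc 0 b) g) {s t : ℝ} (hs : s ∈ Ioo 0 b) (ht : t ∈ Icc s b) :
    g t ≤ g s + g' s * (t - s) := by
  rcases ht.1.eq_or_lt with rfl | hst
  · simp
  have h := hconc.slope_le_of_hasDerivAt (x := s) (y := t) ⟨hs.1.le, hs.2.le⟩
    ⟨hs.1.le.trans ht.1, ht.2⟩ hst (hd s hs)
  rw [slope_def_field, div_le_iff₀ (sub_pos.2 hst)] at h
  linarith

/-- the one-sided isoperimetric inequality `(k+1) l M ≤ g^(k+1)` -/
theorem lM_le (k : ℕ) {b : ℝ} {g g' : ℝ → ℝ} (hc : ContinuousOn g (Icc 0 b))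
    (hd : ∀ s ∈ Ioo 0 b, HasDerivAt g (g' s) s) (hconc : ConcaveOn ℝ (Icc 0 b) g)
    (hpos : ∀ s ∈ Icc 0 b, 0 < g s) {s : ℝ} (hs : s ∈ Ioo 0 b) :
    (k + 1) * (-g' s) * (∫ t in s..b, g t ^ k) ≤ g s ^ (k + 1) := by
  by_cases hl : -g' s ≤ 0
  · have h1 : 0 ≤ ∫ t in s..b, g t ^ k :=
      intervalIntegral.integral_nonneg hs.2.le fun t ht =>
        pow_nonneg (hpos t ⟨hs.1.le.trans ht.1, ht.2⟩).le _
    have h2 : (0 : ℝ) ≤ (k : ℝ) + 1 := by positivity
    have h3 := (hpos s ⟨hs.1.le, hs.2.le⟩).le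
    have h4 : (k + 1) * (-g' s) * (∫ t in s..b, g t ^ k) ≤ 0 :=
      mul_nonpos_of_nonpos_of_nonneg (mul_nonpos_of_nonneg_of_nonpos h2 hl) h1
    exact h4.trans (pow_nonneg h3 _)
  · push Not at hl
    have hsub : Icc s b ⊆ Icc 0 b := Icc_subset_Icc hs.1.le le_rfl
    have h1 : (∫ t in s..b, g t ^ k) ≤ ∫ t in s..b, (g s + g' s * (t - s)) ^ k := by
      refine intervalIntegral.integral_mono_on hs.2.le ?_ ?_ fun t ht => ?_
      · apply ContinuousOn.intervalIntegrable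
        rw [uIcc_of_le hs.2.le]
        exact (hc.mono hsub).pow k
      · exact (Continuous.intervalIntegrable (by fun_prop) _ _)
      · exact pow_le_pow_left₀ (hpos t (hsub ht)).le (tangent hd hconc hs ht) k
    have h2 : (∫ t in s..b, (-g' s) * (k + 1) * (g s + g' s * (t - s)) ^ k) =
        -(g s + g' s * (b - s)) ^ (k + 1) - -(g s + g' s * (s - s)) ^ (k + 1) := by
      refine intervalIntegral.integral_eq_sub_of_hasDerivAt
        (f := fun t => -(g s + g' s * (t - s)) ^ (k + 1))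
        (fun t _ => ?_) (Continuous.intervalIntegrable (by fun_prop) _ _)
      have h0 : HasDerivAt (fun t => g s + g' s * (t - s)) (g' s) t := by
        simpa using (((hasDerivAt_id t).sub_const s).const_mul (g' s)).const_add (g s)
      have h := (h0.pow (k + 1)).neg
      have e : -((fun t => g s + g' s * (t - s)) ^ (k + 1)) =
          fun t => -(g s + g' s * (t - s)) ^ (k + 1) := rfl
      rw [e] at h
      refine h.congr_deriv ?_
      simp only [Nat.add_sub_cancel]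
      push_cast
      ring
    rw [intervalIntegral.integral_const_mul] at h2
    have h3 : 0 ≤ (g s + g' s * (b - s)) ^ (k + 1) :=
      pow_nonneg ((hpos b ⟨(hs.1.trans hs.2).le, le_rfl⟩).le.trans
        (tangent hd hconc hs ⟨hs.2.le, le_rfl⟩)) _
    have h4 := mul_le_mul_of_nonneg_left h1
      (mul_nonneg hl.le (by positivity : (0 : ℝ) ≤ (k : ℝ) + 1))
    simp only [sub_self, mul_zero, add_zero] at h2
    nlinarith [h4, h2, h3]

theorem tail_G (k : ℕ) {b : ℝ} {g g' : ℝ → ℝ} (hc : ContinuousOn g (Icc 0 b))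
    (hd : ∀ s ∈ Ioo 0 b, HasDerivAt g (g' s) s) (hconc : ConcaveOn ℝ (Icc 0 b) g)
    (hpos : ∀ s ∈ Icc 0 b, 0 < g s) {s : ℝ} (hs : s ∈ Icc 0 b) :
    (k + 1) * g s ^ 2 * (∫ t in s..b, g t ^ k) ≤ (k + 3) * ∫ t in s..b, g t ^ (k + 2) := by
  have hb : (0 : ℝ) ≤ b := hs.1.trans hs.2
  let F : ℝ → ℝ := fun s => (k + 3) * (∫ t in s..b, g t ^ (k + 2)) -
    (k + 1) * g s ^ 2 * (∫ t in s..b, g t ^ k)
  have hF : AntitoneOn F (Icc 0 b) := by
    refine antitoneOn_of_hasDerivWithinAt_nonpos (convex_Icc 0 b) ?_ (f' := fun s =>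
      (k + 3) * (-(g s ^ (k + 2))) - ((k + 1) * (2 * g s * g' s) * (∫ t in s..b, g t ^ k) +
        (k + 1) * g s ^ 2 * (-(g s ^ k)))) ?_ ?_
    · exact ((tail_cont hb (hc.pow (k + 2))).const_smul ((k : ℝ) + 3)).sub
        (((hc.pow 2).const_smul ((k : ℝ) + 1)).mul (tail_cont hb (hc.pow k)))
    · intro x hx
      rw [interior_Icc] at hx
      have h1 := (tail_der (hc.pow (k + 2)) hx).const_mul ((k : ℝ) + 3)
      have h2 := (((hd x hx).pow 2).const_mul ((k : ℝ) + 1)).mul (tail_der (hc.pow k) hx)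
      have h3 := (h1.sub h2).hasDerivWithinAt (s := interior (Icc 0 b))
      refine (h3.congr_deriv ?_)
      simp
    · intro x hx
      rw [interior_Icc] at hx
      have h1 := lM_le k hc hd hconc hpos hx
      have h2 := (hpos x (Ioo_subset_Icc_self hx)).le
      have h3 := mul_le_mul_of_nonneg_left h1 (mul_nonneg (zero_le_two (α := ℝ)) h2)
      have e1 : g x ^ (k + 2) = g x * g x ^ (k + 1) := by ring
      have e3 : (k + 1) * g x ^ 2 * (-(g x ^ k)) = -((k + 1) * (g x * g x ^ (k + 1))) := by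
        ring
      rw [e3, e1]
      nlinarith [h3]
  have h1 := hF hs ⟨hb, le_rfl⟩ hs.2
  simp only [F, intervalIntegral.integral_same, mul_zero, sub_self] at h1
  linarith

end Vale.Agent.P254.Perm.H673
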