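import Vale.Agent.P254.Perm.TailG673

open MeasureTheory Set

namespace Vale.Agent.P254.Perm.H673

theorem mass_le (k : ℕ) {b : ℝ} {g : ℝ → ℝ} (hc : ContinuousOn g (Icc 0 b))
    (hanti : AntitoneOn g (Icc 0 b)) (hpos : ∀ s ∈ Icc 0 b, 0 < g s) {s : ℝ}
    (hs : s ∈ Icc 0 b) :
    (∫ t in s..b, g t ^ (k + 2)) ≤ g s ^ 2 * ∫ t in s..b, g t ^ k := by
  have hsub : Icc s b ⊆ Icc 0 b := Icc_subset_Icc hs.1 le_rfl
  rw [← intervalIntegral.integral_const_mul]
  refine intervalIntegral.integral_mono_on hs.2 ?_ ?_ fun t ht => ?_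
  · apply ContinuousOn.intervalIntegrable
    rw [uIcc_of_le hs.2]
    exact (hc.mono hsub).pow _
  · apply ContinuousOn.intervalIntegrable
    rw [uIcc_of_le hs.2]
    exact ((hc.mono hsub).pow _).const_smul (g s ^ 2)
  · have h1 := hanti hs (hsub ht) ht.1
    have h2 := (hpos t (hsub ht)).le
    calc g t ^ (k + 2) = g t ^ 2 * g t ^ k := by ring
      _ ≤ g s ^ 2 * g t ^ k := by gcongr

theorem alg_Q (k : ℝ) (hk : 0 ≤ k) {m p l g G : ℝ} (hm : 0 ≤ m) (hl : 0 ≤ l)
    (h1 : (k + 1) * l * m ≤ G) (h2 : (k + 1) * g ^ 2 * m ≤ (k + 3) * p)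
    (h3 : p ≤ g ^ 2 * m) :
    -(k + 3) * m * g ^ 2 * G + (k + 1) * (k + 4) * m ^ 2 * g ^ 2 * l + (k + 3) * G * p -
      (k + 2) * (k + 3) * m * p * l ≤ 0 := by
  have e : -(k + 3) * m * g ^ 2 * G + (k + 1) * (k + 4) * m ^ 2 * g ^ 2 * l + (k + 3) * G * p -
      (k + 2) * (k + 3) * m * p * l =
      -((k + 3) * (g ^ 2 * m - p) * (G - (k + 1) * l * m)) -
        l * m * ((k + 3) * p - (k + 1) * g ^ 2 * m) := by ring
  rw [e]
  have a1 : 0 ≤ (k + 3) * (g ^ 2 * m - p) * (G - (k + 1) * l * m) :=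
    mul_nonneg (mul_nonneg (by linarith) (by linarith)) (by linarith)
  have a2 : 0 ≤ l * m * ((k + 3) * p - (k + 1) * g ^ 2 * m) :=
    mul_nonneg (mul_nonneg hl hm) (by linarith)
  linarith

/-- `S(s) = ∫ t g^k - s ∫ g^k` -/
theorem S_eq (k : ℕ) {b : ℝ} {g : ℝ → ℝ} (hc : ContinuousOn g (Icc 0 b)) {s : ℝ}
    (hs : s ∈ Icc 0 b) :
    (∫ t in s..b, (t - s) * g t ^ k) =
      (∫ t in s..b, t * g t ^ k) - s * ∫ t in s..b, g t ^ k := by
  have hsub : Icc s b ⊆ Icc 0 b := Icc_subset_Icc hs.1 le_rfl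
  rw [← intervalIntegral.integral_const_mul, ← intervalIntegral.integral_sub]
  · exact intervalIntegral.integral_congr fun t _ => by ring
  · apply ContinuousOn.intervalIntegrable
    rw [uIcc_of_le hs.2]
    exact continuousOn_id.mul ((hc.mono hsub).pow _)
  · apply ContinuousOn.intervalIntegrable
    rw [uIcc_of_le hs.2]
    exact ((hc.mono hsub).pow _).const_smul s

theorem S_der (k : ℕ) {b : ℝ} {g : ℝ → ℝ} (hc : ContinuousOn g (Icc 0 b)) {s : ℝ}
    (hs : s ∈ Ioo 0 b) :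
    HasDerivAt (fun s => (∫ t in s..b, t * g t ^ k) - s * ∫ t in s..b, g t ^ k)
      (-∫ t in s..b, g t ^ k) s := by
  have h1 := tail_der (f := fun t => t * g t ^ k) (continuousOn_id.mul (hc.pow k)) hs
  have h2 := (hasDerivAt_id s).mul (tail_der (hc.pow k) hs)
  refine (h1.sub h2).congr_deriv ?_
  simp

theorem S_cont (k : ℕ) {b : ℝ} (hb : 0 ≤ b) {g : ℝ → ℝ} (hc : ContinuousOn g (Icc 0 b)) :
    ContinuousOn (fun s => (∫ t in s..b, t * g t ^ k) - s * ∫ t in s..b, g t ^ k)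
      (Icc 0 b) :=
  (tail_cont (f := fun t => t * g t ^ k) hb (continuousOn_id.mul (hc.pow k))).sub
    (continuousOn_id.mul (tail_cont hb (hc.pow k)))

theorem tail_Q (k : ℕ) {b : ℝ} {g g' : ℝ → ℝ} (hc : ContinuousOn g (Icc 0 b))
    (hd : ∀ s ∈ Ioo 0 b, HasDerivAt g (g' s) s) (hconc : ConcaveOn ℝ (Icc 0 b) g)
    (hanti : AntitoneOn g (Icc 0 b)) (hpos : ∀ s ∈ Icc 0 b, 0 < g s) {s : ℝ} (hs : s ∈ Icc 0 b) :
    4 * (k + 2) * (∫ t in s..b, (t - s) * g t ^ k) * g s ^ (k + 2) +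
        k * (k + 3) * (∫ t in s..b, g t ^ k) * (∫ t in s..b, g t ^ (k + 2)) ≤
      (k + 1) * (k + 4) * (∫ t in s..b, g t ^ k) ^ 2 * g s ^ 2 := by
  have hb : (0 : ℝ) ≤ b := hs.1.trans hs.2
  rw [S_eq k hc hs]
  let M : ℝ → ℝ := fun s => ∫ t in s..b, g t ^ k
  let P : ℝ → ℝ := fun s => ∫ t in s..b, g t ^ (k + 2)
  let S : ℝ → ℝ := fun s => (∫ t in s..b, t * g t ^ k) - s * ∫ t in s..b, g t ^ k
  have cM : ContinuousOn M (Icc 0 b) := tail_cont hb (hc.pow k)
  have cP : ContinuousOn P (Icc 0 b) := tail_cont hb (hc.pow (k + 2))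
  have cS : ContinuousOn S (Icc 0 b) := S_cont k hb hc
  let N : ℝ → ℝ := fun s => (k + 1) * (k + 4) * (M s ^ 2 * g s ^ 2) -
    4 * (k + 2) * (S s * g s ^ (k + 2)) - k * (k + 3) * (M s * P s)
  have cN : ContinuousOn N (Icc 0 b) :=
    ((((cM.pow 2).mul (hc.pow 2)).const_smul (((k : ℝ) + 1) * (k + 4))).sub
      ((cS.mul (hc.pow (k + 2))).const_smul (4 * ((k : ℝ) + 2)))).sub
      ((cM.mul cP).const_smul ((k : ℝ) * (k + 3)))
  have hF : AntitoneOn (fun s => N s / g s ^ (k + 2)) (Icc 0 b) := by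
    refine antitoneOn_of_hasDerivWithinAt_nonpos (convex_Icc 0 b) ?_ (f' := fun x =>
      (((k + 1) * (k + 4) * ((2 * M x * (-(g x ^ k))) * g x ^ 2 + M x ^ 2 * (2 * g x * g' x)) -
        4 * (k + 2) * ((-M x) * g x ^ (k + 2) + S x * ((k + 2) * g x ^ (k + 1) * g' x)) -
        k * (k + 3) * ((-(g x ^ k)) * P x + M x * (-(g x ^ (k + 2))))) * g x ^ (k + 2) -
        N x * ((k + 2) * g x ^ (k + 1) * g' x)) / (g x ^ (k + 2)) ^ 2) ?_ ?_
    · exact cN.div (hc.pow _) fun x hx => (pow_pos (hpos x hx) _).ne'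
    · intro x hx
      rw [interior_Icc] at hx
      have gx := hpos x (Ioo_subset_Icc_self hx)
      have dM : HasDerivAt M (-(g x ^ k)) x := tail_der (hc.pow k) hx
      have dP : HasDerivAt P (-(g x ^ (k + 2))) x := tail_der (hc.pow (k + 2)) hx
      have dS : HasDerivAt S (-M x) x := S_der k hc hx
      have dg := hd x hx
      have h1 := ((dM.pow 2).mul (dg.pow 2)).const_mul (((k : ℝ) + 1) * (k + 4))
      have h2 := (dS.mul (dg.pow (k + 2))).const_mul (4 * ((k : ℝ) + 2))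
      have h3 := (dM.mul dP).const_mul ((k : ℝ) * (k + 3))
      have h4 := (((h1.sub h2).sub h3).div (dg.pow (k + 2))
        (pow_pos gx _).ne').hasDerivWithinAt (s := interior (Icc 0 b))
      refine h4.congr_deriv ?_
      simp only [Pi.pow_apply, Pi.mul_apply, Pi.sub_apply, N]
      push_cast
      simp only [pow_one]
    · intro x hx
      rw [interior_Icc] at hx
      have hx' := Ioo_subset_Icc_self hx
      have gx := hpos x hx'
      apply div_nonpos_of_nonpos_of_nonneg _ (by positivity)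
      have hM : 0 ≤ M x := intervalIntegral.integral_nonneg hx.2.le fun t ht =>
          pow_nonneg (hpos t ⟨hx.1.le.trans ht.1, ht.2⟩).le _
      have hl : 0 ≤ -g' x := by
        have h0 : g' x ≤ 0 := by
          have h5 := hconc.le_slope_of_hasDerivAt (x := 0) (y := x) ⟨le_rfl, hb⟩ hx' hx.1
            (hd x hx)
          rw [slope_def_field, le_div_iff₀ (by linarith [hx.1])] at h5
          have h6 := hanti ⟨le_rfl, hb⟩ hx' hx.1.le
          by_contra hc'
          push Not at hc'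
          have h7 : 0 < g' x * (x - 0) := mul_pos hc' (by linarith [hx.1])
          linarith
        linarith
      have a1 := lM_le k hc hd hconc hpos hx
      have a2 := tail_G k hc hd hconc hpos hx'
      have a3 := mass_le k hc hanti hpos hx'
      have a4 := alg_Q k (Nat.cast_nonneg k) (m := M x) (p := P x) (l := -g' x) (g := g x)
        (G := g x ^ (k + 1)) hM hl a1 a2 a3
      have e : (((k + 1) * (k + 4) * ((2 * M x * (-(g x ^ k))) * g x ^ 2 +
            M x ^ 2 * (2 * g x * g' x)) -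
          4 * (k + 2) * ((-M x) * g x ^ (k + 2) + S x * ((k + 2) * g x ^ (k + 1) * g' x)) -
          k * (k + 3) * ((-(g x ^ k)) * P x + M x * (-(g x ^ (k + 2))))) * g x ^ (k + 2) -
          N x * ((k + 2) * g x ^ (k + 1) * g' x)) =
          k * g x ^ (k + 1) * (-(k + 3) * M x * g x ^ 2 * g x ^ (k + 1) +
            (k + 1) * (k + 4) * M x ^ 2 * g x ^ 2 * (-g' x) +
            (k + 3) * g x ^ (k + 1) * P x - (k + 2) * (k + 3) * M x * P x * (-g' x)) := by
        simp only [N]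
        ring
      rw [e]
      exact mul_nonpos_of_nonneg_of_nonpos (by positivity) a4
  have h1 := hF hs ⟨hb, le_rfl⟩ hs.2
  have h2 : N b = 0 := by
    simp [N, M, P, S]
  simp only [h2, zero_div] at h1
  have h3 : 0 ≤ N s := by
    by_contra hneg
    push Not at hneg
    have := div_neg_of_neg_of_pos hneg (pow_pos (hpos s hs) (k + 2))
    linarith
  simp only [N] at h3
  nlinarith [h3]

end Vale.Agent.P254.Perm.H673
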