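import Vale.Agent.P254.Perm.EqAll

/-!
P254: the strong isotropic constant conjecture for the permutation invariant bodies.
-/

open MeasureTheory Set Matrix

namespace Vale.Agent.P254.Perm

/-- The conjecture, with the case of equality, for the permutation invariant bodies. -/
theorem top {n : ℕ} (hn : 1 ≤ n) {K : Set (Fin n → ℝ)} (hK : IsConvexBody K)
    (hp : ∀ σ : Equiv.Perm (Fin n), ∀ x ∈ K, (fun i => x (σ i)) ∈ K)
    {S : Set (Fin n → ℝ)} (hS : IsSimplex S) :
    isoConst K ≤ isoConst S ∧ (isoConst K = isoConst S ↔ IsSimplex K) :=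
  ⟨isoConst_le hn hK hS hp, fun h => simplex_of_isoConst_eq hn hK hS hp h,
    fun h => by rw [isoConst_simplex h, isoConst_simplex hS]⟩

end Vale.Agent.P254.Perm
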